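import Vale.Agent.P188.H882.HS

/-!
(QA6b): the top homology of `B = K.ℤ^l`.
-/

universe u v w

namespace Vale.Agent.P188.H882

open Finsupp

section

variable {P : Type} [Group P] {X : Type} [MulAction P X] {M : Type} [AddCommGroup M]
  {ρ : P →* AddMonoid.End M}

lemma ZC.le {K : Subgroup P} : ∀ {l : ℕ} {B : Subgroup P}, ZC K l B → K ≤ B
  | 0, B, h => by
    have : B = K := h
    rw [this]
  | l + 1, B, h => by
    obtain ⟨N, t, hz, hN⟩ := h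
    exact (ZC.le hN).trans hz.le

/-- Subgroups containing the commutators are normalized. -/
lemma conj_mem_of_comm {K N : Subgroup P} (hab : ∀ a b : P, a * b * a⁻¹ * b⁻¹ ∈ K) (hKN : K ≤ N)
    (p : P) {g : P} (hg : g ∈ N) : p * g * p⁻¹ ∈ N := by
  have h1 := N.mul_mem (hKN (hab p g)) hg
  have e : p * g * p⁻¹ * g⁻¹ * g = p * g * p⁻¹ := by group
  rwa [e] at h1

lemma conj_t_mem {K N : Subgroup P} (hab : ∀ a b : P, a * b * a⁻¹ * b⁻¹ ∈ K) (hKN : K ≤ N)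
    (p t : P) : t⁻¹ * (p * t * p⁻¹) ∈ N := by
  have h1 := hKN (hab t⁻¹ p)
  have e : t⁻¹ * p * (t⁻¹)⁻¹ * p⁻¹ = t⁻¹ * (p * t * p⁻¹) := by group
  rwa [e] at h1

/-- The inductive statement. -/
structure OvS (X : Type) [MulAction P X] (ρ : P →* AddMonoid.End M) (K B : Subgroup P) (d l : ℕ)
    (Ov : CM X M → CM X M → Prop) : Prop where
  van : ∀ q ≥ d + l + 1, HVan X ρ B q
  sub : ∀ z y z' y', Ov z y → Ov z' y' → Ov (z - z') (y - y')
  act : ∀ (p : P) z y, Ov z y → Ov (aM ρ p z) (aM ρ p y)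
  null : ∀ z y, Ov z y → (Null ρ B (d + l) z ↔ Null ρ K d y)
  down : ∀ z ∈ DG X M (d + l), bM z ∈ Rl ρ B → ∃ y ∈ DG X M d, bM y ∈ Rl ρ K ∧ Ov z y
  up : ∀ y ∈ DG X M d, bM y ∈ Rl ρ K → (∀ p : P, Null ρ K d (aM ρ p y - y)) →
    ∃ z ∈ DG X M (d + l), bM z ∈ Rl ρ B ∧ Ov z y

theorem exists_ovs (hfree : ∀ (g : P) (x : X), g • x = x → g = 1) {K : Subgroup P}
    (hab : ∀ a b : P, a * b * a⁻¹ * b⁻¹ ∈ K) {d : ℕ} (hK : ∀ q ≥ d + 1, HVan X ρ K q) :
    ∀ (l : ℕ) (B : Subgroup P), ZC K l B → ∃ Ov, OvS X ρ K B d l Ov := by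
  intro l
  induction l with
  | zero =>
    intro B hB
    have hB' : B = K := hB
    subst hB'
    refine ⟨fun z y => z = y, ⟨fun q hq => hK q hq, ?_, ?_, ?_, ?_, ?_⟩⟩
    · rintro z y z' y' rfl rfl; rfl
    · rintro p z y rfl; rfl
    · rintro z y rfl; exact Iff.rfl
    · intro z hz hbz
      exact ⟨z, hz, hbz, rfl⟩
    · intro y hy hby _
      exact ⟨y, hy, hby, rfl⟩
  | succ l ih =>
    intro B hB
    obtain ⟨N, t, hz, hN⟩ := hB
    obtain ⟨Ov, hO⟩ := ih N hN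
    have hKN : K ≤ N := hN.le
    have hconj : ∀ (p : P), ∀ g ∈ N, p * g * p⁻¹ ∈ N := fun p g hg => conj_mem_of_comm hab hKN p hg
    refine ⟨fun z y => z ∈ DG X M (d + l + 1) ∧ ∃ x, x ∈ DG X M (d + l) ∧
      bM z - (aM ρ t x - x) ∈ Rl ρ N ∧ bM x ∈ Rl ρ N ∧ Ov x y, ⟨?_, ?_, ?_, ?_, ?_, ?_⟩⟩
    · intro q hq
      obtain ⟨q', rfl⟩ : ∃ q', q = q' + 1 := ⟨q - 1, by omega⟩
      exact wang_van hz hfree (hO.van _ (by omega)) (hO.van _ (by omega))
    · rintro z y z' y' ⟨h0, x, h1, h2, h3, h4⟩ ⟨h0', x', h1', h2', h3', h4'⟩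
      refine ⟨AddSubgroup.sub_mem _ h0 h0', x - x', AddSubgroup.sub_mem _ h1 h1', ?_, ?_,
        hO.sub _ _ _ _ h4 h4'⟩
      · have := AddSubgroup.sub_mem _ h2 h2'
        rw [map_sub, map_sub]
        convert this using 1
        abel
      · rw [map_sub]
        exact AddSubgroup.sub_mem _ h3 h3'
    · rintro p z y ⟨h0, x, h1, h2, h3, h4⟩
      refine ⟨aM_mem ρ p h0, aM ρ p x, aM_mem ρ p h1, ?_, ?_, hO.act p _ _ h4⟩
      · exact delta_conj hz (hconj p) (conj_t_mem hab hKN p t) h2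
      · rw [bM_aM]
        exact aM_Rl (hconj p) h3
    · rintro z y ⟨h0, x, h1, h2, h3, h4⟩
      constructor
      · intro h
        exact (hO.null _ _ h4).mp (delta_null hz hfree h0 h1 h2 h)
      · intro h
        exact delta_inj (q := d + l) hz (hO.van (d + l + 1) le_rfl) h0 h2 ((hO.null _ _ h4).mpr h)
    · intro z hz' hbz
      obtain ⟨x, hx, h1, h2⟩ := delta_exists hz hfree (q := d + l) hz' hbz
      obtain ⟨y, hy, hby, hxy⟩ := hO.down x hx h2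
      exact ⟨y, hy, hby, hz', x, hx, h1, h2, hxy⟩
    · intro y hy hby hinv
      obtain ⟨x, hx, hbx, hxy⟩ := hO.up y hy hby hinv
      have h1 : Ov (aM ρ t x - x) (aM ρ t y - y) := hO.sub _ _ _ _ (hO.act t _ _ hxy) hxy
      obtain ⟨w, hw, e⟩ := (hO.null _ _ h1).mpr (hinv t)
      have h2 : bM w - (aM ρ t x - x) ∈ Rl ρ N := by
        have := AddSubgroup.neg_mem _ e
        rwa [neg_sub] at this
      refine ⟨w, hw, ?_, hw, x, hx, h2, hbx, hxy⟩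
      have h3 := AddSubgroup.add_mem _ (Rl_mono hz.le h2) (sub_mem_Rl (ρ := ρ) hz.mem x)
      simpa using h3

end

theorem qa6b_top : QA6b_top := by
  intro P X _ _ hfree K hab l hZC d M _ ρ hK
  obtain ⟨Ov, hO⟩ := exists_ovs (ρ := ρ) hfree hab hK l ⊤ hZC
  refine ⟨hO.van, Ov, hO.sub, hO.null, ?_, hO.up⟩
  intro z hz hbz
  obtain ⟨y, hy, hby, hzy⟩ := hO.down z hz hbz
  refine ⟨y, hy, hby, ?_, hzy⟩
  intro p
  exact (hO.null _ _ (hO.sub _ _ _ _ (hO.act p _ _ hzy) hzy)).mp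
    (Null.act_sub (Subgroup.mem_top p) z)

end Vale.Agent.P188.H882
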