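import Vale.Agent.P188.H882.TopZ2
import Vale.Agent.P188.Rank

/-!
The transfer of the generator of the top cohomology with compact supports to a subgroup of
finite index is not a coboundary.
-/

universe u v w

namespace Vale.Agent.P188.H882

open Finsupp Pointwise

/-- The package of operators, with control. -/
structure Pkg (H : Type*) [Group H] (n : ℕ) (m : ℤ) (s Θ : Ch H →ₗ[ℤ] Ch H) (A : Set H) :
    Prop where
  pos : 0 < m
  s_eq : ∀ (g : H) (u : Ch H), s (act g u) = act g (s u)
  s_nil : s (single [] 1) = single [] 1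
  s_mem : ∀ q ≤ n + 2, ∀ u ∈ Sp (Gr q : Set (List H)), s u ∈ Sp (Ctl A ∩ Gr q)
  s_bd : ∀ q ≤ n + 2, ∀ u ∈ Sp (Gr q : Set (List H)), bd (s u) = s (bd u)
  t_eq : ∀ (g : H) (u : Ch H), Θ (act g u) = act g (Θ u)
  t_mem : ∀ u ∈ Sp (Gr (n + 1) : Set (List H)), Θ u ∈ Sp (Ctl A ∩ Gr (n + 2))
  t_bd : ∀ u ∈ Sp (Gr (n + 1) : Set (List H)), bd u = 0 → bd (Θ u) = m • s u
  fin : A.Finite

lemma exists_pkg {H Z : Type} [Group H] [Group Z] {n : ℕ}
    (hc : CoarseEquiv H Z) (hZ : PolyZ n Z) : ∃ m s Θ A, Pkg H n m s Θ A := by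
  obtain ⟨A, hA, s, hs_eq, hs_nil, hs_mem, hs_bd⟩ :=
    exists_compress (UA_of_coarseEquiv hc hZ) (n + 2)
  obtain ⟨m, hm, k, hk_eq, hk_mem, hk_bd⟩ := exists_integral_contraction hc hZ A hA
  have hs_mem' : ∀ q ≤ n + 2, ∀ u ∈ Sp (Gr q : Set (List H)), s u ∈ Sp (Gr q) :=
    fun q hq u hu => Sp_mono Set.inter_subset_right (hs_mem q hq u hu)
  have hk0 : k (single ([] : List H) 1) = 0 ∨ True := Or.inr trivial
  obtain ⟨B, hB, hkB⟩ : ∃ B : Set H, B.Finite ∧
      ∀ u ∈ Sp (Ctl A ∩ Gr (n + 1)), (k ∘ₗ flt (n + 1)) u ∈ Sp (Ctl B ∩ Gr (n + 2)) := by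
    refine (loc_equiv (q := n + 1) (q' := n + 2) (T := k ∘ₗ flt (n + 1)) ?_ ?_ ?_).mem hA
    · intro g u
      rw [LinearMap.comp_apply, LinearMap.comp_apply, flt_act, hk_eq]
    · intro u hu
      rw [LinearMap.comp_apply, flt_eq hu]
      exact hk_mem u hu
    · intro c _
      rw [LinearMap.comp_apply, flt_single, if_neg (by simp), map_zero, map_zero]
  refine ⟨m, s, k ∘ₗ s, A ∪ B, hm, hs_eq, hs_nil, ?_, hs_bd, ?_, ?_, ?_, hA.union hB⟩
  · intro q hq u hu
    apply Sp_mono _ (hs_mem q hq u hu)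
    exact Set.inter_subset_inter_left _ (Ctl_mono Set.subset_union_left)
  · intro g u
    rw [LinearMap.comp_apply, LinearMap.comp_apply, hs_eq, hk_eq]
  · intro u hu
    have := hkB (s u) (hs_mem _ (by omega) u hu)
    rw [LinearMap.comp_apply, flt_eq (hs_mem' _ (by omega) u hu)] at this
    apply Sp_mono _ this
    exact Set.inter_subset_inter_left _ (Ctl_mono Set.subset_union_right)
  · intro u hu hbu
    have hw : cns (1 : H) u ∈ Sp (Gr (n + 2) : Set (List H)) :=
      cns_mem (fun l hl => by simpa [Gr] using hl) hu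
    have hw' : bd (cns (1 : H) u) = u := by rw [bd_cns, hbu, map_zero, sub_zero]
    have h1 : s u = bd (s (cns 1 u)) := by rw [hs_bd _ le_rfl _ hw, hw']
    rw [LinearMap.comp_apply, h1, hk_bd _ (hs_mem _ le_rfl _ hw)]

section SumP

variable {H : Type} [Group H]

/-- The support. -/
noncomputable def rsupp (x : RG H) : Finset H := Finsupp.support (M := ℤ) x

omit [Group H] in
lemma mem_rsupp {x : RG H} {g : H} : g ∈ rsupp x ↔ cf g x ≠ 0 :=
  Finsupp.mem_support_iff (M := ℤ) (f := x)

open Classical in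
/-- The sum of the coefficients in `P`. -/
noncomputable def sumP (P : Subgroup H) : RG H →+ ℤ := rgl (fun g => if g ∈ P then 1 else 0)

open Classical in
lemma sumP_eq (P : Subgroup H) (x : RG H) :
    sumP P x = ∑ g ∈ ((rsupp x).filter (fun g => g ∈ P)), cf g x := by
  have h : sumP P x = ∑ g ∈ rsupp x, cf g x • (if g ∈ P then (1 : ℤ) else 0) := rfl
  rw [h, Finset.sum_filter]
  apply Finset.sum_congr rfl
  intro g _
  split_ifs
  · rw [smul_eq_mul, mul_one]
  · rw [smul_zero]

lemma sumP_single (P : Subgroup H) (x : RG H) (g₀ : H) (hg : g₀ ∈ P)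
    (h : ∀ g ∈ P, g ≠ g₀ → cf g x = 0) : sumP P x = cf g₀ x := by
  classical
  rw [sumP_eq]
  apply Finset.sum_eq_single g₀
  · intro g hg' hne
    rw [Finset.mem_filter] at hg'
    exact h g hg'.2 hne
  · intro hn
    rw [Finset.mem_filter] at hn
    by_contra h0
    apply hn
    refine ⟨?_, hg⟩
    rw [mem_rsupp]
    exact h0

end SumP

section Core

variable {H : Type} [Group H] {n : ℕ} {κ : Ch H →ₗ[ℤ] ℤ}

/-- The part in `P` of an element, for a transversal. -/
lemma exists_part (P : Subgroup H) [P.FiniteIndex] : ∃ (p : H → H) (R : Set H), R.Finite ∧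
    (∀ x, p x ∈ P) ∧ (∀ x, (p x)⁻¹ * x ∈ R) ∧ (∀ h ∈ P, ∀ x, p (h * x) = h * p x) ∧
    ∀ h ∈ P, ∀ x, h⁻¹ * x ∈ R → h = p x := by
  obtain ⟨T, hT, _⟩ := P.exists_isComplement_right 1
  have hu := hT.existsUnique
  choose f hf hf' using hu
  simp only at hf hf'
  have key : ∀ h ∈ P, ∀ x, h⁻¹ * x ∈ T → h = ((f x).1 : H) := by
    intro h hh x hx
    have := hf' x (⟨h, hh⟩, ⟨h⁻¹ * x, hx⟩) (by simp)
    rw [← this]
  refine ⟨fun x => ((f x).1 : H), T, hT.finite_right, fun x => (f x).1.2, ?_, ?_, key⟩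
  · intro x
    have h1 := hf x
    have h2 : ((f x).1 : H)⁻¹ * x = (f x).2 := by
      rw [inv_mul_eq_iff_eq_mul]; exact h1.symm
    rw [h2]
    exact (f x).2.2
  · intro h hh x
    symm
    apply key _ (P.mul_mem hh (f x).1.2)
    have h1 := hf x
    have h2 : (h * ((f x).1 : H))⁻¹ * (h * x) = (f x).2 := by
      have h3 : (h * ((f x).1 : H))⁻¹ * (h * x) = ((f x).1 : H)⁻¹ * x := by group
      rw [h3, inv_mul_eq_iff_eq_mul]; exact h1.symm
    rw [h2]
    exact (f x).2.2

/-- Coordinates are functionals of finite support. -/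
lemma fs_coord {q : ℕ} {l : List H} (hl : l ≠ []) : FS q (Finsupp.lapply l : Ch H →ₗ[ℤ] ℤ) := by
  refine ⟨?_, fun A _ => ?_⟩
  · rw [Finsupp.lapply_apply]
    exact Finsupp.single_eq_of_ne hl
  · apply (Set.finite_singleton l).subset
    rintro l' ⟨_, h⟩
    rw [Finsupp.lapply_apply] at h
    by_contra hne
    exact h (Finsupp.single_eq_of_ne (fun h' => hne h'.symm))

lemma kap_mem {s : Ch H →ₗ[ℤ] Ch H} {Q : ℕ}
    (hs : ∀ q ≤ Q, ∀ u ∈ Sp (Gr q : Set (List H)), s u ∈ Sp (Gr q)) :
    ∀ q ≤ Q, ∀ u ∈ Sp (Gr q : Set (List H)), kap s q u ∈ Sp (Gr (q + 1) : Set (List H)) := by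
  intro q
  induction q with
  | zero =>
    intro _ u _
    have : kap s 0 u = 0 := rfl
    rw [this]
    exact Submodule.zero_mem _
  | succ q ih =>
    intro hq u hu
    apply map_mem_of_Sp _ hu
    intro l hl
    rcases l with _ | ⟨x, t⟩
    · simp [Gr] at hl
    · rw [kap_succ_single]
      apply cns_mem (p := Gr (q + 1)) (fun l hl => by rw [mem_Gr] at *; simp [hl])
      have hdl : dl (x :: t) ∈ Sp (Gr q : Set (List H)) := by
        have := bd_mem_Gr (single_mem_Sp hl 1)
        simpa using this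
      exact Submodule.sub_mem _ (Submodule.sub_mem _ (hs _ hq _ (single_mem_Sp hl 1))
        (single_mem_Sp hl 1)) (ih (by omega) _ hdl)

lemma kap_nil (s : Ch H →ₗ[ℤ] Ch H) (q : ℕ) : kap s q (single [] 1) = 0 := by
  rcases q with _ | q
  · rfl
  · exact kap_succ_single_nil s q

theorem d4_core (hκ : Gen H n κ) {m : ℤ} {s Θ : Ch H →ₗ[ℤ] Ch H} {A : Set H}
    (hp : Pkg H n m s Θ A) {P : Subgroup H} [P.FiniteIndex] (hP : P ≤ hκ.plus)
    {c : Ch H →ₗ[ℤ] ℤ} (hc : FS (n + 1) c) (hcc : Coc (n + 1) c) {b : Ch H →ₗ[ℤ] ℤ}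
    (hb0 : b (single [] 1) = 0) (hb : ∀ h ∈ P, ∀ u, b (act h u) = b u)
    (hsum : ∀ u ∈ Sp (Gr (n + 1) : Set (List H)), sumP P (hat hc u) = b (bd u)) :
    Hom H n c 0 := by
  classical
  obtain ⟨p, R, hR, hpP, hpR, hpmul, hpu⟩ := exists_part P
  -- the functional `β`
  let βl : List H → ℤ := fun l => match l with
    | [] => 0
    | x :: t => if x ∈ R then b (single (x :: t) 1) else 0
  let β : Ch H →ₗ[ℤ] ℤ := Finsupp.linearCombination ℤ βl
  have hβl : ∀ l, β (single l 1) = βl l := by
    intro l; simp [β, Finsupp.linearCombination_single]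
  have hβ : ∀ q, FS q β := by
    intro q
    refine ⟨hβl [], fun A' hA' => ?_⟩
    apply (finite_ctl hA' q hR).subset
    rintro l ⟨hl, hne⟩
    refine ⟨hl, ?_⟩
    rw [hβl] at hne
    rcases l with _ | ⟨x, t⟩
    · exact absurd rfl hne
    · refine ⟨x, by simp, ?_⟩
      by_contra hx
      apply hne
      simp only [βl]
      rw [if_neg hx]
  have hβsum : ∀ v ∈ Sp (Gr n : Set (List H)), sumP P (hat (hβ n) v) = b v := by
    intro v hv
    have := eq_of_Sp (L := ((sumP P).comp (hat (hβ n)).toAddMonoidHom).toIntLinearMap) (L' := b)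
      (p := Gr n) (u := v) (by
      intro l hl
      show sumP P (hat (hβ n) (single l 1)) = b (single l 1)
      have hcf : ∀ g, cf g (hat (hβ n) (single l 1)) =
          β (single (l.map (fun y => g⁻¹ • y)) 1) := by
        intro g
        rw [cf_hat, flt_eq (single_mem_Sp hl 1), act_single]
      rcases l with _ | ⟨x, t⟩
      · rw [hb0]
        have : hat (hβ n) (single [] 1) = 0 := by
          apply rg_ext'
          intro g
          rw [hcf, map_zero]
          exact hβl []
        rw [this, map_zero]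
      · rw [sumP_single P _ (p x) (hpP x)]
        · rw [hcf, hβl]
          simp only [βl, List.map_cons]
          rw [if_pos (show (p x)⁻¹ • x ∈ R from hpR x)]
          have := hb (p x)⁻¹ (P.inv_mem (hpP x)) (single (x :: t) 1)
          rw [act_single, List.map_cons] at this
          exact this
        · intro g hg hne
          rw [hcf, hβl]
          simp only [βl, List.map_cons]
          rw [if_neg]
          intro h
          exact hne (hpu g hg x h)) hv
    exact this
  -- the functional `φ`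
  let φ : Ch H →ₗ[ℤ] ℤ := c - β ∘ₗ bd
  have hφ : FS (n + 1) φ := hc.sub ((hβ n).comp (loc_bd n))
  have hφsum : ∀ u ∈ Sp (Gr (n + 1) : Set (List H)), sumP P (hat hφ u) = 0 := by
    intro u hu
    have e : hat hφ u = hat hc u - hat (hβ n) (bd u) := by
      apply rg_ext'
      intro g
      rw [map_sub, cf_hat, cf_hat, cf_hat, flt_eq hu, flt_eq (bd_mem_Gr hu)]
      show c (act g⁻¹ u) - β (bd (act g⁻¹ u)) = _
      rw [bd_act]
    rw [e, map_sub, hsum u hu, hβsum _ (bd_mem_Gr hu), sub_self]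
  -- the operator `π`
  let π : Ch H →ₗ[ℤ] Ch H := (m • s - bd ∘ₗ Θ) ∘ₗ flt (n + 1)
  have hπ : ∀ u ∈ Sp (Gr (n + 1) : Set (List H)), π u = m • s u - bd (Θ u) := by
    intro u hu
    show (m • s - bd ∘ₗ Θ) (flt (n + 1) u) = _
    rw [flt_eq hu]
    rfl
  have hπeq : ∀ (g : H) (u : Ch H), π (act g u) = act g (π u) := by
    intro g u
    show (m • s - bd ∘ₗ Θ) (flt (n + 1) (act g u)) = act g ((m • s - bd ∘ₗ Θ) (flt (n + 1) u))
    rw [flt_act]
    simp only [LinearMap.sub_apply, LinearMap.smul_apply, LinearMap.comp_apply, map_sub, map_smul]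
    rw [hp.s_eq, hp.t_eq, bd_act]
  have hπmem : ∀ u ∈ Sp (Gr (n + 1) : Set (List H)), π u ∈ Sp (Ctl A ∩ Gr (n + 1)) := by
    intro u hu
    rw [hπ u hu]
    exact Submodule.sub_mem _ (Submodule.smul_mem _ _ (hp.s_mem _ (by omega) u hu))
      (bd_mem (SubC_Ctl A) (hp.t_mem u hu))
  have hπbd : ∀ u ∈ Sp (Gr (n + 2) : Set (List H)), π (bd u) = 0 := by
    intro u hu
    rw [hπ _ (bd_mem_Gr hu), hp.t_bd _ (bd_mem_Gr hu) (bd_bd u), sub_self]
  have hπnil : π (single [] 1) = 0 := by
    show (m • s - bd ∘ₗ Θ) (flt (n + 1) (single [] 1)) = _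
    rw [flt_single, if_neg (by simp), map_zero]
  have hπloc : Loc (n + 1) (n + 1) π := by
    apply loc_equiv hπeq
    · intro u hu
      exact Sp_mono Set.inter_subset_right (hπmem u hu)
    · intro c' _
      rw [hπnil, map_zero]
  -- the coordinates
  let δ : List H → (Ch H →ₗ[ℤ] ℤ) := fun l => (Finsupp.lapply l : Ch H →ₗ[ℤ] ℤ) ∘ₗ π
  have hδ : ∀ l u, δ l u = (π u) l := fun l u => rfl
  have hδfs : ∀ l, l ≠ [] → FS (n + 1) (δ l) := fun l hl => (fs_coord hl).comp hπloc
  have hδcoc : ∀ l, Coc (n + 1) (δ l) := by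
    intro l u hu
    rw [hδ, hπbd u hu]; rfl
  have hkk : ∀ l : List H, ∃ k : ℤ, l ≠ [] → Hom H n (δ l) (k • κ) := by
    intro l
    by_cases hl : l = []
    · exact ⟨0, fun h => absurd hl h⟩
    · obtain ⟨k, hk⟩ := hκ.cyc (δ l) (hδfs l hl) (hδcoc l)
      exact ⟨k, fun _ => hk⟩
  choose kk hkk using hkk
  have hkinv : ∀ h ∈ P, ∀ l : List H, l ≠ [] → kk (l.map (fun x => h • x)) = kk l := by
    intro h hh l hl
    have h1 : δ (l.map (fun x => h • x)) = δ l ∘ₗ act h⁻¹ := by
      apply LinearMap.ext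
      intro u
      show (π u) (l.map (fun x => h • x)) = (π (act h⁻¹ u)) l
      rw [hπeq]
      have e : π u = act h (act h⁻¹ (π u)) := by rw [act_act_inv]
      conv_lhs => rw [e]
      have : Function.Injective (List.map (fun x : H => h • x)) :=
        List.map_injective_iff.mpr (MulAction.injective h)
      exact Finsupp.mapDomain_apply this _ _
    have h2 := hkk _ (show l.map (fun x => h • x) ≠ [] by simpa using hl)
    rw [h1] at h2
    have h3 := Hom.act (hkk l hl) h⁻¹
    have h4 : (kk l • κ) ∘ₗ act h⁻¹ = kk l • (κ ∘ₗ act h⁻¹) := rfl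
    rw [h4] at h3
    have h5 : Hom H n (κ ∘ₗ act h⁻¹) κ := hP (P.inv_mem hh)
    exact hκ.uniq (h2.symm.trans (h3.trans (h5.smul (kk l))))
  -- the finite set of lists
  have hfin := hφ.fin A hp.fin
  let 𝓛 : Finset (List H) := hfin.toFinset
  have h𝓛 : ∀ l, l ∈ 𝓛 ↔ (l ∈ Ctl A ∩ Gr (n + 1)) ∧ φ (single l 1) ≠ 0 := by
    intro l; exact hfin.mem_toFinset
  have hφexp : ∀ v ∈ Sp (Ctl A ∩ Gr (n + 1) : Set (List H)),
      φ v = ∑ l ∈ 𝓛, φ (single l 1) * v l := by
    intro v hv
    have := eq_of_Sp (L := φ) (L' := ∑ l ∈ 𝓛, φ (single l 1) • (Finsupp.lapply l : Ch H →ₗ[ℤ] ℤ))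
      (p := Ctl A ∩ Gr (n + 1)) (u := v) (by
      intro l hl
      rw [LinearMap.sum_apply]
      by_cases h0 : φ (single l 1) = 0
      · rw [h0]
        symm
        apply Finset.sum_eq_zero
        intro l' hl'
        rw [LinearMap.smul_apply, Finsupp.lapply_apply]
        by_cases he : l' = l
        · rw [he, h0, zero_smul]
        · rw [Finsupp.single_eq_of_ne he, smul_zero]
      · rw [Finset.sum_eq_single l]
        · rw [LinearMap.smul_apply, Finsupp.lapply_apply, Finsupp.single_eq_same, smul_eq_mul,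
            mul_one]
        · intro l' _ he
          rw [LinearMap.smul_apply, Finsupp.lapply_apply, Finsupp.single_eq_of_ne he, smul_zero]
        · intro hn
          exact absurd ((h𝓛 l).mpr ⟨hl, h0⟩) hn) hv
    rw [this, LinearMap.sum_apply]
    rfl
  -- the class of `φ ∘ π`
  have hclass : Hom H n (φ ∘ₗ π) ((∑ l ∈ 𝓛, φ (single l 1) * kk l) • κ) := by
    have h1 : ∀ S : Finset (List H), (∀ l ∈ S, l ≠ []) →
        Hom H n (∑ l ∈ S, φ (single l 1) • δ l) ((∑ l ∈ S, φ (single l 1) * kk l) • κ) := by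
      intro S
      induction S using Finset.induction_on with
      | empty =>
        intro _
        simp only [Finset.sum_empty, zero_smul]
        exact Hom.refl 0
      | insert a S ha ih =>
        intro hS
        rw [Finset.sum_insert ha, Finset.sum_insert ha, add_smul]
        apply Hom.add
        · have := (hkk a (hS a (by simp))).smul (φ (single a 1))
          rwa [smul_smul] at this
        · exact ih (fun l hl => hS l (by simp [hl]))
    have h2 := h1 𝓛 (by
      intro l hl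
      have := ((h𝓛 l).mp hl).1.2
      rintro rfl
      simp [Gr] at this)
    obtain ⟨β', hβ', h3⟩ := h2
    refine ⟨β', hβ', fun u hu => ?_⟩
    rw [← h3 u hu, LinearMap.comp_apply, hφexp _ (hπmem u hu), LinearMap.sum_apply]
    rfl
  have hzero : ∑ l ∈ 𝓛, φ (single l 1) * kk l = 0 := by
    let rep : List H → List H := fun l => match l with
      | [] => []
      | x :: t => (x :: t).map (fun y => (p x)⁻¹ • y)
    let j : List H → H := fun l => match l with
      | [] => 1
      | x :: _ => (p x)⁻¹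
    have hmm : ∀ (g g' : H) (l : List H), (l.map (fun y => g • y)).map (fun y => g' • y) =
        l.map (fun y => (g' * g) • y) := by
      intro g g' l
      rw [List.map_map]
      apply List.map_congr_left
      intro y _
      simp [mul_assoc]
    have hone : ∀ l : List H, l.map (fun y => (1 : H) • y) = l := by
      intro l
      simp
    have hrep : ∀ l, rep l = l.map (fun y => j l • y) := by
      intro l
      rcases l with _ | ⟨x, t⟩
      · rfl
      · rfl
    have hjP : ∀ l, j l ∈ P := by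
      intro l
      rcases l with _ | ⟨x, t⟩
      · exact P.one_mem
      · exact P.inv_mem (hpP x)
    have hjmul : ∀ g ∈ P, ∀ l, l ≠ [] → j (l.map (fun y => g • y)) = j l * g⁻¹ := by
      intro g hg l hl
      rcases l with _ | ⟨x, t⟩
      · exact absurd rfl hl
      · show (p (g * x))⁻¹ = (p x)⁻¹ * g⁻¹
        rw [hpmul g hg, mul_inv_rev]
    rw [← Finset.sum_fiberwise_of_maps_to (t := 𝓛.image rep) (g := rep)
      (fun l hl => Finset.mem_image_of_mem rep hl)]
    apply Finset.sum_eq_zero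
    intro r hr
    rw [Finset.mem_image] at hr
    obtain ⟨l₁, hl₁, rfl⟩ := hr
    have hl₁' := (h𝓛 l₁).mp hl₁
    have hne : l₁ ≠ [] := by
      rintro rfl
      have := hl₁'.1.2
      simp [Gr] at this
    have hrne : rep l₁ ≠ [] := by
      rw [hrep]; simpa using hne
    have hrmem : rep l₁ ∈ Ctl A ∩ Gr (n + 1) := by
      rw [hrep]
      exact ⟨Ctl_map_mul _ hl₁'.1.1, by simpa [Gr] using hl₁'.1.2⟩
    have hjr : j (rep l₁) = 1 := by
      rw [hrep, hjmul _ (hjP _) _ hne, mul_inv_cancel]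
    have hkr : ∀ l ∈ 𝓛.filter (fun l => rep l = rep l₁), kk l = kk (rep l₁) := by
      intro l hl
      rw [Finset.mem_filter] at hl
      have hlne : l ≠ [] := by
        rintro rfl
        have := ((h𝓛 _).mp hl.1).1.2
        simp [Gr] at this
      rw [← hl.2, hrep]
      exact (hkinv _ (hjP l) l hlne).symm
    have e1 : ∑ l ∈ 𝓛.filter (fun l => rep l = rep l₁), φ (single l 1) * kk l =
        (∑ l ∈ 𝓛.filter (fun l => rep l = rep l₁), φ (single l 1)) * kk (rep l₁) := by
      rw [Finset.sum_mul]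
      apply Finset.sum_congr rfl
      intro l hl
      rw [hkr l hl]
    rw [e1]
    have e2 : ∑ l ∈ 𝓛.filter (fun l => rep l = rep l₁), φ (single l 1) =
        sumP P (hat hφ (single (rep l₁) 1)) := by
      rw [sumP_eq]
      have hcf : ∀ g, cf g (hat hφ (single (rep l₁) 1)) =
          φ (single ((rep l₁).map (fun y => g⁻¹ • y)) 1) := by
        intro g
        rw [cf_hat, flt_eq (single_mem_Sp hrmem.2 1), act_single]
      symm
      apply Finset.sum_nbij' (fun g => (rep l₁).map (fun y => g⁻¹ • y)) j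
      · intro g hg
        rw [Finset.mem_filter, mem_rsupp, hcf] at hg
        rw [Finset.mem_filter]
        refine ⟨(h𝓛 _).mpr ⟨⟨Ctl_map_mul _ hrmem.1, by simpa [Gr] using hrmem.2⟩, hg.1⟩, ?_⟩
        rw [hrep ((rep l₁).map (fun y => g⁻¹ • y)), hjmul _ (P.inv_mem hg.2) _ hrne, hjr, hmm]
        have : (1 * (g⁻¹)⁻¹) * g⁻¹ = 1 := by group
        rw [this, hone]
      · intro l hl
        rw [Finset.mem_filter] at hl
        have hl' := (h𝓛 l).mp hl.1
        rw [Finset.mem_filter, mem_rsupp, hcf]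
        have e : (rep l₁).map (fun y => (j l)⁻¹ • y) = l := by
          rw [← hl.2, hrep, hmm, inv_mul_cancel, hone]
        rw [e]
        exact ⟨hl'.2, hjP l⟩
      · intro g hg
        rw [Finset.mem_filter] at hg
        rw [hjmul _ (P.inv_mem hg.2) _ hrne, hjr]
        group
      · intro l hl
        rw [Finset.mem_filter] at hl
        show (rep l₁).map (fun y => (j l)⁻¹ • y) = l
        rw [← hl.2, hrep, hmm, inv_mul_cancel, hone]
      · intro g _
        exact hcf g
    rw [e2, hφsum _ (single_mem_Sp hrmem.2 1), zero_mul]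
  rw [hzero, zero_smul] at hclass
  obtain ⟨β₁, hβ₁, hcl⟩ := hclass
  have hsmem : ∀ q ≤ n + 2, ∀ u ∈ Sp (Gr q : Set (List H)), s u ∈ Sp (Gr q) :=
    fun q hq u hu => Sp_mono Set.inter_subset_right (hp.s_mem q hq u hu)
  have hmc : Hom H n (m • c) 0 := by
    refine ⟨β₁ + m • (β ∘ₗ s) - m • (c ∘ₗ kap s n), ?_, ?_⟩
    · apply FS.sub
      · apply hβ₁.add
        apply FS.smul
        apply (hβ n).comp
        apply loc_equiv hp.s_eq (hsmem n (by omega))
        intro c' hc'
        rw [hp.s_nil, hc']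
      · apply FS.smul
        apply hc.comp
        apply loc_equiv (kap_act hp.s_eq n) (kap_mem hsmem n (by omega))
        intro c' _
        rw [kap_nil, map_zero]
    · intro u hu
      have q1 := hcl u hu
      rw [LinearMap.comp_apply, LinearMap.zero_apply, zero_add] at q1
      have q2 : φ (π u) = c (π u) - β (bd (π u)) := rfl
      have q3 : c (π u) = m * c (s u) := by
        rw [hπ u hu, map_sub, map_smul, hcc _ (Sp_mono Set.inter_subset_right (hp.t_mem u hu)),
          sub_zero, smul_eq_mul]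
      have q4 : β (bd (π u)) = m * β (s (bd u)) := by
        rw [hπ u hu, map_sub, map_smul, bd_bd, sub_zero, hp.s_bd _ (by omega) u hu, map_smul,
          smul_eq_mul]
      have q5 := bd_kap hp.s_nil hp.s_bd (n + 1) (by omega) u hu
      have q6 : c (bd (kap s (n + 1) u)) = 0 := hcc _ (kap_mem hsmem (n + 1) (by omega) u hu)
      rw [q5] at q6
      rw [map_sub, map_sub] at q6
      have q7 : n + 1 - 1 = n := by omega
      rw [q7] at q6
      simp only [LinearMap.sub_apply, LinearMap.add_apply, LinearMap.smul_apply,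
        LinearMap.comp_apply, LinearMap.zero_apply, smul_eq_mul]
      have q8 : c u = c (s u) - c (kap s n (bd u)) := by linarith
      rw [q8]
      rw [q2, q3, q4] at q1
      linarith
  obtain ⟨k, hk⟩ := hκ.cyc c hc hcc
  have h1 : Hom H n ((m * k) • κ) 0 := by
    have := (hk.smul m).symm.trans hmc
    rwa [smul_smul] at this
  have h2 := hκ.nt _ h1
  have h3 : k = 0 := by
    rcases mul_eq_zero.mp h2 with h | h
    · have := hp.pos; omega
    · exact h
  rw [h3, zero_smul] at hk
  exact hk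

end Core

end Vale.Agent.P188.H882
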