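import Vale.Agent.P188.H882.HF

/-!
The Wang sequence of `B = N ⋊ ⟨t⟩` in the language of `HF`.
-/

universe u v w

namespace Vale.Agent.P188.H882

open Finsupp

variable {P : Type u} [Group P] {X : Type v} [MulAction P X] {M : Type w} [AddCommGroup M]

/-- A chain of length `q` is null for `S`: a boundary modulo the relations. -/
def Null (ρ : P →* AddMonoid.End M) (S : Subgroup P) (q : ℕ) (z : CM X M) : Prop :=
  ∃ w ∈ DG X M (q + 1), z - bM w ∈ Rl ρ S

/-- Vanishing of homology on lists of length `q`. -/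
def HVan (X : Type v) [MulAction P X] (ρ : P →* AddMonoid.End M) (S : Subgroup P) (q : ℕ) :
    Prop :=
  ∀ z ∈ DG X M q, bM z ∈ Rl ρ S → Null ρ S q z

variable {ρ : P →* AddMonoid.End M} {N B S : Subgroup P} {t : P} {q : ℕ}

lemma Null.add {z z' : CM X M} (h : Null ρ S q z) (h' : Null ρ S q z') : Null ρ S q (z + z') := by
  obtain ⟨w, hw, e⟩ := h
  obtain ⟨w', hw', e'⟩ := h'
  refine ⟨w + w', AddSubgroup.add_mem _ hw hw', ?_⟩
  have := AddSubgroup.add_mem _ e e'
  rw [map_add]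
  have e2 : z + z' - (bM w + bM w') = z - bM w + (z' - bM w') := by abel
  rw [e2]; exact this

lemma Null.neg {z : CM X M} (h : Null ρ S q z) : Null ρ S q (-z) := by
  obtain ⟨w, hw, e⟩ := h
  refine ⟨-w, AddSubgroup.neg_mem _ hw, ?_⟩
  have := AddSubgroup.neg_mem _ e
  rw [map_neg]
  have e2 : -z - -bM w = -(z - bM w) := by abel
  rw [e2]; exact this

lemma Null.sub {z z' : CM X M} (h : Null ρ S q z) (h' : Null ρ S q z') : Null ρ S q (z - z') := by
  rw [sub_eq_add_neg]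
  exact h.add h'.neg

lemma Null.zero : Null ρ S q (0 : CM X M) :=
  ⟨0, AddSubgroup.zero_mem _, by rw [map_zero, sub_zero]; exact AddSubgroup.zero_mem _⟩

lemma Null.zsmul {z : CM X M} (h : Null ρ S q z) (k : ℤ) : Null ρ S q (k • z) := by
  obtain ⟨w, hw, e⟩ := h
  refine ⟨k • w, AddSubgroup.zsmul_mem _ hw k, ?_⟩
  rw [map_zsmul, ← smul_sub]
  exact AddSubgroup.zsmul_mem _ e k

lemma Null.sum {ι : Type*} {s : Finset ι} {f : ι → CM X M} (h : ∀ i ∈ s, Null ρ S q (f i)) :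
    Null ρ S q (∑ i ∈ s, f i) := by
  classical
  induction s using Finset.induction_on with
  | empty => simpa using Null.zero
  | insert a s ha ih =>
    rw [Finset.sum_insert ha]
    exact (h a (by simp)).add (ih (fun i hi => h i (by simp [hi])))

lemma Null.mono {S T : Subgroup P} (hST : S ≤ T) {z : CM X M} (h : Null ρ S q z) :
    Null ρ T q z := by
  obtain ⟨w, hw, e⟩ := h
  exact ⟨w, hw, Rl_mono hST e⟩

lemma Null.of_mem {z : CM X M} (h : z ∈ Rl ρ S) : Null ρ S q z :=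
  ⟨0, AddSubgroup.zero_mem _, by rw [map_zero, sub_zero]; exact h⟩

lemma Null.of_bM {w : CM X M} (hw : w ∈ DG X M (q + 1)) : Null ρ S q (bM w) :=
  ⟨w, hw, by rw [sub_self]; exact AddSubgroup.zero_mem _⟩

/-- The action of a normalizing element preserves null chains. -/
lemma Null.act {p : P} (hp : ∀ g ∈ S, p * g * p⁻¹ ∈ S) {z : CM X M} (h : Null ρ S q z) :
    Null ρ S q (aM ρ p z) := by
  obtain ⟨w, hw, e⟩ := h
  refine ⟨aM ρ p w, aM_mem ρ p hw, ?_⟩
  rw [bM_aM, ← map_sub]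
  exact aM_Rl hp e

/-- Elements of `S` act trivially modulo null chains. -/
lemma Null.act_sub {p : P} (hp : p ∈ S) (z : CM X M) : Null ρ S q (aM ρ p z - z) :=
  Null.of_mem (sub_mem_Rl hp z)

/-- Null chains have boundary in the relations. -/
lemma Null.bM {z : CM X M} (h : Null ρ S q z) : bM z ∈ Rl ρ S := by
  obtain ⟨w, _, e⟩ := h
  have := bM_Rl e
  rwa [map_sub, bM_bM, sub_zero] at this

/-- Existence of the connecting class. -/
lemma delta_exists (h : ZExt N B t) (hfree : ∀ (g : P) (x : X), g • x = x → g = 1)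
    {z : CM X M} (hz : z ∈ DG X M (q + 1)) (hb : H882.bM z ∈ Rl ρ B) :
    ∃ y ∈ DG X M q, H882.bM z - (aM ρ t y - y) ∈ Rl ρ N ∧ H882.bM y ∈ Rl ρ N := by
  obtain ⟨r, hr, hrq, y, hy, e⟩ := W0_deg h hb (bM_mem hz)
  refine ⟨y, hy, ?_, ?_⟩
  · rw [e]
    have : r + (aM ρ t y - y) - (aM ρ t y - y) = r := by abel
    rw [this]; exact hr
  · apply W1 h hfree
    have h1 : H882.bM (H882.bM z) = H882.bM r + (aM ρ t (H882.bM y) - H882.bM y) := by
      rw [e, map_add, map_sub, bM_aM]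
    rw [bM_bM] at h1
    have h2 : aM ρ t (H882.bM y) - H882.bM y = - H882.bM r := by
      rw [eq_neg_iff_add_eq_zero, add_comm]; exact h1.symm
    rw [h2]
    exact AddSubgroup.neg_mem _ (bM_Rl hr)

/-- Injectivity of the connecting map. -/
lemma delta_inj (h : ZExt N B t) (hN : HVan X ρ N (q + 1)) {z y : CM X M}
    (hz : z ∈ DG X M (q + 1)) (hzy : H882.bM z - (aM ρ t y - y) ∈ Rl ρ N)
    (hy : Null ρ N q y) : Null ρ B (q + 1) z := by
  obtain ⟨w, hw, e⟩ := hy
  have h1 : H882.bM (z - (aM ρ t w - w)) ∈ Rl ρ N := by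
    have h2 : aM ρ t (y - H882.bM w) - (y - H882.bM w) ∈ Rl (X := X) ρ N :=
      AddSubgroup.sub_mem _ (aM_Rl h.conj e) e
    have := AddSubgroup.add_mem _ hzy h2
    rw [map_sub, map_sub, bM_aM]
    rw [map_sub] at this
    have e2 : H882.bM z - (aM ρ t (H882.bM w) - H882.bM w) = H882.bM z - (aM ρ t y - y) +
      (aM ρ t y - aM ρ t (H882.bM w) - (y - H882.bM w)) := by abel
    rw [e2]; exact this
  have h3 := hN _ (AddSubgroup.sub_mem _ hz (AddSubgroup.sub_mem _ (aM_mem ρ t hw) hw)) h1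
  have h4 := (h3.mono h.le).add (Null.act_sub (q := q + 1) h.mem w)
  simpa using h4

/-- The connecting class of a null chain is null. -/
lemma delta_null (h : ZExt N B t) (hfree : ∀ (g : P) (x : X), g • x = x → g = 1)
    {z y : CM X M} (hz : z ∈ DG X M (q + 1)) (hy : y ∈ DG X M q)
    (hzy : H882.bM z - (aM ρ t y - y) ∈ Rl ρ N)
    (hn : Null ρ B (q + 1) z) : Null ρ N q y := by
  obtain ⟨w, hw, e⟩ := hn
  obtain ⟨r, hr, hrq, x, hx, e2⟩ := W0_deg h e (AddSubgroup.sub_mem _ hz (bM_mem hw))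
  refine ⟨x, hx, ?_⟩
  apply W1 h hfree
  have h1 : H882.bM z = H882.bM r + (aM ρ t (H882.bM x) - H882.bM x) := by
    have := congrArg H882.bM e2
    rwa [map_sub, bM_bM, sub_zero, map_add, map_sub, bM_aM] at this
  rw [h1] at hzy
  have h2 := AddSubgroup.sub_mem _ (bM_Rl hr) hzy
  rw [map_sub]
  have e3 : aM ρ t y - aM ρ t (H882.bM x) - (y - H882.bM x) = H882.bM r -
    (H882.bM r + (aM ρ t (H882.bM x) - H882.bM x) - (aM ρ t y - y)) := by abel
  rw [e3]; exact h2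

/-- The connecting class is compatible with the action. -/
lemma delta_conj (h : ZExt N B t) {p : P} (hp : ∀ g ∈ N, p * g * p⁻¹ ∈ N)
    (hpt : t⁻¹ * (p * t * p⁻¹) ∈ N) {z y : CM X M}
    (hzy : H882.bM z - (aM ρ t y - y) ∈ Rl ρ N) :
    H882.bM (aM ρ p z) - (aM ρ t (aM ρ p y) - aM ρ p y) ∈ Rl ρ N := by
  have h1 := aM_Rl hp hzy
  rw [map_sub, map_sub, ← bM_aM] at h1
  -- `p t y = t n p y`
  have e : aM ρ p (aM ρ t y) = aM ρ t (aM ρ (t⁻¹ * (p * t * p⁻¹)) (aM ρ p y)) := by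
    rw [← aM_mul, ← aM_mul, ← aM_mul]
    congr 2
    group
  rw [e] at h1
  have h2 := aM_Rl h.conj (sub_mem_Rl (ρ := ρ) hpt (aM ρ p y))
  rw [map_sub] at h2
  have h3 := AddSubgroup.add_mem _ h1 h2
  convert h3 using 1
  abel

lemma wang_van (h : ZExt N B t) (hfree : ∀ (g : P) (x : X), g • x = x → g = 1)
    (h1 : HVan X ρ N (q + 1)) (h2 : HVan X ρ N q) : HVan X ρ B (q + 1) := by
  intro z hz hb
  obtain ⟨y, hy, e1, e2⟩ := delta_exists h hfree hz hb
  exact delta_inj h h1 hz e1 (h2 y hy e2)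

/-- Homology commutes with directed unions. -/
lemma HVan.union {K : Subgroup P} (h : ∀ F : Finset P, (F : Set P) ⊆ K → ∃ B : Subgroup P,
    (F : Set P) ⊆ B ∧ B ≤ K ∧ HVan X ρ B q) : HVan X ρ K q := by
  intro z hz hb
  obtain ⟨F, hF, e⟩ := exists_finset_Rl hb
  obtain ⟨B, hFB, hBK, hB⟩ := h F hF
  exact (hB z hz (Rl_mono ((Subgroup.closure_le B).mpr hFB) e)).mono hBK

lemma Null.exists_finset {K : Subgroup P} {z : CM X M} (h : Null ρ K q z) :
    ∃ F : Finset P, (F : Set P) ⊆ K ∧ Null ρ (Subgroup.closure (F : Set P)) q z := by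
  obtain ⟨w, hw, e⟩ := h
  obtain ⟨F, hF, e⟩ := exists_finset_Rl e
  exact ⟨F, hF, w, hw, e⟩

end Vale.Agent.P188.H882
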