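import Vale.Agent.P188.H882.D4
import Vale.Agent.P188.H882.HW

/-!
(D4): a cycle and an invariant cocycle for subgroups of finite index.
-/

universe u v w

namespace Vale.Agent.P188.H882

open Finsupp Pointwise

lemma ext_Q {A V : Type} [AddCommGroup A] [AddCommGroup V] (D : A →+ V) (g : A →+ ℚ)
    (h : ∀ a, D a = 0 → g a = 0) : ∃ b : V →+ ℚ, ∀ a, b (D a) = g a := by
  have hB : Module.Baer ℤ ℚ := Module.Baer.of_divisible ℚ
  obtain ⟨b, hb⟩ := hB.extension_property_addMonoidHom (QuotientAddGroup.kerLift D)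
    (QuotientAddGroup.kerLift_injective D)
    (QuotientAddGroup.lift D.ker g (fun a ha => h a ha))
  refine ⟨b, fun a => ?_⟩
  have := DFunLike.congr_fun hb (QuotientAddGroup.mk a)
  rw [AddMonoidHom.comp_apply, QuotientAddGroup.kerLift_mk] at this
  rw [this]
  rfl

lemma exists_denom {S : Set ℚ} (hS : S.Finite) : ∃ q : ℤ, q ≠ 0 ∧ ∀ x ∈ S, ∃ k : ℤ, q * x = k := by
  induction S, hS using Set.Finite.induction_on with
  | empty => exact ⟨1, one_ne_zero, fun x hx => absurd hx (Set.notMem_empty x)⟩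
  | @insert a S _ _ ih =>
    obtain ⟨q, hq, h⟩ := ih
    refine ⟨q * a.den, mul_ne_zero hq (by exact_mod_cast a.den_nz), ?_⟩
    intro x hx
    rcases hx with rfl | hx
    · refine ⟨q * x.num, ?_⟩
      push_cast
      rw [mul_assoc, Rat.den_mul_eq_num]
    · obtain ⟨k, hk⟩ := h x hx
      refine ⟨k * a.den, ?_⟩
      push_cast
      rw [← hk]; ring

section

variable {H : Type} [Group H] {n : ℕ} {κ : Ch H →ₗ[ℤ] ℤ}

lemma hom_s {m : ℤ} {s Θ : Ch H →ₗ[ℤ] Ch H} {A : Set H} (hp : Pkg H n m s Θ A)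
    {c : Ch H →ₗ[ℤ] ℤ} (hc : FS (n + 1) c) (hcc : Coc (n + 1) c) : Hom H n (c ∘ₗ s) c := by
  have hsmem : ∀ q ≤ n + 2, ∀ u ∈ Sp (Gr q : Set (List H)), s u ∈ Sp (Gr q) :=
    fun q hq u hu => Sp_mono Set.inter_subset_right (hp.s_mem q hq u hu)
  refine ⟨c ∘ₗ kap s n, ?_, ?_⟩
  · apply hc.comp
    apply loc_equiv (kap_act hp.s_eq n) (kap_mem hsmem n (by omega))
    intro c' _
    rw [kap_nil, map_zero]
  · intro u hu
    have q5 := bd_kap hp.s_nil hp.s_bd (n + 1) (by omega) u hu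
    have q6 : c (bd (kap s (n + 1) u)) = 0 := hcc _ (kap_mem hsmem (n + 1) (by omega) u hu)
    rw [q5] at q6
    rw [map_sub, map_sub] at q6
    have q7 : n + 1 - 1 = n := by omega
    rw [q7] at q6
    rw [LinearMap.comp_apply, LinearMap.comp_apply]
    linarith

/-- The relations over `ℤ`. -/
noncomputable def RZ (P : Subgroup H) : Submodule ℤ (Ch H) :=
  Submodule.span ℤ {v | ∃ h ∈ P, ∃ u : Ch H, v = act h u - u} ⊔ Sp (Gr 0)

lemma tp_RZ {P : Subgroup H} {v : Ch H} (hv : v ∈ RZ P) :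
    tp v (1 : ℤ) ∈ Rl (X := H) (M := ℤ) (1 : H →* AddMonoid.End ℤ) P := by
  let f : Ch H →+ CM H ℤ := ⟨⟨fun u => tp u (1 : ℤ), tp_zero_left _⟩, fun u v => tp_add_left u v 1⟩
  have hle : RZ P ≤ AddSubgroup.toIntSubmodule
      ((Rl (X := H) (M := ℤ) (1 : H →* AddMonoid.End ℤ) P).comap f) := by
    apply sup_le
    · apply Submodule.span_le.mpr
      rintro _ ⟨h, hh, u, rfl⟩
      show tp (act h u - u) (1 : ℤ) ∈ Rl (X := H) (M := ℤ) (1 : H →* AddMonoid.End ℤ) P
      rw [tp_sub_left]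
      exact sub_mem_Rl hh (tp u (1 : ℤ))
    · intro w hw
      exact DG_le_Rl P (tp_mem_DG hw 1)
  exact hle hv

theorem d4 {Z : Type} [Group Z] (hc : CoarseEquiv H Z) (hZ : PolyZ n Z) :
    ∃ Hp : Subgroup H, Hp.FiniteIndex ∧ ∀ P : Subgroup H, P ≤ Hp → P.FiniteIndex →
      ∃ c : Ch H →ₗ[ℤ] ℤ, (∀ h ∈ P, ∀ u, c (act h u) = c u) ∧
        (∀ u ∈ Sp (Gr (n + 2) : Set (List H)), c (bd u) = 0) ∧
        ∃ z ∈ Sp (Gr (n + 1) : Set (List H)), bd z ∈ RZ P ∧ c z ≠ 0 := by
  classical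
  obtain ⟨κ, hκ⟩ := (topZ_of_coarse hc (topZ_of_dual (dual_of_PolyZ n Z hZ))).exists_gen
  obtain ⟨m, s, Θ, A, hp⟩ := exists_pkg hc hZ
  have hsmem : ∀ q ≤ n + 2, ∀ u ∈ Sp (Gr q : Set (List H)), s u ∈ Sp (Gr q) :=
    fun q hq u hu => Sp_mono Set.inter_subset_right (hp.s_mem q hq u hu)
  refine ⟨hκ.plus, hκ.plus_finiteIndex, ?_⟩
  intro P hP hPf
  let C : Ch H →ₗ[ℤ] ℤ := ((sumP P).comp (hat hκ.fs).toAddMonoidHom).toIntLinearMap
  have hC : ∀ u, C u = sumP P (hat hκ.fs u) := fun u => rfl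
  have hsumP : ∀ h ∈ P, ∀ x : RG H, sumP P (h • x) = sumP P x := by
    intro h hh x
    have := rg_ext (f := (sumP P).comp (DistribSMul.toAddMonoidHom (RG H) h)) (g := sumP P) (by
      intro g
      simp only [AddMonoidHom.comp_apply, DistribSMul.toAddMonoidHom_apply]
      rw [smul_rgs, sumP, rgl_rgs, rgl_rgs]
      congr 1
      rw [Subgroup.mul_mem_cancel_left _ hh]) x
    simpa using this
  have hCinv : ∀ h ∈ P, ∀ u, C (act h u) = C u := by
    intro h hh u
    rw [hC, hC, hat_eqv, hsumP h hh]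
  have hCcoc : ∀ u ∈ Sp (Gr (n + 2) : Set (List H)), C (bd u) = 0 := by
    intro u hu
    rw [hC, hat_coc hκ.fs hκ.coc u hu, map_zero]
  refine ⟨C, hCinv, hCcoc, ?_⟩
  by_contra hcon
  push Not at hcon
  -- extension to a rational functional
  let V := Ch H ⧸ (RZ P)
  let D : Ch H →+ V := ((RZ P).mkQ ∘ₗ bd ∘ₗ flt (n + 1)).toAddMonoidHom
  have hD : ∀ u, D u = (RZ P).mkQ (bd (flt (n + 1) u)) := fun u => rfl
  let g : Ch H →+ ℚ := (Int.castAddHom ℚ).comp (C ∘ₗ flt (n + 1)).toAddMonoidHom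
  have hg : ∀ u, g u = ((C (flt (n + 1) u) : ℤ) : ℚ) := fun u => rfl
  obtain ⟨b, hb⟩ := ext_Q D g (by
    intro a ha
    rw [hD] at ha
    have h1 : bd (flt (n + 1) a) ∈ RZ P := (Submodule.Quotient.mk_eq_zero _).mp ha
    rw [hg, hcon _ (flt_mem _ a) h1, Int.cast_zero])
  let B : Ch H →+ ℚ := b.comp (RZ P).mkQ.toAddMonoidHom
  have hB : ∀ u, B u = b ((RZ P).mkQ u) := fun u => rfl
  have hBC : ∀ u ∈ Sp (Gr (n + 1) : Set (List H)), ((C u : ℤ) : ℚ) = B (bd u) := by
    intro u hu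
    have := hb u
    rw [hD, hg, flt_eq hu] at this
    exact this.symm
  have hBinv : ∀ h ∈ P, ∀ u, B (act h u) = B u := by
    intro h hh u
    rw [hB, hB]
    congr 1
    rw [← sub_eq_zero, ← map_sub]
    exact (Submodule.Quotient.mk_eq_zero _).mpr
      (Submodule.mem_sup_left (Submodule.subset_span ⟨h, hh, u, rfl⟩))
  have hB0 : B (single [] 1) = 0 := by
    rw [hB]
    have : (RZ P).mkQ (single [] 1) = 0 := (Submodule.Quotient.mk_eq_zero _).mpr
      (Submodule.mem_sup_right (single_mem_Sp (by simp [Gr]) 1))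
    rw [this, map_zero]
  -- finitely many values on controlled lists
  have hfin : {x : ℚ | ∃ l ∈ Ctl A ∩ Gr n, x = B (single l 1)}.Finite := by
    obtain ⟨p, R, hR, hpP, hpR, hpmul, hpu⟩ := exists_part P
    obtain ⟨L, hL, hLA, hrep⟩ := exists_orbit_reps hp.fin n
    apply ((hR.prod hL).image (fun r => B (single (r.2.map (fun x => r.1 • x)) 1))).subset
    rintro _ ⟨l, hl, rfl⟩
    obtain ⟨g, l₀, hl₀, rfl⟩ := hrep l hl
    refine ⟨((p g)⁻¹ * g, l₀), ⟨hpR g, hl₀⟩, ?_⟩
    have h1 := hBinv (p g) (hpP g) (single (l₀.map (fun x => ((p g)⁻¹ * g) • x)) 1)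
    rw [act_single, List.map_map] at h1
    show B _ = B _
    rw [← h1]
    congr 2
    apply List.map_congr_left
    intro x _
    simp [mul_assoc]
  obtain ⟨q, hq, hqk⟩ := exists_denom hfin
  let b' : Ch H →ₗ[ℤ] ℤ := Finsupp.linearCombination ℤ
    (fun l => if l ∈ Ctl A ∩ Gr n then ⌊(q : ℚ) * B (single l 1)⌋ else 0)
  have hb'l : ∀ l, b' (single l 1) =
      if l ∈ Ctl A ∩ Gr n then ⌊(q : ℚ) * B (single l 1)⌋ else 0 := by
    intro l; simp [b', Finsupp.linearCombination_single]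
  have hb'0 : b' (single [] 1) = 0 := by
    rw [hb'l]
    split_ifs
    · rw [hB0, mul_zero, Int.floor_zero]
    · rfl
  have hb'inv : ∀ h ∈ P, ∀ u, b' (act h u) = b' u := by
    intro h hh u
    have : (b' ∘ₗ act h : Ch H →ₗ[ℤ] ℤ) = b' := by
      apply lin_ext
      intro l
      rw [LinearMap.comp_apply, act_single, hb'l, hb'l]
      have e1 : l.map (fun x => h • x) ∈ Ctl A ∩ Gr n ↔ l ∈ Ctl A ∩ Gr n := by
        constructor
        · rintro ⟨h1, h2⟩
          refine ⟨?_, by simpa [Gr] using h2⟩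
          have := Ctl_map_mul h⁻¹ h1
          rw [List.map_map] at this
          have e : ((fun x => h⁻¹ * x) ∘ fun x => h • x) = fun x : H => x := by
            funext x; simp
          rw [e, List.map_id'] at this
          exact this
        · rintro ⟨h1, h2⟩
          exact ⟨Ctl_map_mul h h1, by simpa [Gr] using h2⟩
      have e2 : B (single (l.map (fun x => h • x)) 1) = B (single l 1) := by
        have := hBinv h hh (single l 1)
        rwa [act_single] at this
      rw [e2]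
      by_cases hl : l ∈ Ctl A ∩ Gr n
      · rw [if_pos hl, if_pos (e1.mpr hl)]
      · rw [if_neg hl, if_neg (fun h => hl (e1.mp h))]
    exact LinearMap.congr_fun this u
  have hb'B : ∀ v ∈ Sp (Ctl A ∩ Gr n : Set (List H)), ((b' v : ℤ) : ℚ) = q * B v := by
    intro v hv
    have := eq_of_Sp (L := ((Int.castAddHom ℚ).comp b'.toAddMonoidHom).toIntLinearMap)
      (L' := ((AddMonoidHom.mulLeft (q : ℚ)).comp B).toIntLinearMap)
      (p := Ctl A ∩ Gr n) (u := v) (by
      intro l hl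
      show ((b' (single l 1) : ℤ) : ℚ) = q * B (single l 1)
      rw [hb'l, if_pos hl]
      obtain ⟨k, hk⟩ := hqk _ ⟨l, hl, rfl⟩
      rw [hk, Int.floor_intCast]) hv
    exact this
  -- the cocycle `q κ ∘ s`
  have hsloc : Loc (n + 1) (n + 1) s := loc_equiv hp.s_eq (hsmem _ (by omega)) (by
    intro c' hc'
    rw [hp.s_nil, hc'])
  have hcfs : FS (n + 1) ((q • κ) ∘ₗ s) := (hκ.fs.smul q).comp hsloc
  have hccoc : Coc (n + 1) ((q • κ) ∘ₗ s) := by
    intro u hu
    rw [LinearMap.comp_apply, ← hp.s_bd _ (by omega) u hu, LinearMap.smul_apply,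
      hκ.coc _ (hsmem _ (by omega) u hu), smul_zero]
  have hmain := d4_core hκ hp hP hcfs hccoc (b := b' ∘ₗ s)
    (by rw [LinearMap.comp_apply, hp.s_nil, hb'0])
    (by intro h hh u; rw [LinearMap.comp_apply, LinearMap.comp_apply, hp.s_eq, hb'inv h hh])
    (by
      intro u hu
      have e1 : hat hcfs u = q • hat hκ.fs (s u) := by
        apply rg_ext'
        intro g
        rw [cf_hat, map_zsmul, cf_hat, flt_eq hu, flt_eq (hsmem _ (by omega) u hu)]
        rw [LinearMap.comp_apply, hp.s_eq, LinearMap.smul_apply]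
      rw [e1, map_zsmul, ← hC]
      have e2 := hb'B (bd (s u)) (bd_mem (SubC_Ctl A) (hp.s_mem _ (by omega) u hu))
      rw [← hBC _ (hsmem _ (by omega) u hu)] at e2
      rw [LinearMap.comp_apply, ← hp.s_bd _ (by omega) u hu]
      have e3 : ((b' (bd (s u)) : ℤ) : ℚ) = ((q * C (s u) : ℤ) : ℚ) := by
        rw [e2]; push_cast; ring
      rw [smul_eq_mul]
      exact_mod_cast e3.symm)
  have h1 : Hom H n (q • κ) 0 := by
    have h2 := (hom_s hp hκ.fs hκ.coc).smul q
    exact h2.symm.trans hmain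
  exact hq (hκ.nt q h1)

/-- The prism of an equivariant map is equivariant. -/
lemma pr_act' {P X : Type} [Group P] [MulAction P X] {f : X → X} {h : P}
    (hf : ∀ x, f (h • x) = h • f x) (u : Ch X) : pr f (act h u) = act h (pr f u) := by
  have : (pr f ∘ₗ act h : Ch X →ₗ[ℤ] Ch X) = act h ∘ₗ pr f := by
    apply lin_ext
    intro l
    rw [LinearMap.comp_apply, LinearMap.comp_apply, act_single, pr_single, pr_single, one_smul,
      one_smul]
    induction l with
    | nil => simp [prl]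
    | cons x t ih =>
      rw [List.map_cons, prl_cons, prl_cons, ih, map_sub, act_cns, act_single]
      simp only [List.map_cons, List.map_map]
      congr 2
      rw [hf]
      congr 3
      funext y
      exact hf y
  exact LinearMap.congr_fun this u

theorem d4P {Z : Type} [Group Z] (hc : CoarseEquiv H Z) (hZ : PolyZ n Z) :
    ∃ Hp : Subgroup H, Hp.FiniteIndex ∧ ∀ P : Subgroup H, P ≤ Hp → P.FiniteIndex →
      ∃ c : Ch P →ₗ[ℤ] ℤ, (∀ (g : P) (u : Ch P), c (act g u) = c u) ∧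
        (∀ u ∈ Sp (Gr (n + 2) : Set (List P)), c (bd u) = 0) ∧
        ∃ z ∈ Sp (Gr (n + 1) : Set (List P)),
          bM (tp z (1 : ℤ)) ∈ Rl (X := P) (M := ℤ) (1 : P →* AddMonoid.End ℤ) (⊤ : Subgroup P) ∧
          c z ≠ 0 := by
  obtain ⟨Hp, hHp, h⟩ := d4 hc hZ
  refine ⟨Hp, hHp, fun P hP hPf => ?_⟩
  obtain ⟨c, hcinv, hccoc, z, hz, hbz, hcz⟩ := h P hP hPf
  obtain ⟨p, R, hR, hpP, hpR, hpmul, hpu⟩ := exists_part P
  let ι : P → H := Subtype.val
  let r : H → P := fun x => ⟨p x, hpP x⟩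
  have hι : ∀ (g : P) (u : Ch P), pf ι (act g u) = act (g : H) (pf ι u) := by
    intro g u
    rw [act, act, pf_comp, pf_comp]
    rfl
  have hr : ∀ (g : P) (u : Ch H), pf r (act (g : H) u) = act g (pf r u) := by
    intro g u
    rw [act, act, pf_comp, pf_comp]
    congr 2
    funext x
    exact Subtype.ext (hpmul g g.2 x)
  refine ⟨c ∘ₗ pf ι, ?_, ?_, pf r z, pf_mem (fun l hl => by simpa [Gr] using hl) hz, ?_, ?_⟩
  · intro g u
    rw [LinearMap.comp_apply, LinearMap.comp_apply, hι, hcinv g g.2]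
  · intro u hu
    rw [LinearMap.comp_apply, ← bd_pf]
    exact hccoc _ (pf_mem (fun l hl => by simpa [Gr] using hl) hu)
  · have h1 : bd (pf r z) ∈ RZ (⊤ : Subgroup P) := by
      rw [bd_pf]
      have hle : RZ P ≤ (RZ (⊤ : Subgroup P)).comap (pf r) := by
        apply sup_le
        · apply Submodule.span_le.mpr
          rintro _ ⟨h, hh, u, rfl⟩
          show pf r (act h u - u) ∈ RZ (⊤ : Subgroup P)
          rw [map_sub, hr ⟨h, hh⟩ u]
          exact Submodule.mem_sup_left (Submodule.subset_span ⟨⟨h, hh⟩, trivial, _, rfl⟩)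
        · intro w hw
          exact Submodule.mem_sup_right (pf_mem (fun l hl => by simpa [Gr] using hl) hw)
      exact hle hbz
    exact tp_RZ h1
  · rw [LinearMap.comp_apply, pf_comp]
    have hpr := bd_pr (ι ∘ r) z
    have h1 : c (bd (pr (ι ∘ r) z)) = 0 := hccoc _ (pr_mem (fun l hl l' _ hl' => by
      rw [mem_Gr] at *; omega) hz)
    have h2 : c (pr (ι ∘ r) (bd z)) = 0 := by
      have hle : RZ P ≤ LinearMap.ker (c ∘ₗ pr (ι ∘ r)) := by
        apply sup_le
        · apply Submodule.span_le.mpr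
          rintro _ ⟨h, hh, u, rfl⟩
          show c (pr (ι ∘ r) (act h u - u)) = 0
          rw [map_sub, pr_act' (fun x => hpmul h hh x), map_sub, hcinv h hh, sub_self]
        · intro w hw
          show c (pr (ι ∘ r) w) = 0
          have := eq_of_Sp (L := pr (ι ∘ r)) (L' := 0) (p := Gr 0) (u := w) (by
            intro l hl
            have : l = [] := List.length_eq_zero_iff.mp hl
            subst this
            rw [pr_nil_eq]; rfl) hw
          rw [this]
          simp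
      exact hle hbz
    have h3 : pf (ι ∘ r) z = bd (pr (ι ∘ r) z) + pr (ι ∘ r) (bd z) + z := by
      rw [hpr]; abel
    rw [h3, map_add, map_add, h1, h2]
    simpa using hcz

end

end Vale.Agent.P188.H882
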