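import Vale.Agent.P188.Main

/-!
Duality for poly-`ℤ` groups: preliminaries.
-/

universe u v w

namespace Vale.Agent.P188.H882

open Finsupp

section IM

variable {G : Type*} [Group G]

/-- The subgroup generated by the elements `g m - ω(g) m`. -/
def IM (ω : G →* ℤˣ) (M : Type*) [AddCommGroup M] [DistribMulAction G M] : AddSubgroup M :=
  AddSubgroup.closure {v | ∃ (g : G) (m : M), v = g • m - ((ω g : ℤˣ) : ℤ) • m}

variable {ω : G →* ℤˣ} {M : Type*} [AddCommGroup M] [DistribMulAction G M]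

lemma sub_mem_IM (g : G) (m : M) : g • m - ((ω g : ℤˣ) : ℤ) • m ∈ IM ω M :=
  AddSubgroup.subset_closure ⟨g, m, rfl⟩

lemma IM_le {K : AddSubgroup M} (h : ∀ (g : G) (m : M), g • m - ((ω g : ℤˣ) : ℤ) • m ∈ K) :
    IM ω M ≤ K := by
  apply (AddSubgroup.closure_le K).mpr
  rintro _ ⟨g, m, rfl⟩
  exact h g m

lemma smul_mem_IM (g : G) {m : M} (hm : m ∈ IM ω M) : g • m ∈ IM ω M := by
  have : IM ω M ≤ (IM ω M).comap (DistribSMul.toAddMonoidHom M g) := by
    apply IM_le
    intro h m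
    show g • (h • m - ((ω h : ℤˣ) : ℤ) • m) ∈ IM ω M
    have e : g • (h • m - ((ω h : ℤˣ) : ℤ) • m) =
        ((g * h) • m - ((ω (g * h) : ℤˣ) : ℤ) • m) -
          ((ω h : ℤˣ) : ℤ) • (g • m - ((ω g : ℤˣ) : ℤ) • m) := by
      have e1 : (((ω g : ℤˣ) : ℤ) * ((ω h : ℤˣ) : ℤ)) • m =
          ((ω h : ℤˣ) : ℤ) • ((ω g : ℤˣ) : ℤ) • m := by rw [smul_smul, mul_comm]
      rw [smul_sub, smul_sub, mul_smul, smul_comm g ((ω h : ℤˣ) : ℤ) m, map_mul, Units.val_mul, e1]
      abel
    rw [e]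
    exact AddSubgroup.sub_mem _ (sub_mem_IM _ _) (AddSubgroup.zsmul_mem _ (sub_mem_IM _ _) _)
  exact this hm

end IM

section Coc

variable {X : Type*} {M : Type*} [AddCommGroup M]

/-- Cocycles on lists of length `q`. -/
def Coc (q : ℕ) (c : Ch X →ₗ[ℤ] M) : Prop := ∀ u ∈ Sp (Gr (q + 1) : Set (List X)), c (bd u) = 0

/-- Equivariance. -/
def Eqv (G : Type*) [Group G] [MulAction G X] [DistribMulAction G M] (c : Ch X →ₗ[ℤ] M) : Prop :=
  ∀ (g : G) (u : Ch X), c (act g u) = g • c u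

lemma Coc.add {q : ℕ} {c c' : Ch X →ₗ[ℤ] M} (h : Coc q c) (h' : Coc q c') : Coc q (c + c') := by
  intro u hu
  rw [LinearMap.add_apply, h u hu, h' u hu, add_zero]

lemma Coc.sub {q : ℕ} {c c' : Ch X →ₗ[ℤ] M} (h : Coc q c) (h' : Coc q c') : Coc q (c - c') := by
  intro u hu
  rw [LinearMap.sub_apply, h u hu, h' u hu, sub_zero]

variable {G : Type*} [Group G] [MulAction G X] [DistribMulAction G M]

lemma Eqv.add {c c' : Ch X →ₗ[ℤ] M} (h : Eqv G c) (h' : Eqv G c') : Eqv G (c + c') := by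
  intro g u
  rw [LinearMap.add_apply, LinearMap.add_apply, h, h', smul_add]

lemma Eqv.sub {c c' : Ch X →ₗ[ℤ] M} (h : Eqv G c) (h' : Eqv G c') : Eqv G (c - c') := by
  intro g u
  rw [LinearMap.sub_apply, LinearMap.sub_apply, h, h', smul_sub]

/-- Restriction to lists of length `q`. -/
lemma exists_restrict {q : ℕ} {c : Ch X →ₗ[ℤ] M}
    (h : ∀ (g : G), ∀ u ∈ Sp (Gr q : Set (List X)), c (act g u) = g • c u) :
    Eqv G (c ∘ₗ flt q) ∧ ∀ u ∈ Sp (Gr q : Set (List X)), (c ∘ₗ flt q) u = c u := by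
  refine ⟨fun g u => ?_, fun u hu => ?_⟩
  · rw [LinearMap.comp_apply, LinearMap.comp_apply, flt_act, h g _ (flt_mem q u)]
  · rw [LinearMap.comp_apply, flt_eq hu]

end Coc

/-- Duality data for `G` acting on `X`. -/
structure DualAt (G : Type) [Group G] (ω : G →* ℤˣ) (X : Type) [MulAction G X] (n : ℕ)
    (c₀ : Ch X) : Prop where
  mem : c₀ ∈ Sp (Gr (n + 1) : Set (List X))
  inj : ∀ (M : Type) [AddCommGroup M] [DistribMulAction G M] (c : Ch X →ₗ[ℤ] M),
    Eqv G c → Coc (n + 1) c → c c₀ ∈ IM ω M →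
      ∃ b : Ch X →ₗ[ℤ] M, Eqv G b ∧ b (single [] 1) = 0 ∧
        ∀ u ∈ Sp (Gr (n + 1) : Set (List X)), b (bd u) = c u
  coc : ∀ (M : Type) [AddCommGroup M] [DistribMulAction G M] (b : Ch X →ₗ[ℤ] M),
    Eqv G b → b (single [] 1) = 0 → b (bd c₀) ∈ IM ω M
  surj : ∀ (M : Type) [AddCommGroup M] [DistribMulAction G M] (m : M),
    ∃ c : Ch X →ₗ[ℤ] M, Eqv G c ∧ Coc (n + 1) c ∧ c c₀ - m ∈ IM ω M

/-- Duality for `G` in dimension `n`. -/
def Dual (G : Type) [Group G] (n : ℕ) : Prop :=
  ∀ (X : Type) [MulAction G X] [Nonempty X], (∀ (g : G) (x : X), g • x = x → g = 1) →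
    ∃ (ω : G →* ℤˣ) (c₀ : Ch X), DualAt G ω X n c₀

lemma dl_pair {X : Type*} (x y : X) : dl [x, y] = single [y] 1 - single [x] 1 := by
  rw [dl_cons, dl_cons, dl_nil, map_zero, sub_zero, cns_single]

lemma dual_of_subsingleton (G : Type) [Group G] [Subsingleton G] : Dual G 0 := by
  intro X _ hX _
  obtain ⟨x₀⟩ := hX
  have hIM : ∀ (M : Type) [AddCommGroup M] [DistribMulAction G M], IM (1 : G →* ℤˣ) M ≤ ⊥ := by
    intro M _ _
    apply IM_le
    intro g m
    have : g = 1 := Subsingleton.elim _ _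
    subst this
    simp
  refine ⟨1, single [x₀] 1, ⟨single_mem_Sp (by simp [Gr]) 1, ?_, ?_, ?_⟩⟩
  · intro M _ _ c hc hcc h0
    have h0' : c (single [x₀] 1) = 0 := by simpa using hIM M h0
    refine ⟨0, fun g u => by simp, by simp, ?_⟩
    intro u hu
    have := eq_of_Sp (L := c) (L' := 0) (p := Gr (0 + 1)) (u := u) (by
      intro l hl
      obtain ⟨x, rfl⟩ := List.length_eq_one_iff.mp hl
      have h1 := hcc (single [x₀, x] 1) (single_mem_Sp (by simp [Gr]) 1)
      rw [bd_single, one_smul, dl_pair, map_sub, h0', sub_zero] at h1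
      rw [h1]; rfl) hu
    rw [this]; rfl
  · intro M _ _ b _ hb0
    rw [bd_single, one_smul, dl_cons, dl_nil, map_zero, sub_zero, hb0]
    exact AddSubgroup.zero_mem _
  · intro M _ _ m
    refine ⟨Finsupp.linearCombination ℤ (fun l => if l.length = 1 then m else 0), ?_, ?_, ?_⟩
    · intro g u
      have : g = 1 := Subsingleton.elim _ _
      subst this
      rw [act_one, one_smul]
    · intro u hu
      have := eq_of_Sp (L := (Finsupp.linearCombination ℤ
        (fun l : List X => if l.length = 1 then m else 0)) ∘ₗ bd) (L' := 0) (p := Gr (0 + 1 + 1))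
        (u := u) (by
        intro l hl
        obtain ⟨x, y, rfl⟩ := List.length_eq_two.mp hl
        rw [LinearMap.comp_apply, bd_single, one_smul, dl_pair, map_sub,
          Finsupp.linearCombination_single, Finsupp.linearCombination_single]
        simp) hu
      simpa using this
    · rw [Finsupp.linearCombination_single]
      simp

section RG

lemma md_mul {N : Type} [Group N] (g h : N) (x : N →₀ ℤ) :
    Finsupp.mapDomain (fun y => g * h * y) x =
      Finsupp.mapDomain (fun y => g * y) (Finsupp.mapDomain (fun y => h * y) x) := by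
  rw [← Finsupp.mapDomain_comp]
  congr 1
  funext y
  simp [mul_assoc]

lemma md_one {N : Type} [Group N] (x : N →₀ ℤ) : Finsupp.mapDomain (fun y => 1 * y) x = x := by
  simp only [one_mul]
  exact Finsupp.mapDomain_id

lemma fs_ext {N : Type} {A : Type*} [AddCommGroup A] {f g : (N →₀ ℤ) →+ A}
    (h : ∀ n : N, f (single n 1) = g (single n 1)) (x : N →₀ ℤ) : f x = g x := by
  have : f = g := by
    apply Finsupp.addHom_ext (M := ℤ)
    intro n a
    have e : (single n a : N →₀ ℤ) = a • (single n 1 : N →₀ ℤ) := by simp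
    rw [e, map_zsmul, map_zsmul, h n]
  rw [this]

/-- The group ring, as a module. -/
def RG (N : Type) := N →₀ ℤ

noncomputable instance (N : Type) : AddCommGroup (RG N) := inferInstanceAs (AddCommGroup (N →₀ ℤ))

noncomputable instance {N : Type} [Group N] : DistribMulAction N (RG N) where
  smul n x := Finsupp.mapDomain (fun y => n * y) (x : N →₀ ℤ)
  one_smul x := md_one x
  mul_smul g h x := md_mul g h x
  smul_zero g := Finsupp.mapDomain_zero
  smul_add g x y := Finsupp.mapDomain_add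

/-- Basis elements. -/
noncomputable def rgs {N : Type} (n : N) (a : ℤ) : RG N := (single n a : N →₀ ℤ)

lemma smul_rgs {N : Type} [Group N] (g n : N) (a : ℤ) : g • rgs n a = rgs (g * n) a :=
  Finsupp.mapDomain_single

/-- Additive maps out of the group ring. -/
noncomputable def rgl {N : Type} {A : Type*} [AddCommGroup A] (f : N → A) : RG N →+ A :=
  (Finsupp.linearCombination ℤ f : (N →₀ ℤ) →ₗ[ℤ] A).toAddMonoidHom

lemma rgl_rgs {N : Type} {A : Type*} [AddCommGroup A] (f : N → A) (n : N) (a : ℤ) :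
    rgl f (rgs n a) = a • f n :=
  Finsupp.linearCombination_single ℤ a n

lemma rg_ext {N : Type} {A : Type*} [AddCommGroup A] {f g : RG N →+ A}
    (h : ∀ n : N, f (rgs n 1) = g (rgs n 1)) (x : RG N) : f x = g x :=
  fs_ext (f := f) (g := g) h x

end RG

end Vale.Agent.P188.H882
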