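import Vale.Agent.P188.H882.Dual0

/-!
Duality for poly-`ℤ` groups: the action of a normalizing element on the top class.
-/

universe u v w

namespace Vale.Agent.P188.H882

open Finsupp

section Zw

variable {N : Type} [Group N]

/-- The action of `N` on `ℤ` through `ω`. -/
@[reducible] def wAct (ω : N →* ℤˣ) : DistribMulAction N ℤ where
  smul n m := ((ω n : ℤˣ) : ℤ) * m
  one_smul m := by
    show ((ω 1 : ℤˣ) : ℤ) * m = m
    rw [map_one, Units.val_one, one_mul]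
  mul_smul g h m := by
    show ((ω (g * h) : ℤˣ) : ℤ) * m = ((ω g : ℤˣ) : ℤ) * (((ω h : ℤˣ) : ℤ) * m)
    rw [map_mul, Units.val_mul, mul_assoc]
  smul_zero _ := mul_zero _
  smul_add _ _ _ := mul_add _ _ _

lemma IM_wAct (ω : N →* ℤˣ) : @IM N _ ω ℤ _ (wAct ω) ≤ ⊥ := by
  let _ := wAct ω
  apply IM_le
  intro g m
  show ((ω g : ℤˣ) : ℤ) * m - ((ω g : ℤˣ) : ℤ) • m = 0
  simp

end Zw

section Z

variable {N : Type} [Group N] {ω : N →* ℤˣ} {X : Type} [MulAction N X] {n : ℕ} {c₀ : Ch X}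

lemma DualAt.exists_c1 (hD : DualAt N ω X n c₀) : ∃ c : Ch X →ₗ[ℤ] ℤ,
    (∀ (g : N) (u : Ch X), c (act g u) = ((ω g : ℤˣ) : ℤ) * c u) ∧ Coc (n + 1) c ∧ c c₀ = 1 := by
  obtain ⟨c, hc, hcc, h1⟩ := @DualAt.surj N _ ω X _ n c₀ hD ℤ _ (wAct ω) 1
  have h2 : c c₀ - (1 : ℤ) = (0 : ℤ) := IM_wAct ω h1
  exact ⟨c, fun g u => hc g u, hcc, sub_eq_zero.mp h2⟩

lemma DualAt.coc_Z (hD : DualAt N ω X n c₀) (b : Ch X →ₗ[ℤ] ℤ)
    (hb : ∀ (g : N) (u : Ch X), b (act g u) = ((ω g : ℤˣ) : ℤ) * b u)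
    (hb0 : b (single [] 1) = 0) : b (bd c₀) = 0 :=
  IM_wAct ω (@DualAt.coc N _ ω X _ n c₀ hD ℤ _ (wAct ω) b hb hb0)

lemma DualAt.inj_Z (hD : DualAt N ω X n c₀) (ω' : N →* ℤˣ) (c : Ch X →ₗ[ℤ] ℤ)
    (hc : ∀ (g : N) (u : Ch X), c (act g u) = ((ω' g : ℤˣ) : ℤ) * c u) (hcc : Coc (n + 1) c)
    (g₀ : N) (m : ℤ) (h : c c₀ = ((ω' g₀ : ℤˣ) : ℤ) * m - ((ω g₀ : ℤˣ) : ℤ) * m) :
    ∃ b : Ch X →ₗ[ℤ] ℤ, (∀ (g : N) (u : Ch X), b (act g u) = ((ω' g : ℤˣ) : ℤ) * b u) ∧
      b (single [] 1) = 0 ∧ ∀ u ∈ Sp (Gr (n + 1) : Set (List X)), b (bd u) = c u := by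
  have hmem : c c₀ ∈ @IM N _ ω ℤ _ (wAct ω') := by
    let _ := wAct ω'
    have h1 : g₀ • m - ((ω g₀ : ℤˣ) : ℤ) • m ∈ IM ω ℤ := sub_mem_IM (ω := ω) (M := ℤ) g₀ m
    have e : c c₀ = g₀ • m - ((ω g₀ : ℤˣ) : ℤ) • m := h
    rw [e]
    exact h1
  obtain ⟨b, hb, hb0, hb1⟩ := @DualAt.inj N _ ω X _ n c₀ hD ℤ _ (wAct ω') c hc hcc hmem
  exact ⟨b, hb, hb0, hb1⟩

end Z

section Conj

variable {G : Type} [Group G] {N : Subgroup G} [N.Normal] {ω : N →* ℤˣ} {X : Type}
  [MulAction G X] {n : ℕ} {c₀ : Ch X}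

omit [N.Normal] in
lemma actN (g : N) (u : Ch X) : act g u = act (g : G) u := rfl

lemma act_conj (s : G) (g : N) (u : Ch X) :
    act s (act g u) = act (MulAut.conjNormal s g) (act s u) := by
  rw [actN, actN, ← act_mul, ← act_mul, MulAut.conjNormal_apply]
  congr 2
  group

lemma act_inv_act (s : G) (u : Ch X) : act s⁻¹ (act s u) = u := by
  rw [← act_mul, inv_mul_cancel, act_one]

lemma act_act_inv (s : G) (u : Ch X) : act s (act s⁻¹ u) = u := by
  rw [← act_mul, mul_inv_cancel, act_one]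

/-- The orientation character is invariant under conjugation. -/
lemma DualAt.omega_conj (hD : DualAt N ω X n c₀) (t : G) (g : N) :
    ω (MulAut.conjNormal t g) = ω g := by
  by_contra hne
  obtain ⟨c, hc, hcc, h1⟩ := hD.exists_c1
  let ω' : N →* ℤˣ := ω.comp (MulAut.conjNormal t : MulAut N).toMonoidHom
  have hω' : ∀ g, ω' g = ω (MulAut.conjNormal t g) := fun g => rfl
  have hne' : ω' g = - ω g := by
    rw [hω']
    exact Int.units_ne_iff_eq_neg.mp hne
  have hcc' : Coc (n + 1) (c ∘ₗ act t) := by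
    intro u hu
    rw [LinearMap.comp_apply, ← bd_act, hcc _ (act_mem_Gr t hu)]
  have h2 : ∀ (g : N) (u : Ch X), ((2 * c (act t c₀)) • (c ∘ₗ act t)) (act g u) =
      ((ω' g : ℤˣ) : ℤ) * ((2 * c (act t c₀)) • (c ∘ₗ act t)) u := by
    intro g u
    simp only [LinearMap.smul_apply, LinearMap.comp_apply, smul_eq_mul]
    rw [act_conj, hc, hω']
    ring
  -- the class of `2 c` twisted
  obtain ⟨b, hb, hb0, hb1⟩ := hD.inj_Z ω' ((2 : ℤ) • (c ∘ₗ act t)) (by
    intro g u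
    simp only [LinearMap.smul_apply, LinearMap.comp_apply, smul_eq_mul]
    rw [act_conj, hc, hω']
    ring) (by
    intro u hu
    rw [LinearMap.smul_apply, hcc' u hu, smul_zero]) g (- ((ω g : ℤˣ) : ℤ) * c (act t c₀)) (by
    simp only [LinearMap.smul_apply, LinearMap.comp_apply, smul_eq_mul]
    rw [hne', Units.val_neg]
    have : ((ω g : ℤˣ) : ℤ) * ((ω g : ℤˣ) : ℤ) = 1 := by
      rw [← Units.val_mul, Int.units_mul_self, Units.val_one]
    linear_combination (-2 * c (act t c₀)) * this)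
  have h3 : (b ∘ₗ act t⁻¹) (bd c₀) = 0 := by
    apply hD.coc_Z
    · intro g u
      rw [LinearMap.comp_apply, LinearMap.comp_apply, act_conj, hb, hω', ← MulAut.mul_apply,
        ← map_mul, mul_inv_cancel, map_one, MulAut.one_apply]
    · rw [LinearMap.comp_apply, act_single, List.map_nil, hb0]
  have h4 : b (bd (act t⁻¹ c₀)) = 2 * c c₀ := by
    rw [hb1 _ (act_mem_Gr _ hD.mem), LinearMap.smul_apply, LinearMap.comp_apply, act_act_inv,
      smul_eq_mul]
  rw [LinearMap.comp_apply, ← bd_act, h4, h1] at h3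
  norm_num at h3

end Conj

section Eval

variable {N : Type} [Group N] {ω : N →* ℤˣ} {M : Type} [AddCommGroup M] [DistribMulAction N M]

/-- Evaluation of the group ring at an element. -/
noncomputable def evm (m : M) : RG N →+ M := rgl (fun g : N => g • m)

lemma evm_smul (m : M) (g : N) (x : RG N) : evm m (g • x) = g • evm m x := by
  have := rg_ext (f := (evm m).comp (DistribSMul.toAddMonoidHom (RG N) g))
    (g := (DistribSMul.toAddMonoidHom M g).comp (evm m)) (by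
    intro h
    simp only [AddMonoidHom.comp_apply, DistribSMul.toAddMonoidHom_apply]
    rw [smul_rgs, evm, rgl_rgs, rgl_rgs, one_smul, one_smul, mul_smul]) x
  simpa using this

/-- The twisted augmentation. -/
noncomputable def aug (ω : N →* ℤˣ) : RG N →+ ℤ := rgl (fun g : N => ((ω g : ℤˣ) : ℤ))

lemma aug_smul (g : N) (x : RG N) : aug ω (g • x) = ((ω g : ℤˣ) : ℤ) * aug ω x := by
  have := rg_ext (f := (aug ω).comp (DistribSMul.toAddMonoidHom (RG N) g))
    (g := (AddMonoidHom.mulLeft ((ω g : ℤˣ) : ℤ)).comp (aug ω)) (by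
    intro h
    simp only [AddMonoidHom.comp_apply, DistribSMul.toAddMonoidHom_apply]
    rw [smul_rgs, aug, rgl_rgs, rgl_rgs, one_smul, one_smul, map_mul, Units.val_mul]
    rfl) x
  simpa using this

lemma aug_IM {x : RG N} (hx : x ∈ IM ω (RG N)) : aug ω x = 0 := by
  have : IM ω (RG N) ≤ (aug ω).ker := by
    apply IM_le
    intro g m
    rw [AddMonoidHom.mem_ker, map_sub, aug_smul, map_zsmul, smul_eq_mul, sub_self]
  exact this hx

lemma evm_sub_mem (m : M) (x : RG N) : evm m x - aug ω x • m ∈ IM ω M := by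
  let K : AddSubgroup (RG N) :=
    (IM ω M).comap (evm m - ((zmultiplesHom M) m).comp (aug ω))
  have hK : ∀ x : RG N, x ∈ K := by
    have h1 : ∀ g : N, rgs g 1 ∈ K := by
      intro g
      show evm m (rgs g 1) - aug ω (rgs g 1) • m ∈ IM ω M
      rw [evm, aug, rgl_rgs, rgl_rgs, one_smul, one_smul]
      exact sub_mem_IM g m
    intro x
    have := rg_ext (f := QuotientAddGroup.mk' K) (g := 0) (by
      intro g
      simpa using h1 g) x
    simpa using this
  exact hK x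

lemma evm_IM (m : M) {x : RG N} (hx : x ∈ IM ω (RG N)) : evm m x ∈ IM ω M := by
  have : IM ω (RG N) ≤ (IM ω M).comap (evm m) := by
    apply IM_le
    intro g y
    show evm m (g • y - ((ω g : ℤˣ) : ℤ) • y) ∈ IM ω M
    rw [map_sub, evm_smul, map_zsmul]
    exact sub_mem_IM g _
  exact this hx

end Eval

section Top

variable {G : Type} [Group G] {N : Subgroup G} [N.Normal] {ω : N →* ℤˣ} {X : Type}
  [MulAction G X] {n : ℕ} {c₀ : Ch X}

/-- The coboundary property for functionals equivariant up to conjugation. -/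
lemma DualAt.coc_conj (hD : DualAt N ω X n c₀) (s : G) {M : Type} [AddCommGroup M]
    [DistribMulAction N M] (b : Ch X →ₗ[ℤ] M) (hb : Eqv N b) (hb0 : b (single [] 1) = 0) :
    b (bd (act s c₀)) ∈ IM ω M := by
  have h := @DualAt.coc N _ ω X _ n c₀ hD M _
    (DistribMulAction.compHom M (MulAut.conjNormal s : MulAut N).toMonoidHom) (b ∘ₗ act s) (by
    intro g u
    show b (act s (act g u)) = (MulAut.conjNormal s g) • b (act s u)
    rw [act_conj, hb]) (by rw [LinearMap.comp_apply, act_single, List.map_nil, hb0])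
  rw [bd_act]
  have hle : @IM N _ ω M _
      (DistribMulAction.compHom M (MulAut.conjNormal s : MulAut N).toMonoidHom) ≤ IM ω M := by
    apply (AddSubgroup.closure_le _).mpr
    rintro _ ⟨g, m, rfl⟩
    have := sub_mem_IM (ω := ω) (M := M) (MulAut.conjNormal s g) m
    rw [hD.omega_conj] at this
    exact this
  exact hle h

/-- The action of a normalizing element on the top class. -/
lemma DualAt.exists_eps (hD : DualAt N ω X n c₀) (s : G) : ∃ ε : ℤ,
    ∀ (M : Type) [AddCommGroup M] [DistribMulAction N M] (c : Ch X →ₗ[ℤ] M),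
      Eqv N c → Coc (n + 1) c → c (act s c₀) - ε • c c₀ ∈ IM ω M := by
  obtain ⟨γ, hγ, hγc, hγ1⟩ := hD.surj (RG N) (rgs 1 1)
  refine ⟨aug ω (γ (act s c₀)), ?_⟩
  intro M _ _ c hc hcc
  -- compare `c` with `evm m ∘ γ`
  let f : Ch X →ₗ[ℤ] M := ((evm (c c₀)).comp γ.toAddMonoidHom).toIntLinearMap
  have hf : ∀ u, f u = evm (c c₀) (γ u) := fun u => rfl
  have hfe : Eqv N f := by
    intro g u
    rw [hf, hf, hγ, evm_smul]
  have hfc : Coc (n + 1) f := by
    intro u hu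
    rw [hf, hγc u hu, map_zero]
  have h1 : (c - f) c₀ ∈ IM ω M := by
    rw [LinearMap.sub_apply, hf]
    have h2 := evm_IM (ω := ω) (c c₀) hγ1
    rw [map_sub] at h2
    have h3 : evm (c c₀) (rgs (1 : N) 1) = c c₀ := by
      rw [evm, rgl_rgs, one_smul, one_smul]
    rw [h3] at h2
    have := AddSubgroup.neg_mem _ h2
    rwa [neg_sub] at this
  obtain ⟨b, hb, hb0, hb1⟩ := hD.inj M (c - f) (hc.sub hfe) (hcc.sub hfc) h1
  have h4 : c (act s c₀) = f (act s c₀) + b (bd (act s c₀)) := by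
    rw [hb1 _ (act_mem_Gr s hD.mem), LinearMap.sub_apply]
    abel
  have h5 := hD.coc_conj s b hb hb0
  have h6 := evm_sub_mem (ω := ω) (c c₀) (γ (act s c₀))
  rw [← hf] at h6
  have := AddSubgroup.add_mem _ h6 h5
  rw [h4]
  have e : f (act s c₀) + b (bd (act s c₀)) - aug ω (γ (act s c₀)) • c c₀ =
    f (act s c₀) - aug ω (γ (act s c₀)) • c c₀ + b (bd (act s c₀)) := by abel
  rw [e]
  exact this

/-- The factor is a unit. -/
lemma DualAt.eps_unit (hD : DualAt N ω X n c₀) (s : G) : ∃ ε : ℤˣ,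
    ∀ (M : Type) [AddCommGroup M] [DistribMulAction N M] (c : Ch X →ₗ[ℤ] M),
      Eqv N c → Coc (n + 1) c → c (act s c₀) - (ε : ℤ) • c c₀ ∈ IM ω M := by
  obtain ⟨ε, hε⟩ := hD.exists_eps s
  obtain ⟨ε', hε'⟩ := hD.exists_eps s⁻¹
  obtain ⟨c, hc, hcc, h1⟩ := hD.exists_c1
  have a1 : c (act s c₀) = ε := by
    have := IM_wAct ω (@hε ℤ _ (wAct ω) c hc hcc)
    have h2 : c (act s c₀) - ε • c c₀ = 0 := this
    rw [h1, smul_eq_mul, mul_one] at h2
    linarith
  have a2 : (c ∘ₗ act s) (act s⁻¹ c₀) = ε' * (c ∘ₗ act s) c₀ := by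
    have := IM_wAct ω (@hε' ℤ _ (wAct ω) (c ∘ₗ act s) (by
      intro g u
      show c (act s (act g u)) = ((ω g : ℤˣ) : ℤ) * c (act s u)
      rw [act_conj, hc, hD.omega_conj]) (by
      intro u hu
      rw [LinearMap.comp_apply, ← bd_act, hcc _ (act_mem_Gr s hu)]))
    have h2 : (c ∘ₗ act s) (act s⁻¹ c₀) - ε' • (c ∘ₗ act s) c₀ = 0 := this
    rw [smul_eq_mul] at h2
    linarith
  rw [LinearMap.comp_apply, LinearMap.comp_apply, act_act_inv, h1, a1] at a2
  have hu : IsUnit ε := IsUnit.of_mul_eq_one ε' (by rw [mul_comm]; exact a2.symm)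
  obtain ⟨u, rfl⟩ := hu
  exact ⟨u, hε⟩

/-- The quotient of chains by the boundaries of chains of length `q`. -/
def QC (X : Type) (q : ℕ) : Type := Ch X ⧸ (Sp (Gr q : Set (List X))).map (bd (X := X))

noncomputable instance (X : Type) (q : ℕ) : AddCommGroup (QC X q) :=
  inferInstanceAs (AddCommGroup (Ch X ⧸ (Sp (Gr q : Set (List X))).map (bd (X := X))))

/-- The action on the quotient, as a linear map. -/
noncomputable def qact {G X : Type} [Group G] [MulAction G X] (q : ℕ) (g : G) :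
    (Ch X ⧸ (Sp (Gr q : Set (List X))).map (bd (X := X))) →ₗ[ℤ]
      (Ch X ⧸ (Sp (Gr q : Set (List X))).map (bd (X := X))) :=
  Submodule.mapQ _ _ (act g) (by
    rintro _ ⟨u, hu, rfl⟩
    exact ⟨act g u, act_mem_Gr g hu, bd_act g u⟩)

lemma qact_mk {G X : Type} [Group G] [MulAction G X] (q : ℕ) (g : G) (u : Ch X) :
    qact q g (Submodule.Quotient.mk u) = Submodule.Quotient.mk (act g u) := rfl

noncomputable instance (G X : Type) [Group G] [MulAction G X] (q : ℕ) :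
    DistribMulAction G (QC X q) where
  smul g x := qact q g x
  one_smul x := by
    obtain ⟨u, rfl⟩ := Submodule.Quotient.mk_surjective _ x
    show qact q 1 (Submodule.Quotient.mk u) = _
    rw [qact_mk, act_one]
  mul_smul g h x := by
    obtain ⟨u, rfl⟩ := Submodule.Quotient.mk_surjective _ x
    show qact q (g * h) (Submodule.Quotient.mk u) = qact q g (qact q h (Submodule.Quotient.mk u))
    rw [qact_mk, qact_mk, qact_mk, act_mul]
  smul_zero g := map_zero (qact q g)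
  smul_add g x y := map_add (qact q g) x y

/-- The quotient map. -/
noncomputable def qmk (X : Type) (q : ℕ) : Ch X →ₗ[ℤ] QC X q :=
  Submodule.mkQ ((Sp (Gr q : Set (List X))).map (bd (X := X)))

/-- Twisted relations in degree `q`. -/
noncomputable def RN {N : Type} [Group N] (ω : N →* ℤˣ) (X : Type) [MulAction N X] (q : ℕ) :
    AddSubgroup (Ch X) :=
  AddSubgroup.closure {v | ∃ (g : N), ∃ u ∈ Sp (Gr q : Set (List X)),
    v = act g u - ((ω g : ℤˣ) : ℤ) • u}

lemma DualAt.exists_w (hD : DualAt N ω X n c₀) (s : G) : ∃ ε : ℤˣ,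
    (∀ (M : Type) [AddCommGroup M] [DistribMulAction N M] (c : Ch X →ₗ[ℤ] M),
      Eqv N c → Coc (n + 1) c → c (act s c₀) - (ε : ℤ) • c c₀ ∈ IM ω M) ∧
    ∃ w ∈ Sp (Gr (n + 2) : Set (List X)),
      act s c₀ - (ε : ℤ) • c₀ - bd w ∈ RN ω X (n + 1) := by
  obtain ⟨ε, hε⟩ := hD.eps_unit s
  refine ⟨ε, hε, ?_⟩
  have h1 := hε (QC X (n + 2)) (qmk X (n + 2)) (fun g u => rfl) (by
    intro u hu
    exact (Submodule.Quotient.mk_eq_zero _).mpr ⟨u, hu, rfl⟩)
  let R : AddSubgroup (Ch X) :=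
    AddSubgroup.closure {v | ∃ (g : N) (u : Ch X), v = act g u - ((ω g : ℤˣ) : ℤ) • u}
  have hle : IM ω (QC X (n + 2)) ≤ R.map (qmk X (n + 2)).toAddMonoidHom := by
    apply IM_le
    intro g m
    obtain ⟨u, rfl⟩ := Submodule.Quotient.mk_surjective _ m
    refine ⟨act g u - ((ω g : ℤˣ) : ℤ) • u, AddSubgroup.subset_closure ⟨g, u, rfl⟩, ?_⟩
    show qmk X (n + 2) (act g u - ((ω g : ℤˣ) : ℤ) • u) = _
    rw [map_sub, map_smul]
    rfl
  obtain ⟨r, hr, e⟩ := hle h1
  have e1 : qmk X (n + 2) (act s c₀ - (ε : ℤ) • c₀ - r) = 0 := by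
    have e' : qmk X (n + 2) r = qmk X (n + 2) (act s c₀) - (ε : ℤ) • qmk X (n + 2) c₀ := e
    rw [map_sub, map_sub, map_smul, e', sub_self]
  obtain ⟨w, hw, e2⟩ := (Submodule.Quotient.mk_eq_zero _).mp e1
  refine ⟨w, hw, ?_⟩
  have hmem : act s c₀ - (ε : ℤ) • c₀ - bd w ∈ Sp (Gr (n + 1) : Set (List X)) :=
    Submodule.sub_mem _ (Submodule.sub_mem _ (act_mem_Gr s hD.mem)
      (Submodule.smul_mem _ _ hD.mem)) (bd_mem_Gr hw)
  have e3 : act s c₀ - (ε : ℤ) • c₀ - bd w = r := by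
    rw [e2]; abel
  rw [e3] at hmem ⊢
  have hflt : R ≤ (RN ω X (n + 1)).comap (flt (n + 1)).toAddMonoidHom := by
    apply (AddSubgroup.closure_le _).mpr
    rintro _ ⟨g, u, rfl⟩
    show flt (n + 1) (act g u - ((ω g : ℤˣ) : ℤ) • u) ∈ RN ω X (n + 1)
    rw [map_sub, map_smul, flt_act]
    exact AddSubgroup.subset_closure ⟨g, _, flt_mem _ u, rfl⟩
  have := hflt hr
  have h4 : flt (n + 1) r ∈ RN ω X (n + 1) := this
  rwa [flt_eq hmem] at h4

/-- Equivariant functionals send twisted relations to twisted relations. -/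
lemma map_RN {N : Type} [Group N] {ω : N →* ℤˣ} {X : Type} [MulAction N X] {q : ℕ} {M : Type}
    [AddCommGroup M] [DistribMulAction N M] {b : Ch X →ₗ[ℤ] M}
    (hb : ∀ (g : N), ∀ u ∈ Sp (Gr q : Set (List X)), b (act g u) = g • b u) {v : Ch X}
    (hv : v ∈ RN ω X q) : b v ∈ IM ω M := by
  have : RN ω X q ≤ (IM ω M).comap b.toAddMonoidHom := by
    apply (AddSubgroup.closure_le _).mpr
    rintro _ ⟨g, u, hu, rfl⟩
    show b (act g u - ((ω g : ℤˣ) : ℤ) • u) ∈ IM ω M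
    rw [map_sub, map_smul, hb g u hu]
    exact sub_mem_IM g _
  exact this hv

end Top

end Vale.Agent.P188.H882
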