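import Vale.Agent.P188.H882.Dual1

/-!
Duality for poly-`ℤ` groups: the extension step.
-/

universe u v w

namespace Vale.Agent.P188.H882

open Finsupp

variable {G : Type} [Group G] {φ : G →* Multiplicative ℤ} {t : G}

/-- Extension of the orientation character. -/
lemma exists_omega (ht1 : ht φ t = 1) (ω : φ.ker →* ℤˣ)
    (hconj : ∀ (s : G) (g : φ.ker), ω (MulAut.conjNormal s g) = ω g) (ε : ℤˣ) :
    ∃ ωG : G →* ℤˣ, (∀ g : φ.ker, ωG g = ω g) ∧ ωG t = ε := by
  have hmem : ∀ x : G, x * t ^ (- ht φ x) ∈ φ.ker := by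
    intro x
    rw [mem_ker_iff_ht, ht_mul, ht_zpow φ ht1]
    ring
  let fN : G → φ.ker := fun x => ⟨x * t ^ (- ht φ x), hmem x⟩
  refine ⟨MonoidHom.mk' (fun g => ω (fN g) * ε ^ (ht φ g)) ?_, ?_, ?_⟩
  · intro a b
    have e1 : fN (a * b) = fN a * MulAut.conjNormal (t ^ ht φ a) (fN b) := by
      apply Subtype.ext
      rw [Subgroup.coe_mul, MulAut.conjNormal_apply]
      simp only [fN]
      rw [ht_mul, neg_add, zpow_add, zpow_neg, zpow_neg]
      have : (t ^ ht φ a)⁻¹ * (t ^ ht φ b)⁻¹ = (t ^ ht φ b)⁻¹ * (t ^ ht φ a)⁻¹ := by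
        rw [← mul_inv_rev, ← mul_inv_rev, ← zpow_add, ← zpow_add, add_comm]
      rw [this]
      group
    rw [e1, map_mul, hconj, ht_mul, zpow_add]
    exact mul_mul_mul_comm _ _ _ _
  · intro g
    have hg : ht φ (g : G) = 0 := (mem_ker_iff_ht φ (g : G)).mp g.2
    have e : fN g = g := by
      apply Subtype.ext
      simp [fN, hg]
    show ω (fN g) * ε ^ (ht φ (g : G)) = ω g
    rw [e, hg, zpow_zero, mul_one]
  · have e : fN t = 1 := by
      apply Subtype.ext
      simp [fN, ht1]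
    show ω (fN t) * ε ^ (ht φ t) = ε
    rw [e, ht1, map_one, one_mul, zpow_one]

variable {X : Type} [MulAction G X]

lemma twistN (g : G) {M : Type} [AddCommGroup M] [DistribMulAction G M] {b : Ch X →ₗ[ℤ] M}
    (hb : Eqv φ.ker b) (n : φ.ker) (u : Ch X) :
    g • b (act g⁻¹ (act n u)) = n • g • b (act g⁻¹ u) := by
  rw [act_conj, hb, Subgroup.smul_def, Subgroup.smul_def, MulAut.conjNormal_apply, ← mul_smul,
    ← mul_smul]
  congr 1
  group

/-- Solution of `f - t f = - e`. -/
lemma exists_tele (ht1 : ht φ t = 1) (hfree : ∀ (g : G) (x : X), g • x = x → g = 1)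
    {M : Type} [AddCommGroup M] [DistribMulAction G M] {e : Ch X →ₗ[ℤ] M} (he : Eqv φ.ker e) :
    ∃ f : Ch X →ₗ[ℤ] M, Eqv φ.ker f ∧ f (single [] 1) = 0 ∧
      ∀ q : ℕ, ∀ u ∈ Sp (Gr (q + 1) : Set (List X)), f u - t • f (act t⁻¹ u) = - e u := by
  obtain ⟨η, hη⟩ := exists_height φ (X := X) hfree
  let fl : List X → M := fun l => match l with
    | [] => 0
    | x :: s => tele t e (η x) (single (x :: s) 1)
  let f : Ch X →ₗ[ℤ] M := Finsupp.linearCombination ℤ fl
  have hf : ∀ l, f (single l 1) = fl l := by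
    intro l; simp [f, Finsupp.linearCombination_single]
  have htele : ∀ (i : ℤ) (n : φ.ker) (u : Ch X), tele t e i (act n u) = n • tele t e i u := by
    intro i n u
    unfold tele
    rw [smul_add, smul_neg, Finset.smul_sum, Finset.smul_sum]
    congr 1
    · congr 1
      apply Finset.sum_congr rfl
      intro j _
      exact twistN (t ^ j) he n u
    · apply Finset.sum_congr rfl
      intro j _
      have := twistN ((t ^ (j + 1))⁻¹) he n u
      rw [inv_inv] at this
      exact this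
  refine ⟨f, ?_, ?_, ?_⟩
  · intro n u
    have : (f ∘ₗ act n : Ch X →ₗ[ℤ] M) =
        (DistribSMul.toLinearMap ℤ M n) ∘ₗ f := by
      apply lin_ext
      intro l
      rw [LinearMap.comp_apply, LinearMap.comp_apply, DistribSMul.toLinearMap_apply, act_single,
        hf, hf]
      rcases l with _ | ⟨x, s⟩
      · simp [fl]
      · have h0 : η (n • x) = η x := by
          have := hη (n : G) x
          rw [(mem_ker_iff_ht φ (n : G)).mp n.2, zero_add] at this
          exact this
        have h1 := htele (η x) n (single (x :: s) 1)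
        rw [act_single] at h1
        simp only [fl, List.map_cons]
        rw [h0, ← h1, List.map_cons]
    exact LinearMap.congr_fun this u
  · rw [hf]
  · intro q u hu
    have := eq_of_Sp (L := f - (DistribSMul.toLinearMap ℤ M t) ∘ₗ f ∘ₗ act t⁻¹)
      (L' := - e) (p := Gr (q + 1)) (u := u) (by
      intro l hl
      rcases l with _ | ⟨x, s⟩
      · simp [Gr] at hl
      have h0 := hη t⁻¹ x
      rw [ht_inv, ht1] at h0
      have h1 := tele_step t e (η x) (single (x :: s) 1)
      have e1 : (-1 : ℤ) + η x = η x - 1 := by ring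
      rw [e1] at h0
      simp only [LinearMap.sub_apply, LinearMap.comp_apply, LinearMap.neg_apply,
        DistribSMul.toLinearMap_apply]
      rw [act_single] at h1 ⊢
      rw [hf, hf]
      simp only [fl, List.map_cons]
      rw [h0]
      exact h1) hu
    exact this

/-- Equivariance for the kernel and for `t` implies equivariance. -/
lemma eqv_of_t (ht1 : ht φ t = 1) {M : Type} [AddCommGroup M] [DistribMulAction G M]
    {b : Ch X →ₗ[ℤ] M} {q : ℕ}
    (hN : ∀ (n : φ.ker), ∀ u ∈ Sp (Gr q : Set (List X)), b (act n u) = n • b u)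
    (ht : ∀ u ∈ Sp (Gr q : Set (List X)), b (act t u) = t • b u) :
    ∀ (g : G), ∀ u ∈ Sp (Gr q : Set (List X)), b (act g u) = g • b u := by
  let K : Subgroup G :=
    { carrier := {g | ∀ u ∈ Sp (Gr q : Set (List X)), b (act g u) = g • b u}
      mul_mem' := by
        intro x y hx hy u hu
        rw [act_mul, hx _ (act_mem_Gr _ hu), hy u hu, mul_smul]
      one_mem' := by
        intro u _
        rw [act_one, one_smul]
      inv_mem' := by
        intro a ha u hu
        have := ha (act a⁻¹ u) (act_mem_Gr _ hu)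
        rw [act_act_inv] at this
        rw [this, inv_smul_smul] }
  intro g
  have htK : t ∈ K := ht
  have hmem : g * (t ^ (Vale.Agent.P188.ht φ g))⁻¹ ∈ φ.ker := by
    rw [mem_ker_iff_ht, ht_mul, ht_inv, ht_zpow φ ht1]
    ring
  have hnK : g * (t ^ (Vale.Agent.P188.ht φ g))⁻¹ ∈ K := by
    intro u hu
    exact hN ⟨_, hmem⟩ u hu
  have := K.mul_mem hnK (K.zpow_mem htK (Vale.Agent.P188.ht φ g))
  have h2 : g ∈ K := by simpa using this
  exact h2

/-- The key computation: the value of a cocycle on the new top class. -/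
lemma key_value {ω : φ.ker →* ℤˣ} {n : ℕ} {c₀ w : Ch X} {ε : ℤˣ} {ωG : G →* ℤˣ}
    (hωG : ∀ g : φ.ker, ωG g = ω g) (hωt : ωG t = ε)
    (hrel : act t⁻¹ c₀ - (ε : ℤ) • c₀ - bd w ∈ RN ω X (n + 1))
    {M : Type} [AddCommGroup M] [DistribMulAction G M] {b : Ch X →ₗ[ℤ] M}
    (hb : ∀ (g : φ.ker), ∀ u ∈ Sp (Gr (n + 1) : Set (List X)), b (act g u) = g • b u) :
    t • b (bd w) - (t • b (act t⁻¹ c₀) - b c₀) ∈ IM ωG M := by
  have hle : IM ω M ≤ IM ωG M := by
    apply IM_le
    intro g m
    have := sub_mem_IM (ω := ωG) (M := M) (g : G) m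
    rw [hωG] at this
    exact this
  have h1 := smul_mem_IM t (hle (map_RN hb hrel))
  rw [map_sub, map_sub, map_smul, smul_sub, smul_sub] at h1
  -- `c₀ - ε t c₀`
  have h2 := AddSubgroup.zsmul_mem _ (sub_mem_IM (ω := ωG) (M := M) t (b c₀)) (ε : ℤ)
  rw [hωt, smul_sub, smul_smul] at h2
  have e1 : (ε : ℤ) * (ε : ℤ) = 1 := by
    rw [← Units.val_mul, Int.units_mul_self, Units.val_one]
  rw [e1, one_smul, smul_comm (ε : ℤ) t (b c₀)] at h2
  have h3 := AddSubgroup.neg_mem _ (AddSubgroup.add_mem _ h1 h2)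
  convert h3 using 1
  abel

/-- Decomposition of the relations of `G`. -/
lemma IM_decomp (ht1 : ht φ t = 1) {ω : φ.ker →* ℤˣ} {ωG : G →* ℤˣ}
    (hωG : ∀ g : φ.ker, ωG g = ω g) {M : Type} [AddCommGroup M] [DistribMulAction G M] {x : M}
    (hx : x ∈ IM ωG M) : ∃ i ∈ IM ω M, ∃ m : M, x = i + (t • m - ((ωG t : ℤˣ) : ℤ) • m) := by
  let L : M →+ M := DistribSMul.toAddMonoidHom M t - (zsmulAddGroupHom ((ωG t : ℤˣ) : ℤ))
  have hL : ∀ m, L m = t • m - ((ωG t : ℤˣ) : ℤ) • m := fun m => rfl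
  let K : AddSubgroup M := IM ω M ⊔ L.range
  let S' : Subgroup G :=
    { carrier := {g | ∀ m : M, g • m - ((ωG g : ℤˣ) : ℤ) • m ∈ K}
      mul_mem' := by
        intro a b ha hb m
        have e : (a * b) • m - ((ωG (a * b) : ℤˣ) : ℤ) • m =
            (a • b • m - ((ωG a : ℤˣ) : ℤ) • b • m) +
              ((ωG a : ℤˣ) : ℤ) • (b • m - ((ωG b : ℤˣ) : ℤ) • m) := by
          rw [mul_smul, map_mul, Units.val_mul, mul_smul, smul_sub]
          abel
        rw [e]
        exact K.add_mem (ha _) (K.zsmul_mem (hb _) _)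
      one_mem' := by
        intro m
        rw [map_one, Units.val_one, one_smul, one_smul, sub_self]
        exact K.zero_mem
      inv_mem' := by
        intro a ha m
        have h1 := K.zsmul_mem (ha (a⁻¹ • m)) ((ωG a : ℤˣ) : ℤ)
        have e1 : ((ωG a : ℤˣ) : ℤ) * ((ωG a : ℤˣ) : ℤ) = 1 := by
          rw [← Units.val_mul, Int.units_mul_self, Units.val_one]
        rw [smul_inv_smul, smul_sub, smul_smul, e1, one_smul] at h1
        have h2 := K.neg_mem h1
        rw [neg_sub] at h2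
        have e2 : ωG a⁻¹ = ωG a := by
          rw [map_inv, Int.units_inv_eq_self]
        rw [e2]
        exact h2 }
  have hN : ∀ g : φ.ker, (g : G) ∈ S' := by
    intro g m
    rw [hωG]
    exact AddSubgroup.mem_sup_left (sub_mem_IM g m)
  have ht : t ∈ S' := fun m => AddSubgroup.mem_sup_right ⟨m, hL m⟩
  have hall : ∀ g : G, g ∈ S' := by
    intro g
    have hmem : g * (t ^ (Vale.Agent.P188.ht φ g))⁻¹ ∈ φ.ker := by
      rw [mem_ker_iff_ht, ht_mul, ht_inv, ht_zpow φ ht1]
      ring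
    have := S'.mul_mem (hN ⟨_, hmem⟩) (S'.zpow_mem ht (Vale.Agent.P188.ht φ g))
    simpa using this
  have hle : IM ωG M ≤ K := IM_le (fun g m => hall g m)
  obtain ⟨i, hi, y, ⟨m, rfl⟩, e⟩ := AddSubgroup.mem_sup.mp (hle hx)
  exact ⟨i, hi, m, by rw [← e, hL]⟩

/-- The relations of the kernel are stable under `G`. -/
lemma smul_IM_ker {ω : φ.ker →* ℤˣ}
    (hconj : ∀ (s : G) (g : φ.ker), ω (MulAut.conjNormal s g) = ω g) {M : Type} [AddCommGroup M]
    [DistribMulAction G M] (s : G) {x : M} (hx : x ∈ IM ω M) : s • x ∈ IM ω M := by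
  have : IM ω M ≤ (IM ω M).comap (DistribSMul.toAddMonoidHom M s) := by
    apply IM_le
    intro g m
    show s • (g • m - ((ω g : ℤˣ) : ℤ) • m) ∈ IM ω M
    have h1 := sub_mem_IM (ω := ω) (M := M) (MulAut.conjNormal s g) (s • m)
    rw [hconj] at h1
    have e : s • (g • m) = (MulAut.conjNormal s g) • s • m := by
      rw [Subgroup.smul_def, Subgroup.smul_def, MulAut.conjNormal_apply, ← mul_smul, ← mul_smul]
      congr 1
      group
    rw [smul_sub, e, smul_comm s]
    exact h1
  exact this hx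

/-- The extension step. -/
theorem dual_ext (hφ : Function.Surjective φ) {n : ℕ} (hN : Dual φ.ker n)
    (hV : Van φ.ker (n + 2)) : Dual G (n + 1) := by
  obtain ⟨t, htt⟩ := hφ (Multiplicative.ofAdd 1)
  have ht1 : ht φ t = 1 := by simp [ht, htt]
  intro X _ _ hfree
  have hfreeN : ∀ (g : φ.ker) (x : X), g • x = x → g = 1 := by
    intro g x h
    exact Subtype.ext (hfree (g : G) x h)
  obtain ⟨ω, c₀, hD⟩ := hN X hfreeN
  obtain ⟨ε, hε, w, hw, hrel⟩ := hD.exists_w t⁻¹
  obtain ⟨ωG, hωG, hωt⟩ := exists_omega ht1 ω (fun s g => hD.omega_conj s g) ε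
  have hle : ∀ (M : Type) [AddCommGroup M] [DistribMulAction G M], IM ω M ≤ IM ωG M := by
    intro M _ _
    apply IM_le
    intro g m
    have := sub_mem_IM (ω := ωG) (M := M) (g : G) m
    rw [hωG] at this
    exact this
  refine ⟨ωG, act t w, ⟨act_mem_Gr t hw, ?_, ?_, ?_⟩⟩
  · -- injectivity
    intro M _ _ c hc hcc hmem
    have actN' : ∀ (g : φ.ker) (u : Ch X), c (act g u) = g • c u := fun g u => hc (g : G) u
    obtain ⟨b₀, hb₀, hb₀'⟩ := hV X hfreeN M c actN' hcc
    have hb₀e : Eqv φ.ker b₀ := hb₀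
    -- the difference `t b t⁻¹ - b`
    let D : (Ch X →ₗ[ℤ] M) → (Ch X →ₗ[ℤ] M) := fun b =>
      (DistribSMul.toLinearMap ℤ M t) ∘ₗ b ∘ₗ act t⁻¹ - b
    have hD' : ∀ b u, D b u = t • b (act t⁻¹ u) - b u := fun b u => rfl
    have hDe : ∀ b, Eqv φ.ker b → Eqv φ.ker (D b) := by
      intro b hb g u
      rw [hD', hD', twistN t hb, hb, smul_sub]
    have hec : Coc (n + 1) (D b₀) := by
      intro u hu
      rw [hD', ← bd_act, hb₀' _ (act_mem_Gr _ hu), hb₀' _ hu, hc, smul_inv_smul, sub_self]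
    have hval : D b₀ c₀ ∈ IM ωG M := by
      have h := key_value (M := M) hωG hωt hrel (b := b₀) (fun g u _ => hb₀ g u)
      rw [hb₀' _ hw, ← hc] at h
      have h2 := AddSubgroup.sub_mem _ hmem h
      rw [hD']
      convert h2 using 1
      abel
    obtain ⟨i, hi, m, em⟩ := IM_decomp ht1 hωG hval
    rw [hωt] at em
    obtain ⟨a, ha, hac, ham⟩ := hD.surj M (-((ε : ℤ) • m))
    have hε2 : (ε : ℤ) * (ε : ℤ) = 1 := by
      rw [← Units.val_mul, Int.units_mul_self, Units.val_one]
    have hsm : ∀ x ∈ IM ω M, t • x ∈ IM ω M :=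
      fun x hx => smul_IM_ker (fun s g => hD.omega_conj s g) t hx
    have hval2 : D (b₀ + a) c₀ ∈ IM ω M := by
      have h2 := hε M a ha hac
      have h3 := AddSubgroup.zsmul_mem _ ham (ε : ℤ)
      have h4 := hsm _ (AddSubgroup.add_mem _ h2 h3)
      have h5 := AddSubgroup.sub_mem _ (AddSubgroup.add_mem _ hi h4) ham
      have e1 : (ε : ℤ) • (a c₀ - -((ε : ℤ) • m)) = (ε : ℤ) • a c₀ + m := by
        rw [sub_neg_eq_add, smul_add, smul_smul, hε2, one_smul]
      rw [e1] at h5
      have e2 : D (b₀ + a) c₀ = D b₀ c₀ + (t • a (act t⁻¹ c₀) - a c₀) := by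
        rw [hD', hD', LinearMap.add_apply, LinearMap.add_apply, smul_add]
        abel
      rw [e2, em]
      have e3 : a (act t⁻¹ c₀) - (ε : ℤ) • a c₀ + ((ε : ℤ) • a c₀ + m) = a (act t⁻¹ c₀) + m := by
        abel
      rw [e3, smul_add] at h5
      convert h5 using 1
      abel
    have hac' : Coc (n + 1) (D (b₀ + a)) := by
      intro u hu
      rw [hD', LinearMap.add_apply, LinearMap.add_apply, ← bd_act, hac _ (act_mem_Gr _ hu),
        hac _ hu, add_zero, add_zero]
      have := hec u hu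
      rwa [hD', ← bd_act] at this
    obtain ⟨g, hg, hg0, hg1⟩ := hD.inj M (D (b₀ + a)) (hDe _ (hb₀e.add ha)) hac' hval2
    obtain ⟨f, hf, hf0, hft⟩ := exists_tele ht1 hfree hg
    have hfb : ∀ v ∈ Sp (Gr (n + 1) : Set (List X)),
        f (bd v) - t • f (act t⁻¹ (bd v)) = - g (bd v) := by
      intro v hv
      rcases n with _ | n
      · have h0 : ∀ L : Ch X →ₗ[ℤ] M, L (single [] 1) = 0 → ∀ z ∈ Sp (Gr 0 : Set (List X)),
            L z = 0 := by
          intro L hL z hz
          have := eq_of_Sp (L := L) (L' := 0) (p := Gr 0) (u := z) (by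
            intro l hl
            have : l = [] := List.length_eq_zero_iff.mp hl
            subst this
            rw [hL]; rfl) hz
          simpa using this
        have hz := bd_mem_Gr hv
        rw [h0 f hf0 _ hz, h0 f hf0 _ (act_mem_Gr _ hz), h0 g hg0 _ hz, smul_zero, sub_zero,
          neg_zero]
      · exact hft n (bd v) (bd_mem_Gr hv)
    let b₁ : Ch X →ₗ[ℤ] M := b₀ + a - f ∘ₗ bd
    have hb₁ : ∀ u, b₁ u = (b₀ + a) u - f (bd u) := fun u => rfl
    have hb₁N : ∀ (n' : φ.ker) (u : Ch X), b₁ (act n' u) = n' • b₁ u := by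
      intro n' u
      rw [hb₁, hb₁, (hb₀e.add ha) n' u, actN n' u, bd_act, ← actN, hf, smul_sub]
    have hb₁t : ∀ u ∈ Sp (Gr (n + 1) : Set (List X)), b₁ (act t u) = t • b₁ u := by
      intro u hu
      have hv : act t u ∈ Sp (Gr (n + 1) : Set (List X)) := act_mem_Gr _ hu
      have q1 := hg1 _ hv
      rw [hD', act_inv_act] at q1
      have q2 := hfb _ hv
      rw [bd_act, act_inv_act, ← bd_act, q1] at q2
      rw [hb₁, hb₁, smul_sub]
      rw [← sub_eq_zero]
      rw [← sub_eq_zero] at q2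
      rw [← neg_eq_zero, ← q2]
      abel
    have hb₁G := eqv_of_t ht1 (fun n' u _ => hb₁N n' u) hb₁t
    obtain ⟨hE, hE'⟩ := exists_restrict hb₁G
    refine ⟨b₁ ∘ₗ flt (n + 1), hE, ?_, ?_⟩
    · rw [LinearMap.comp_apply, flt_single, if_neg (by simp), map_zero]
    · intro u hu
      rw [hE' _ (bd_mem_Gr hu), hb₁, bd_bd, map_zero, sub_zero, LinearMap.add_apply, hb₀' _ hu,
        hac _ hu, add_zero]
  · -- coboundaries
    intro M _ _ b hb _
    have h := key_value (M := M) hωG hωt hrel (b := b) (fun g u _ => hb (g : G) u)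
    rw [hb, smul_inv_smul, sub_self, sub_zero] at h
    rw [bd_act, hb]
    exact h
  · -- surjectivity
    intro M _ _ m
    obtain ⟨a, ha, hac, ham⟩ := hD.surj M m
    obtain ⟨f, hf, hf0, hft⟩ := exists_tele ht1 hfree ha
    have hbd : ∀ u ∈ Sp (Gr (n + 1 + 1) : Set (List X)), ∀ g : G,
        (f ∘ₗ bd) (act g u) = g • (f ∘ₗ bd) u := by
      intro u hu g
      apply eqv_of_t (b := f ∘ₗ bd) (q := n + 1 + 1) ht1 _ _ g u hu
      · intro g u _
        rw [LinearMap.comp_apply, LinearMap.comp_apply, actN, bd_act, ← actN, hf]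
      · intro u hu
        have h1 := hft n (bd (act t u)) (bd_mem_Gr (act_mem_Gr t hu))
        rw [hac _ (act_mem_Gr t hu), neg_zero, bd_act, act_inv_act] at h1
        rw [LinearMap.comp_apply, LinearMap.comp_apply, bd_act]
        exact sub_eq_zero.mp h1
    obtain ⟨hE, hE'⟩ := exists_restrict (G := G) (c := f ∘ₗ bd) (q := n + 1 + 1)
      (fun g u hu => hbd u hu g)
    refine ⟨(f ∘ₗ bd) ∘ₗ flt (n + 1 + 1), hE, ?_, ?_⟩
    · intro u hu
      rw [hE' _ (bd_mem_Gr hu), LinearMap.comp_apply, bd_bd, map_zero]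
    · rw [hE' _ (act_mem_Gr t hw), hbd w hw t, LinearMap.comp_apply]
      have h := key_value (M := M) hωG hωt hrel (b := f) (fun g u _ => hf g u)
      have h1 := hft n c₀ hD.mem
      have e : t • f (act t⁻¹ c₀) - f c₀ = a c₀ := by
        rw [← neg_inj, neg_sub]; exact h1
      rw [e] at h
      have h2 := AddSubgroup.add_mem _ h (hle M ham)
      convert h2 using 1
      abel

/-- Duality for poly-`ℤ` groups. -/
theorem dual_of_PolyZ : ∀ (n : ℕ) (G : Type) [Group G], PolyZ n G → Dual G n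
  | 0, G, _, h => by
    have : Subsingleton G := h
    exact dual_of_subsingleton G
  | n + 1, G, _, h => by
    obtain ⟨φ, hφ, h'⟩ := h
    exact dual_ext hφ (dual_of_PolyZ n φ.ker h') (Van_of_PolyZ n φ.ker h' _ le_rfl)

end Vale.Agent.P188.H882
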