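import Vale.Agent.P188.H882.Dual2

/-!
Functionals of finite support on controlled lists, and local maps of chains.
-/

universe u v w

namespace Vale.Agent.P188.H882

open Finsupp Pointwise

lemma finite_lists {α : Type*} {F : Set α} (hF : F.Finite) (q : ℕ) :
    {l : List α | l.length = q ∧ ∀ x ∈ l, x ∈ F}.Finite := by
  classical
  have : Finite F := hF
  apply ((List.finite_length_eq F q).image (List.map Subtype.val)).subset
  rintro l ⟨h1, h2⟩
  refine ⟨l.pmap Subtype.mk h2, by simpa using h1, ?_⟩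
  rw [List.map_pmap]
  simp

section FS

variable {H : Type*} [Group H]

/-- Functionals on lists of length `q` with finite support on controlled lists. -/
structure FS (q : ℕ) (c : Ch H →ₗ[ℤ] ℤ) : Prop where
  nil : c (single [] 1) = 0
  fin : ∀ A : Set H, A.Finite → {l : List H | l ∈ Ctl A ∩ Gr q ∧ c (single l 1) ≠ 0}.Finite

lemma FS.add {q : ℕ} {c c' : Ch H →ₗ[ℤ] ℤ} (h : FS q c) (h' : FS q c') : FS q (c + c') := by
  refine ⟨by rw [LinearMap.add_apply, h.nil, h'.nil, add_zero], fun A hA => ?_⟩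
  apply ((h.fin A hA).union (h'.fin A hA)).subset
  rintro l ⟨hl, hne⟩
  by_cases h0 : c (single l 1) = 0
  · refine Or.inr ⟨hl, fun h1 => hne ?_⟩
    rw [LinearMap.add_apply, h0, h1, add_zero]
  · exact Or.inl ⟨hl, h0⟩

lemma FS.smul {q : ℕ} {c : Ch H →ₗ[ℤ] ℤ} (h : FS q c) (a : ℤ) : FS q (a • c) := by
  refine ⟨by rw [LinearMap.smul_apply, h.nil, smul_zero], fun A hA => ?_⟩
  apply (h.fin A hA).subset
  rintro l ⟨hl, hne⟩
  refine ⟨hl, fun h1 => hne ?_⟩
  rw [LinearMap.smul_apply, h1, smul_zero]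

lemma FS.neg {q : ℕ} {c : Ch H →ₗ[ℤ] ℤ} (h : FS q c) : FS q (-c) := by
  have := h.smul (-1)
  simpa using this

lemma FS.sub {q : ℕ} {c c' : Ch H →ₗ[ℤ] ℤ} (h : FS q c) (h' : FS q c') : FS q (c - c') := by
  rw [sub_eq_add_neg]
  exact h.add h'.neg

lemma FS.zero {q : ℕ} : FS (H := H) q 0 :=
  ⟨rfl, fun A _ => by
    apply Set.Finite.subset (Set.finite_empty)
    rintro l ⟨_, h⟩
    exact absurd rfl h⟩

lemma FS.sum {ι : Type*} {s : Finset ι} {q : ℕ} {c : ι → (Ch H →ₗ[ℤ] ℤ)}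
    (h : ∀ i ∈ s, FS q (c i)) : FS q (∑ i ∈ s, c i) := by
  classical
  induction s using Finset.induction_on with
  | empty => simpa using FS.zero
  | insert a s ha ih =>
    rw [Finset.sum_insert ha]
    exact (h a (by simp)).add (ih (fun i hi => h i (by simp [hi])))

end FS

section Loc

variable {H : Type*} [Group H] {G : Type*} [Group G] {K : Type*} [Group K]

/-- Local maps between chains. -/
structure Loc (q q' : ℕ) (T : Ch H →ₗ[ℤ] Ch G) : Prop where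
  nil : ∀ c : Ch G →ₗ[ℤ] ℤ, c (single [] 1) = 0 → c (T (single [] 1)) = 0
  ctl : ∀ A : Set H, A.Finite → ∃ B : Set G, B.Finite ∧
    ∀ l ∈ Ctl A ∩ Gr q, T (single l 1) ∈ Sp (Ctl B ∩ Gr q')
  prp : ∀ A : Set H, A.Finite → ∀ y : G,
    {l : List H | l ∈ Ctl A ∩ Gr q ∧ ∃ l', T (single l 1) l' ≠ 0 ∧ y ∈ l'}.Finite

lemma Loc.mem {q q' : ℕ} {T : Ch H →ₗ[ℤ] Ch G} (hT : Loc q q' T) {A : Set H} (hA : A.Finite) :
    ∃ B : Set G, B.Finite ∧ ∀ u ∈ Sp (Ctl A ∩ Gr q), T u ∈ Sp (Ctl B ∩ Gr q') := by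
  obtain ⟨B, hB, h⟩ := hT.ctl A hA
  exact ⟨B, hB, fun u hu => map_mem_of_Sp h hu⟩

lemma exists_of_apply_ne {X : Type*} {c : Ch X →ₗ[ℤ] ℤ} {u : Ch X} (h : c u ≠ 0) :
    ∃ l, u l ≠ 0 ∧ c (single l 1) ≠ 0 := by
  by_contra hcon
  push Not at hcon
  apply h
  have hu : u ∈ Sp {l | u l ≠ 0} := by
    rw [mem_Sp]; exact fun l hl => hl
  have := eq_of_Sp (L := c) (L' := 0) (fun l hl => by rw [hcon l hl]; rfl) hu
  simpa using this

lemma FS.comp {q q' : ℕ} {c : Ch G →ₗ[ℤ] ℤ} (hc : FS q' c) {T : Ch H →ₗ[ℤ] Ch G}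
    (hT : Loc q q' T) : FS q (c ∘ₗ T) := by
  refine ⟨hT.nil c hc.nil, fun A hA => ?_⟩
  obtain ⟨B, hB, hTB⟩ := hT.ctl A hA
  have hS := hc.fin B hB
  have hY : {y : G | ∃ l ∈ {l : List G | l ∈ Ctl B ∩ Gr q' ∧ c (single l 1) ≠ 0}, y ∈ l}.Finite := by
    have : {y : G | ∃ l ∈ {l : List G | l ∈ Ctl B ∩ Gr q' ∧ c (single l 1) ≠ 0}, y ∈ l} =
        ⋃ l ∈ {l : List G | l ∈ Ctl B ∩ Gr q' ∧ c (single l 1) ≠ 0}, {y | y ∈ l} := by
      ext y; simp
    rw [this]
    exact hS.biUnion (fun l _ => List.finite_toSet l)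
  apply (hY.biUnion (fun y _ => hT.prp A hA y)).subset
  rintro l ⟨hl, hne⟩
  obtain ⟨l', h1, h2⟩ := exists_of_apply_ne (c := c) (u := T (single l 1)) hne
  have hl' : l' ≠ [] := by
    rintro rfl
    exact h2 hc.nil
  obtain ⟨y, hy⟩ := List.exists_mem_of_ne_nil l' hl'
  have h3 : l' ∈ Ctl B ∩ Gr q' := (mem_Sp.mp (hTB l hl)) l' h1
  rw [Set.mem_iUnion₂]
  exact ⟨y, ⟨l', ⟨h3, h2⟩, hy⟩, hl, l', h1, hy⟩

lemma finite_ctl {A : Set H} (hA : A.Finite) (q : ℕ) {F : Set H} (hF : F.Finite) :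
    {l : List H | l ∈ Ctl A ∩ Gr q ∧ ∃ x ∈ l, x ∈ F}.Finite := by
  apply (finite_lists (hF.mul hA) q).subset
  rintro l ⟨⟨h1, h2⟩, x, hx, hxF⟩
  refine ⟨h2, fun y hy => ?_⟩
  exact ⟨x, hxF, _, h1 x hx y hy, by simp⟩

/-- The boundary is local. -/
lemma loc_bd (q : ℕ) : Loc (H := H) (q + 1) q bd := by
  refine ⟨fun c _ => by simp, fun A hA => ⟨A, hA, fun l hl => ?_⟩, fun A hA y => ?_⟩
  · exact bd_mem (SubC_Ctl A) (single_mem_Sp hl 1)
  · apply (finite_ctl hA (q + 1) (Set.finite_singleton y)).subset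
    rintro l ⟨hl, l', h1, h2⟩
    refine ⟨hl, y, ?_, rfl⟩
    rw [bd_single, one_smul] at h1
    exact ((mem_Sp.mp (dl_mem l)) l' h1).1 h2

/-- Push-forward along coarse maps with finite fibres is local. -/
lemma loc_pf {F : H → G} (hF : Coarse F) (hfib : ∀ y, {x | F x = y}.Finite) (q : ℕ) :
    Loc q q (pf F) := by
  refine ⟨fun c hc => by simpa using hc, fun A hA => ?_, fun A hA y => ?_⟩
  · obtain ⟨B, hB, h⟩ := hF A hA
    refine ⟨B, hB, fun l hl => ?_⟩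
    rw [pf_single]
    apply single_mem_Sp
    refine ⟨?_, by simpa [Gr] using hl.2⟩
    intro x hx y hy
    rw [List.mem_map] at hx hy
    obtain ⟨x', hx', rfl⟩ := hx
    obtain ⟨y', hy', rfl⟩ := hy
    exact h _ _ (hl.1 x' hx' y' hy')
  · apply (finite_ctl hA q (hfib y)).subset
    rintro l ⟨hl, l', h1, h2⟩
    refine ⟨hl, ?_⟩
    rw [pf_single] at h1
    have : l' = l.map F := by
      by_contra hne
      exact h1 (Finsupp.single_eq_of_ne hne)
    rw [this, List.mem_map] at h2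
    obtain ⟨x, hx, hxy⟩ := h2
    exact ⟨x, hx, hxy⟩

/-- The prism is local. -/
lemma loc_pr {f : H → H} (hf : CloseId f) (q : ℕ) : Loc q (q + 1) (pr f) := by
  obtain ⟨E, hE, hfE⟩ := hf
  refine ⟨fun c _ => by simp [prl], fun A hA => ⟨prCtl A E, prCtl_finite hA hE, fun l hl => ?_⟩,
    fun A hA y => ?_⟩
  · rw [pr_single, one_smul]
    apply Sp_mono _ (prl_mem f l)
    rintro l' ⟨h1, h2⟩
    refine ⟨prCtl_spec hl.1 (fun x _ => hfE x) h1, ?_⟩
    have := hl.2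
    rw [mem_Gr] at this ⊢
    omega
  · apply (finite_ctl hA q (((Set.finite_singleton y).mul hE.inv).union
      (Set.finite_singleton y))).subset
    rintro l ⟨hl, l', h1, h2⟩
    refine ⟨hl, ?_⟩
    rw [pr_single, one_smul] at h1
    have h3 := ((mem_Sp.mp (prl_mem f l)) l' h1).1 h2
    rw [List.mem_append, List.mem_map] at h3
    rcases h3 with h | ⟨x, hx, hxy⟩
    · exact ⟨y, h, Or.inr rfl⟩
    · refine ⟨x, hx, Or.inl ⟨y, rfl, (x⁻¹ * f x)⁻¹, Set.inv_mem_inv.mpr (hfE x), ?_⟩⟩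
      rw [← hxy]
      simp

/-- The translates of finitely many lists. -/
lemma exists_orbit_reps {A : Set H} (hA : A.Finite) (q : ℕ) :
    ∃ L : Set (List H), L.Finite ∧ L ⊆ Ctl A ∩ Gr q ∧ ∀ l ∈ Ctl A ∩ Gr q, ∃ (g : H), ∃ l₀ ∈ L,
      l = l₀.map (fun x => g • x) := by
  refine ⟨{l | l ∈ Ctl A ∩ Gr q ∧ l.length = q ∧ ∀ x ∈ l, x ∈ A}, ?_, ?_, ?_⟩
  · apply (finite_lists hA q).subset
    rintro l ⟨_, h⟩
    exact h
  · rintro l ⟨h, _⟩
    exact h
  · rintro l hl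
    rcases l with _ | ⟨x, s⟩
    · exact ⟨1, [], ⟨hl, hl.2, by simp⟩, by simp⟩
    · refine ⟨x, (x :: s).map (fun y => x⁻¹ • y), ⟨⟨?_, ?_⟩, ?_, ?_⟩, ?_⟩
      · exact Ctl_map_mul x⁻¹ hl.1
      · simpa [Gr] using hl.2
      · simpa [Gr] using hl.2
      · intro y hy
        rw [List.mem_map] at hy
        obtain ⟨y', hy', rfl⟩ := hy
        exact hl.1 x (by simp) y' hy'
      · rw [List.map_map]
        conv_lhs => rw [← List.map_id (x :: s)]
        apply List.map_congr_left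
        intro y _
        simp

/-- Equivariant maps are local. -/
lemma loc_equiv {T : Ch H →ₗ[ℤ] Ch H} {q q' : ℕ} (hT : ∀ (g : H) (u : Ch H), T (act g u) = act g (T u))
    (hq : ∀ u ∈ Sp (Gr q : Set (List H)), T u ∈ Sp (Gr q'))
    (hnil : ∀ c : Ch H →ₗ[ℤ] ℤ, c (single [] 1) = 0 → c (T (single [] 1)) = 0) : Loc q q' T := by
  classical
  refine ⟨hnil, fun A hA => ?_, fun A hA y => ?_⟩
  · obtain ⟨L, hL, hLA, hrep⟩ := exists_orbit_reps hA q
    let V : Set H := ⋃ l ∈ L, ⋃ l' ∈ (T (single l 1)).support, {x | x ∈ l'}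
    have hV : V.Finite := hL.biUnion (fun l _ =>
      (Finset.finite_toSet _).biUnion (fun l' _ => List.finite_toSet l'))
    refine ⟨V⁻¹ * V, hV.inv.mul hV, fun l hl => ?_⟩
    obtain ⟨g, l₀, hl₀, rfl⟩ := hrep l hl
    have e : single (l₀.map (fun x => g • x)) (1 : ℤ) = act g (single l₀ 1) := by
      rw [act_single]
    rw [e, hT]
    apply act_ctl g
    apply Sp_inter _ (hq _ (single_mem_Sp (hLA hl₀).2 1))
    rw [mem_Sp]
    intro l' hl' x hx y hy
    have key : ∀ z ∈ l', z ∈ V := by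
      intro z hz
      simp only [V, Set.mem_iUnion]
      exact ⟨l₀, hl₀, l', by simpa using hl', hz⟩
    exact ⟨x⁻¹, Set.inv_mem_inv.mpr (key x hx), y, key y hy, rfl⟩
  · obtain ⟨L, hL, hLA, hrep⟩ := exists_orbit_reps hA q
    let V : Set H := ⋃ l ∈ L, ⋃ l' ∈ (T (single l 1)).support, {x | x ∈ l'}
    have hV : V.Finite := hL.biUnion (fun l _ =>
      (Finset.finite_toSet _).biUnion (fun l' _ => List.finite_toSet l'))
    let Gs : Set H := (fun v => y * v⁻¹) '' V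
    have hG : Gs.Finite := hV.image _
    apply (hG.biUnion (fun g _ => hL.image (List.map (fun x => g • x)))).subset
    rintro l ⟨hl, l', h1, h2⟩
    obtain ⟨g, l₀, hl₀, rfl⟩ := hrep l hl
    have e : single (l₀.map (fun x => g • x)) (1 : ℤ) = act g (single l₀ 1) := by
      rw [act_single]
    rw [e, hT] at h1
    -- `l' = g • l''`
    have h3 : ∃ l'', T (single l₀ 1) l'' ≠ 0 ∧ l' = l''.map (fun x => g • x) := by
      have hmem : act g (T (single l₀ 1)) ∈ Sp {l' | ∃ l'', T (single l₀ 1) l'' ≠ 0 ∧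
          l' = l''.map (fun x => g • x)} := by
        apply pf_mem (p := {l'' | T (single l₀ 1) l'' ≠ 0})
        · intro l'' hl''
          exact ⟨l'', hl'', rfl⟩
        · rw [mem_Sp]; exact fun _ h => h
      exact (mem_Sp.mp hmem) l' h1
    obtain ⟨l'', h4, rfl⟩ := h3
    rw [List.mem_map] at h2
    obtain ⟨v, hv, hvy⟩ := h2
    rw [Set.mem_iUnion₂]
    refine ⟨g, ⟨v, ?_, ?_⟩, l₀, hl₀, rfl⟩
    · simp only [V, Set.mem_iUnion]
      exact ⟨l₀, hl₀, l'', by simpa using h4, hv⟩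
    · simp only
      rw [← hvy]
      simp

omit [Group G] in
lemma fib_of_closeId {F : H → G} {F' : G → H} (h : CloseId (F' ∘ F)) (y : G) :
    {x | F x = y}.Finite := by
  obtain ⟨E, hE, hF⟩ := h
  apply ((Set.finite_singleton (F' y)).mul hE.inv).subset
  intro x hx
  have hx' : F x = y := hx
  refine ⟨F' y, rfl, (x⁻¹ * F' y)⁻¹, ?_, by simp⟩
  have := hF x
  rw [Function.comp_apply, hx'] at this
  exact Set.inv_mem_inv.mpr this

lemma coarse_mul (g : H) : Coarse (fun x : H => g • x) := by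
  intro A hA
  refine ⟨A, hA, fun x y h => ?_⟩
  have : (g • x)⁻¹ * (g • y) = x⁻¹ * y := by
    simp [mul_assoc]
  rw [this]
  exact h

lemma loc_act (g : H) (q : ℕ) : Loc (H := H) (G := H) q q (act g) := by
  apply loc_pf (coarse_mul g)
  intro y
  apply (Set.finite_singleton (g⁻¹ * y)).subset
  intro x hx
  have hx' : g * x = y := hx
  show x = g⁻¹ * y
  rw [← hx']; simp

end Loc

end Vale.Agent.P188.H882
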