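import Vale.Agent.P188.Main
import Vale.Agent.P188.Rank

/-!
Homology of groups with coefficients, in the language of list chains: the framework.
`CM X M = Ch X ⊗ M`, the boundary `bM`, the action `aM ρ g`, the relations `Rl ρ S`
(coinvariants of the unaugmented complex), and the lemmas behind the Wang sequence.
-/

universe u v w

namespace Vale.Agent.P188.H882

open Finsupp TensorProduct

/-- Chains with coefficients in `M`. -/
def CM (X : Type v) (M : Type w) [AddCommGroup M] := Ch X ⊗[ℤ] M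

noncomputable instance (X : Type v) (M : Type w) [AddCommGroup M] : AddCommGroup (CM X M) :=
  inferInstanceAs (AddCommGroup (Ch X ⊗[ℤ] M))

section Basic

variable {X : Type v} {M : Type w} [AddCommGroup M]

/-- Pure tensors. -/
noncomputable def tp (u : Ch X) (m : M) : CM X M := (u ⊗ₜ[ℤ] m : Ch X ⊗[ℤ] M)

lemma tp_add_left (u v : Ch X) (m : M) : tp (u + v) m = tp u m + tp v m :=
  TensorProduct.add_tmul u v m

lemma tp_add_right (u : Ch X) (m n : M) : tp u (m + n) = tp u m + tp u n :=
  TensorProduct.tmul_add u m n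

@[simp] lemma tp_zero_left (m : M) : tp (0 : Ch X) m = 0 := TensorProduct.zero_tmul _ m

@[simp] lemma tp_zero_right (u : Ch X) : tp u (0 : M) = 0 := TensorProduct.tmul_zero _ u

lemma tp_sub_left (u v : Ch X) (m : M) : tp (u - v) m = tp u m - tp v m := by
  rw [eq_sub_iff_add_eq, ← tp_add_left, sub_add_cancel]

lemma tp_sub_right (u : Ch X) (m n : M) : tp u (m - n) = tp u m - tp u n := by
  rw [eq_sub_iff_add_eq, ← tp_add_right, sub_add_cancel]

lemma tp_neg_left (u : Ch X) (m : M) : tp (-u) m = - tp u m := by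
  rw [eq_neg_iff_add_eq_zero, ← tp_add_left, neg_add_cancel, tp_zero_left]

lemma tp_neg_right (u : Ch X) (m : M) : tp u (-m) = - tp u m := by
  rw [eq_neg_iff_add_eq_zero, ← tp_add_right, neg_add_cancel, tp_zero_right]

lemma tp_smul_left (a : ℤ) (u : Ch X) (m : M) : tp (a • u) m = a • tp u m := by
  let f : Ch X →+ CM X M := ⟨⟨fun u => tp u m, tp_zero_left m⟩, fun u v => tp_add_left u v m⟩
  exact map_zsmul f a u

lemma tp_smul_right (a : ℤ) (u : Ch X) (m : M) : tp u (a • m) = a • tp u m := by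
  let f : M →+ CM X M := ⟨⟨fun m => tp u m, tp_zero_right u⟩, fun m n => tp_add_right u m n⟩
  exact map_zsmul f a m

/-- Induction for `CM`. -/
lemma cm_ind {p : CM X M → Prop} (h0 : p 0) (h1 : ∀ u m, p (tp u m))
    (h2 : ∀ x y, p x → p y → p (x + y)) (z : CM X M) : p z :=
  TensorProduct.induction_on (motive := p) z h0 h1 h2

/-- Additive maps on `CM` agree if they agree on pure tensors. -/
lemma cm_ext {A : Type*} [AddCommGroup A] {f g : CM X M →+ A}
    (h : ∀ (u : Ch X) (m : M), f (tp u m) = g (tp u m)) (z : CM X M) : f z = g z := by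
  induction z using cm_ind with
  | h0 => rw [map_zero, map_zero]
  | h1 u m => exact h u m
  | h2 x y hx hy => rw [map_add, map_add, hx, hy]

/-- An additive map sends `CM` to `S` if it does so for pure tensors. -/
lemma cm_mem {A : Type*} [AddCommGroup A] {f : CM X M →+ A} {S : AddSubgroup A}
    (h : ∀ (u : Ch X) (m : M), f (tp u m) ∈ S) (z : CM X M) : f z ∈ S := by
  induction z using cm_ind with
  | h0 => rw [map_zero]; exact S.zero_mem
  | h1 u m => exact h u m
  | h2 x y hx hy => rw [map_add]; exact S.add_mem hx hy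

/-- The map on chains with coefficients induced by a map on chains. -/
noncomputable def tm {Y : Type*} (T : Ch X →ₗ[ℤ] Ch Y) : CM X M →+ CM Y M :=
  (LinearMap.rTensor M T).toAddMonoidHom

@[simp] lemma tm_tp {Y : Type*} (T : Ch X →ₗ[ℤ] Ch Y) (u : Ch X) (m : M) :
    tm T (tp u m) = tp (T u) m := rfl

/-- Change of coefficients. -/
noncomputable def cm {M' : Type*} [AddCommGroup M'] (f : M →+ M') : CM X M →+ CM X M' :=
  (LinearMap.lTensor (Ch X) f.toIntLinearMap).toAddMonoidHom

@[simp] lemma cm_tp {M' : Type*} [AddCommGroup M'] (f : M →+ M') (u : Ch X) (m : M) :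
    cm f (tp u m) = tp u (f m) := rfl

/-- The boundary with coefficients. -/
noncomputable def bM : CM X M →+ CM X M := tm bd

@[simp] lemma bM_tp (u : Ch X) (m : M) : bM (tp u m) = tp (bd u) m := rfl

@[simp] lemma bM_bM (z : CM X M) : bM (bM z) = 0 := by
  have := cm_ext (f := bM.comp bM) (g := (0 : CM X M →+ CM X M)) (by intro u m; simp) z
  simpa using this

/-- The projection on length `q`. -/
noncomputable def fM (q : ℕ) : CM X M →+ CM X M := tm (flt q)

@[simp] lemma fM_tp (q : ℕ) (u : Ch X) (m : M) : fM q (tp u m) = tp (flt q u) m := rfl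

/-- Chains with coefficients supported on lists of length `q`. -/
noncomputable def DG (X : Type v) (M : Type w) [AddCommGroup M] (q : ℕ) : AddSubgroup (CM X M) :=
  (fM q).range

lemma fM_mem (q : ℕ) (z : CM X M) : fM q z ∈ DG X M q := ⟨z, rfl⟩

lemma fM_fM (q : ℕ) (z : CM X M) : fM q (fM q z) = fM q z := by
  have := cm_ext (f := (fM (X := X) (M := M) q).comp (fM q)) (g := fM q) (by
    intro u m
    simp only [AddMonoidHom.comp_apply, fM_tp]
    rw [flt_eq (flt_mem q u)]) z
  simpa using this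

lemma mem_DG {q : ℕ} {z : CM X M} : z ∈ DG X M q ↔ fM q z = z := by
  constructor
  · rintro ⟨w, rfl⟩
    exact fM_fM q w
  · intro h
    rw [← h]
    exact fM_mem q z

lemma tp_mem_DG {q : ℕ} {u : Ch X} (hu : u ∈ Sp (Gr q : Set (List X))) (m : M) :
    tp u m ∈ DG X M q := by
  rw [mem_DG, fM_tp, flt_eq hu]

/-- Additive maps agree on `DG q` if they agree on pure tensors of that length. -/
lemma dg_ext {A : Type*} [AddCommGroup A] {q : ℕ} {f g : CM X M →+ A}
    (h : ∀ (u : Ch X) (m : M), u ∈ Sp (Gr q : Set (List X)) → f (tp u m) = g (tp u m))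
    {z : CM X M} (hz : z ∈ DG X M q) : f z = g z := by
  rw [← mem_DG.mp hz]
  exact cm_ext (f := f.comp (fM q)) (g := g.comp (fM q)) (by
    intro u m
    simp only [AddMonoidHom.comp_apply, fM_tp]
    exact h _ _ (flt_mem q u)) z

/-- An additive map sends `DG q` to `S` if it does so for pure tensors of that length. -/
lemma dg_mem {A : Type*} [AddCommGroup A] {q : ℕ} {f : CM X M →+ A} {S : AddSubgroup A}
    (h : ∀ (u : Ch X) (m : M), u ∈ Sp (Gr q : Set (List X)) → f (tp u m) ∈ S)
    {z : CM X M} (hz : z ∈ DG X M q) : f z ∈ S := by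
  rw [← mem_DG.mp hz]
  exact cm_mem (f := f.comp (fM q)) (by
    intro u m
    simp only [AddMonoidHom.comp_apply, fM_tp]
    exact h _ _ (flt_mem q u)) z

lemma tm_mem {Y : Type*} {T : Ch X →ₗ[ℤ] Ch Y} {q q' : ℕ}
    (hT : ∀ u ∈ Sp (Gr q : Set (List X)), T u ∈ Sp (Gr q')) {z : CM X M} (hz : z ∈ DG X M q) :
    tm T z ∈ DG Y M q' :=
  dg_mem (fun u m hu => by rw [tm_tp]; exact tp_mem_DG (hT u hu) m) hz

lemma bM_mem {q : ℕ} {z : CM X M} (hz : z ∈ DG X M (q + 1)) : bM z ∈ DG X M q :=
  tm_mem (fun _ hu => bd_mem_Gr hu) hz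

lemma bM_zero {z : CM X M} (hz : z ∈ DG X M 0) : bM z = 0 := by
  have := dg_ext (f := bM) (g := (0 : CM X M →+ CM X M)) (fun u m hu => by
    rw [bM_tp, bd_of_Gr_zero hu]; simp) hz
  simpa using this

lemma fM_bM (q : ℕ) (z : CM X M) : fM q (bM z) = bM (fM (q + 1) z) := by
  have := cm_ext (f := (fM (X := X) (M := M) q).comp bM) (g := bM.comp (fM (q + 1))) (by
    intro u m; simp [bd_flt]) z
  simpa using this

lemma fM_eq_zero {q q' : ℕ} (h : q' ≠ q) {z : CM X M} (hz : z ∈ DG X M q') : fM q z = 0 := by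
  have := dg_ext (f := fM q) (g := (0 : CM X M →+ CM X M)) (fun u m hu => by
    rw [fM_tp, flt_eq_zero h hu]; simp) hz
  simpa using this

end Basic

section Act

variable {P : Type u} [Group P] {X : Type v} [MulAction P X] {M : Type w} [AddCommGroup M]

/-- The diagonal action. -/
noncomputable def aM (ρ : P →* AddMonoid.End M) (g : P) : CM X M →+ CM X M :=
  (TensorProduct.map (act g) (AddMonoidHom.toIntLinearMap (ρ g))).toAddMonoidHom

@[simp] lemma aM_tp (ρ : P →* AddMonoid.End M) (g : P) (u : Ch X) (m : M) :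
    aM ρ g (tp u m) = tp (act g u) (ρ g m) := rfl

variable (ρ : P →* AddMonoid.End M)

lemma aM_tm {T : Ch X →ₗ[ℤ] Ch X} {g : P} (h : ∀ u : Ch X, T (act g u) = act g (T u))
    (z : CM X M) : tm T (aM ρ g z) = aM ρ g (tm T z) := by
  have := cm_ext (f := (tm T).comp (aM ρ g)) (g := (aM ρ g).comp (tm T)) (by
    intro u m; simp [h]) z
  simpa using this

lemma bM_aM (g : P) (z : CM X M) : bM (aM ρ g z) = aM ρ g (bM z) :=
  aM_tm ρ (fun u => bd_act g u) z

lemma fM_aM (g : P) (q : ℕ) (z : CM X M) : fM q (aM ρ g z) = aM ρ g (fM q z) :=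
  aM_tm ρ (fun u => flt_act q g u) z

lemma aM_mul (g h : P) (z : CM X M) : aM ρ (g * h) z = aM ρ g (aM ρ h z) := by
  have := cm_ext (f := aM (X := X) ρ (g * h)) (g := (aM ρ g).comp (aM ρ h)) (by
    intro u m; simp [act_mul]) z
  simpa using this

@[simp] lemma aM_one (z : CM X M) : aM ρ 1 z = z := by
  have := cm_ext (f := aM (X := X) ρ 1) (g := AddMonoidHom.id _) (by
    intro u m; simp [act_one]) z
  simpa using this

lemma aM_inv_aM (g : P) (z : CM X M) : aM ρ g⁻¹ (aM ρ g z) = z := by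
  rw [← aM_mul, inv_mul_cancel, aM_one]

lemma aM_aM_inv (g : P) (z : CM X M) : aM ρ g (aM ρ g⁻¹ z) = z := by
  rw [← aM_mul, mul_inv_cancel, aM_one]

lemma aM_mem (g : P) {q : ℕ} {z : CM X M} (hz : z ∈ DG X M q) :
    aM ρ g z ∈ DG X M q :=
  dg_mem (fun u m hu => by rw [aM_tp]; exact tp_mem_DG (act_mem_Gr g hu) _) hz

/-- The relations: `g u = u` for `g` in `S`, and everything on the empty list. -/
noncomputable def Rl (S : Subgroup P) : AddSubgroup (CM X M) :=
  AddSubgroup.closure {v | ∃ g ∈ S, ∃ u : CM X M, v = aM ρ g u - u} ⊔ DG X M 0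

variable {ρ}

lemma sub_mem_Rl {S : Subgroup P} {g : P} (hg : g ∈ S) (u : CM X M) :
    aM ρ g u - u ∈ Rl (X := X) ρ S :=
  AddSubgroup.mem_sup_left (AddSubgroup.subset_closure ⟨g, hg, u, rfl⟩)

lemma DG_le_Rl (S : Subgroup P) : DG X M 0 ≤ Rl ρ S := le_sup_right

/-- To map `Rl` into a subgroup. -/
lemma Rl_le {S : Subgroup P} {K : AddSubgroup (CM X M)}
    (h1 : ∀ g ∈ S, ∀ u : CM X M, aM ρ g u - u ∈ K) (h2 : DG X M 0 ≤ K) : Rl ρ S ≤ K := by
  apply sup_le _ h2
  apply (AddSubgroup.closure_le K).mpr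
  rintro _ ⟨g, hg, u, rfl⟩
  exact h1 g hg u

lemma Rl_mono {S T : Subgroup P} (h : S ≤ T) : Rl (X := X) ρ S ≤ Rl ρ T :=
  Rl_le (fun _ hg u => sub_mem_Rl (h hg) u) (DG_le_Rl T)

/-- Relations are preserved by equivariant maps. -/
lemma tm_Rl {S : Subgroup P} {T : Ch X →ₗ[ℤ] Ch X}
    (hT : ∀ g ∈ S, ∀ u : Ch X, T (act g u) = act g (T u))
    (hT0 : ∀ z ∈ DG X M 0, tm T z ∈ Rl ρ S) {z : CM X M}
    (hz : z ∈ Rl ρ S) : tm T z ∈ Rl ρ S := by
  have : Rl (X := X) ρ S ≤ (Rl ρ S).comap (tm T) := by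
    apply Rl_le
    · intro g hg u
      show tm T (aM ρ g u - u) ∈ Rl ρ S
      rw [map_sub, aM_tm ρ (hT g hg)]
      exact sub_mem_Rl hg _
    · exact hT0
  exact this hz

lemma bM_Rl {S : Subgroup P} {z : CM X M} (hz : z ∈ Rl ρ S) : bM z ∈ Rl ρ S :=
  tm_Rl (fun g _ u => bd_act g u) (fun v hv => by
    show bM v ∈ _
    rw [bM_zero hv]; exact AddSubgroup.zero_mem _) hz

lemma fM_Rl {S : Subgroup P} {z : CM X M} (q : ℕ) (hz : z ∈ Rl ρ S) : fM q z ∈ Rl ρ S :=
  tm_Rl (fun g _ u => flt_act q g u) (fun v hv => by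
    show fM q v ∈ _
    by_cases hq : q = 0
    · subst hq
      exact DG_le_Rl S (fM_mem 0 v)
    · rw [fM_eq_zero (Ne.symm hq) hv]; exact AddSubgroup.zero_mem _) hz

/-- Relations are preserved by elements normalizing the subgroup. -/
lemma aM_Rl {S : Subgroup P} {p : P} (hp : ∀ g ∈ S, p * g * p⁻¹ ∈ S) {z : CM X M}
    (hz : z ∈ Rl ρ S) : aM ρ p z ∈ Rl ρ S := by
  have : Rl (X := X) ρ S ≤ (Rl ρ S).comap (aM ρ p) := by
    apply Rl_le
    · intro g hg u
      show aM ρ p (aM ρ g u - u) ∈ Rl ρ S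
      rw [map_sub, ← aM_mul]
      have e : p * g = (p * g * p⁻¹) * p := by group
      rw [e, aM_mul]
      exact sub_mem_Rl (hp g hg) _
    · intro v hv
      exact DG_le_Rl S (aM_mem ρ p hv)
  exact this hz

/-- Relations of a directed union. -/
lemma exists_finset_Rl {S : Subgroup P} {z : CM X M} (hz : z ∈ Rl ρ S) :
    ∃ F : Finset P, (F : Set P) ⊆ S ∧ z ∈ Rl ρ (Subgroup.closure (F : Set P)) := by
  classical
  let K : AddSubgroup (CM X M) :=
    { carrier := {z | ∃ F : Finset P, (F : Set P) ⊆ S ∧ z ∈ Rl ρ (Subgroup.closure (F : Set P))}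
      add_mem' := by
        rintro a b ⟨F, hF, ha⟩ ⟨F', hF', hb⟩
        refine ⟨F ∪ F', by simpa using ⟨hF, hF'⟩, ?_⟩
        apply AddSubgroup.add_mem
        · exact Rl_mono (Subgroup.closure_mono (by simp)) ha
        · exact Rl_mono (Subgroup.closure_mono (by simp)) hb
      zero_mem' := ⟨∅, by simp, AddSubgroup.zero_mem _⟩
      neg_mem' := by
        rintro a ⟨F, hF, ha⟩
        exact ⟨F, hF, AddSubgroup.neg_mem _ ha⟩ }
  have : Rl (X := X) ρ S ≤ K := by
    apply Rl_le
    · intro g hg u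
      exact ⟨{g}, by simpa using hg, sub_mem_Rl (Subgroup.subset_closure (by simp)) u⟩
    · intro v hv
      exact ⟨∅, by simp, DG_le_Rl _ hv⟩
  exact this hz

end Act

section Wang

variable {P : Type u} [Group P] {X : Type v} [MulAction P X] {M : Type w} [AddCommGroup M]
variable {ρ : P →* AddMonoid.End M} {N B : Subgroup P} {t : P}

/-- `B = N ⋊ ⟨t⟩`. -/
structure ZExt (N B : Subgroup P) (t : P) : Prop where
  le : N ≤ B
  mem : t ∈ B
  conj : ∀ g ∈ N, t * g * t⁻¹ ∈ N
  conj' : ∀ g ∈ N, t⁻¹ * g * t ∈ N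
  gen : ∀ b ∈ B, ∃ i : ℤ, b * t ^ i ∈ N
  free : ∀ i : ℤ, t ^ i ∈ N → i = 0

/-- (W0): the relations of `B` are those of `N` and those of `t`. -/
lemma W0 (h : ZExt N B t) {z : CM X M} (hz : z ∈ Rl ρ B) :
    ∃ r ∈ Rl ρ N, ∃ y : CM X M, z = r + (aM ρ t y - y) := by
  let K : AddSubgroup (CM X M) := Rl ρ N ⊔ (aM (X := X) ρ t - AddMonoidHom.id _).range
  have key : ∀ y : CM X M, aM ρ t y - y ∈ K := fun y =>
    AddSubgroup.mem_sup_right ⟨y, by simp⟩
  let S' : Subgroup P :=
    { carrier := {g | ∀ u : CM X M, aM ρ g u - u ∈ K}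
      mul_mem' := by
        intro a b ha hb u
        rw [aM_mul]
        have e : aM ρ a (aM ρ b u) - u = (aM ρ a (aM ρ b u) - aM ρ b u) + (aM ρ b u - u) := by
          abel
        rw [e]
        exact K.add_mem (ha _) (hb _)
      one_mem' := by
        intro u
        rw [aM_one, sub_self]
        exact K.zero_mem
      inv_mem' := by
        intro a ha u
        have := ha (aM ρ a⁻¹ u)
        rw [aM_aM_inv] at this
        have e : aM ρ a⁻¹ u - u = - (u - aM ρ a⁻¹ u) := by abel
        rw [e]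
        exact K.neg_mem this }
  have hN : N ≤ S' := fun g hg u => AddSubgroup.mem_sup_left (sub_mem_Rl hg u)
  have ht : t ∈ S' := key
  have hB : B ≤ S' := by
    intro b hb
    obtain ⟨i, hi⟩ := h.gen b hb
    have := S'.mul_mem (hN hi) (S'.inv_mem (S'.zpow_mem ht i))
    simpa using this
  have : Rl (X := X) ρ B ≤ K :=
    Rl_le (fun g hg u => hB hg u) (fun v hv => AddSubgroup.mem_sup_left (DG_le_Rl N hv))
  obtain ⟨r, hr, y', ⟨y, rfl⟩, e⟩ := AddSubgroup.mem_sup.mp (this hz)
  exact ⟨r, hr, y, by rw [← e]; simp⟩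

/-- (W0) in degree `q`. -/
lemma W0_deg (h : ZExt N B t) {q : ℕ} {z : CM X M} (hz : z ∈ Rl ρ B) (hq : z ∈ DG X M q) :
    ∃ r ∈ Rl ρ N, r ∈ DG X M q ∧ ∃ y ∈ DG X M q, z = r + (aM ρ t y - y) := by
  obtain ⟨r, hr, y, e⟩ := W0 h hz
  refine ⟨fM q r, fM_Rl q hr, fM_mem q r, fM q y, fM_mem q y, ?_⟩
  rw [← mem_DG.mp hq, e, map_add, map_sub, fM_aM]

lemma ZExt.zpow_conj (h : ZExt N B t) (j : ℤ) : ∀ g ∈ N, t ^ j * g * (t ^ j)⁻¹ ∈ N := by
  intro g hg
  have key : ∀ k : ℕ, (∀ g ∈ N, t ^ k * g * (t ^ k)⁻¹ ∈ N) ∧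
      (∀ g ∈ N, (t ^ k)⁻¹ * g * t ^ k ∈ N) := by
    intro k
    induction k with
    | zero => exact ⟨by simp, by simp⟩
    | succ k ih =>
      refine ⟨fun g hg => ?_, fun g hg => ?_⟩
      · have := ih.1 _ (h.conj g hg)
        have e : t ^ (k + 1) * g * (t ^ (k + 1))⁻¹ = t ^ k * (t * g * t⁻¹) * (t ^ k)⁻¹ := by
          rw [pow_succ]; group
        rw [e]; exact this
      · have := ih.2 _ (h.conj' g hg)
        have e : (t ^ (k + 1))⁻¹ * g * t ^ (k + 1) = (t ^ k)⁻¹ * (t⁻¹ * g * t) * t ^ k := by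
          rw [pow_succ']; group
        rw [e]; exact this
  rcases Int.eq_nat_or_neg j with ⟨k, rfl | rfl⟩
  · have := (key k).1 g hg
    simpa using this
  · have := (key k).2 g hg
    simpa using this

/-- The height function of an extension by `ℤ`. -/
lemma exists_eta (h : ZExt N B t) (hfree : ∀ (g : P) (x : X), g • x = x → g = 1) :
    ∃ η : X → ℤ, (∀ g ∈ N, ∀ x, η (g • x) = η x) ∧ ∀ x, η (t • x) = η x + 1 := by
  classical
  let rep : X → X := fun x => (Quotient.mk'' x : MulAction.orbitRel.Quotient B X).out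
  have hrep : ∀ x, ∃ g : P, g ∈ B ∧ g • rep x = x := by
    intro x
    have : MulAction.orbitRel B X (rep x) x := Quotient.exact' (Quotient.out_eq'
        (Quotient.mk'' x : MulAction.orbitRel.Quotient B X))
    rw [MulAction.orbitRel_apply] at this
    obtain ⟨g, hg⟩ := this
    have hg' : (g : P) • x = rep x := hg
    exact ⟨(g : P)⁻¹, B.inv_mem g.2, by rw [← hg', inv_smul_smul]⟩
  choose γ hγB hγ using hrep
  have hrepeq : ∀ g ∈ B, ∀ x, rep (g • x) = rep x := by
    intro g hg x
    have : (Quotient.mk'' (g • x) : MulAction.orbitRel.Quotient B X) = Quotient.mk'' x := by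
      apply Quotient.sound'
      rw [MulAction.orbitRel_apply]
      exact ⟨⟨g, hg⟩, rfl⟩
    simp only [rep, this]
  have hγmul : ∀ g ∈ B, ∀ x, γ (g • x) = g * γ x := by
    intro g hg x
    have h2 : γ (g • x) • rep x = g • x := by rw [← hrepeq g hg x]; exact hγ _
    have h3 : (g * γ x)⁻¹ * γ (g • x) = 1 := by
      apply hfree _ (rep x)
      rw [mul_smul, h2, mul_inv_rev, mul_smul, inv_smul_smul]
      exact inv_smul_eq_iff.mpr (hγ x).symm
    exact (inv_mul_eq_one.mp h3).symm
  choose! i hi using h.gen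
  -- uniqueness of the exponent
  have uniq : ∀ b ∈ B, ∀ j : ℤ, b * t ^ j ∈ N → i b = j := by
    intro b hb j hj
    have := N.mul_mem (N.inv_mem (hi b hb)) hj
    have e : (b * t ^ i b)⁻¹ * (b * t ^ j) = t ^ (-(i b) + j) := by
      rw [zpow_add, zpow_neg]; group
    rw [e] at this
    have := h.free _ this
    omega
  refine ⟨fun x => - i (γ x), ?_, ?_⟩
  · intro g hg x
    simp only
    rw [hγmul g (h.le hg)]
    congr 1
    apply uniq _ (B.mul_mem (h.le hg) (hγB x))
    rw [mul_assoc]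
    exact N.mul_mem hg (hi _ (hγB x))
  · intro x
    simp only
    rw [hγmul t h.mem]
    have : i (t * γ x) = i (γ x) - 1 := by
      apply uniq _ (B.mul_mem h.mem (hγB x))
      have := h.conj _ (hi _ (hγB x))
      have e : t * γ x * t ^ (i (γ x) - 1) = t * (γ x * t ^ i (γ x)) * t⁻¹ := by
        rw [zpow_sub_one]; group
      rw [e]; exact this
    omega

/-- The projection on lists of height `i`. -/
noncomputable def hp {X : Type v} (η : X → ℤ) (i : ℤ) : Ch X →ₗ[ℤ] Ch X :=
  Finsupp.linearCombination ℤ (fun l => match l with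
    | [] => 0
    | x :: s => if η x = i then single (x :: s) 1 else 0)

lemma hp_nil {X : Type v} (η : X → ℤ) (i : ℤ) : hp η i (single [] 1) = 0 := by
  simp [hp, Finsupp.linearCombination_single]

lemma hp_cons {X : Type v} (η : X → ℤ) (i : ℤ) (x : X) (s : List X) :
    hp η i (single (x :: s) 1) = if η x = i then single (x :: s) 1 else 0 := by
  simp [hp, Finsupp.linearCombination_single]

lemma hp_act {η : X → ℤ} {g : P} {a : ℤ} (hg : ∀ x, η (g • x) = η x + a) (i : ℤ) (u : Ch X) :
    hp η (i + a) (act g u) = act g (hp η i u) := by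
  have : (hp η (i + a) ∘ₗ act g : Ch X →ₗ[ℤ] Ch X) = act g ∘ₗ hp η i := by
    apply lin_ext
    intro l
    rw [LinearMap.comp_apply, LinearMap.comp_apply, act_single]
    rcases l with _ | ⟨x, s⟩
    · rw [List.map_nil, hp_nil, hp_nil, map_zero]
    · rw [List.map_cons, hp_cons, hp_cons, hg]
      by_cases hx : η x = i
      · rw [if_pos (by rw [hx]), if_pos hx, act_single, List.map_cons]
      · rw [if_neg (fun h => hx (by linarith)), if_neg hx, map_zero]
  exact LinearMap.congr_fun this u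

lemma hp_Gr_zero {X : Type v} (η : X → ℤ) (i : ℤ) {u : Ch X}
    (hu : u ∈ Sp (Gr 0 : Set (List X))) : hp η i u = 0 := by
  have := eq_of_Sp (L := hp η i) (L' := 0) (p := Gr 0) (u := u) (by
    intro l hl
    have : l = [] := List.length_eq_zero_iff.mp hl
    subst this
    rw [hp_nil]; rfl) hu
  simpa using this

lemma hp_cons' {X : Type v} (η : X → ℤ) (i : ℤ) (x : X) (s : List X) (a : ℤ) :
    hp η i (single (x :: s) a) = if η x = i then single (x :: s) a else 0 := by
  have : single (x :: s) a = a • single (x :: s) (1 : ℤ) := by simp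
  rw [this, map_smul, hp_cons]
  split_ifs <;> simp

/-- The heights of a chain are bounded. -/
lemma exists_bound {X : Type v} {M : Type w} [AddCommGroup M] (η : X → ℤ) (z : CM X M) :
    ∃ m₀ : ℕ, ∀ m ≥ m₀, (∀ i : ℤ, i < -m → tm (hp η i) z = 0) ∧
      z - ∑ j ∈ Finset.range (2 * m + 1), tm (hp η (-m + j)) z ∈ DG X M 0 := by
  induction z using cm_ind with
  | h0 => exact ⟨0, fun m _ => ⟨fun i _ => map_zero _, by simp⟩⟩
  | h2 x y hx hy =>
    obtain ⟨m1, h1⟩ := hx
    obtain ⟨m2, h2⟩ := hy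
    refine ⟨max m1 m2, fun m hm => ⟨fun i hi => ?_, ?_⟩⟩
    · rw [map_add, (h1 m (le_trans (le_max_left _ _) hm)).1 i hi,
        (h2 m (le_trans (le_max_right _ _) hm)).1 i hi, add_zero]
    · have := AddSubgroup.add_mem _ (h1 m (le_trans (le_max_left _ _) hm)).2
        (h2 m (le_trans (le_max_right _ _) hm)).2
      simp only [map_add, Finset.sum_add_distrib]
      have e : ∀ a b c d : CM X M, a + b - (c + d) = a - c + (b - d) := by intros; abel
      rw [e]; exact this
  | h1 u m' =>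
    induction u using Finsupp.induction_linear with
    | zero =>
      refine ⟨0, fun m _ => ⟨fun i _ => by simp, by simp⟩⟩
    | add u v hu hv =>
      obtain ⟨m1, h1⟩ := hu
      obtain ⟨m2, h2⟩ := hv
      refine ⟨max m1 m2, fun m hm => ⟨fun i hi => ?_, ?_⟩⟩
      · rw [tp_add_left, map_add, (h1 m (le_trans (le_max_left _ _) hm)).1 i hi,
          (h2 m (le_trans (le_max_right _ _) hm)).1 i hi, add_zero]
      · have := AddSubgroup.add_mem _ (h1 m (le_trans (le_max_left _ _) hm)).2
          (h2 m (le_trans (le_max_right _ _) hm)).2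
        simp only [tp_add_left, map_add, Finset.sum_add_distrib]
        have e : ∀ a b c d : CM X M, a + b - (c + d) = a - c + (b - d) := by intros; abel
        rw [e]; exact this
    | single l a =>
      rcases l with _ | ⟨x, s⟩
      · have h0 : (single ([] : List X) a) ∈ Sp (Gr 0 : Set (List X)) :=
          single_mem_Sp (by simp [Gr]) a
        refine ⟨0, fun m _ => ⟨fun i _ => by rw [tm_tp, hp_Gr_zero η i h0, tp_zero_left], ?_⟩⟩
        have : ∑ j ∈ Finset.range (2 * m + 1), tm (hp η (-m + j)) (tp (single ([] : List X) a) m')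
            = 0 := by
          apply Finset.sum_eq_zero
          intro j _
          rw [tm_tp, hp_Gr_zero η _ h0, tp_zero_left]
        rw [this, sub_zero]
        exact tp_mem_DG h0 m'
      · refine ⟨(η x).natAbs, fun m hm => ⟨fun i hi => ?_, ?_⟩⟩
        · rw [tm_tp, hp_cons', if_neg (by omega), tp_zero_left]
        · have : ∑ j ∈ Finset.range (2 * m + 1), tm (hp η (-m + j)) (tp (single (x :: s) a) m')
              = tp (single (x :: s) a) m' := by
            rw [Finset.sum_eq_single (η x + m).toNat]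
            · rw [tm_tp, hp_cons', if_pos (by omega)]
            · intro j _ hj
              rw [tm_tp, hp_cons', if_neg (by omega), tp_zero_left]
            · intro hj
              exfalso
              apply hj
              rw [Finset.mem_range]
              omega
          rw [this, sub_self]
          exact AddSubgroup.zero_mem _

/-- (W1): the translation minus the identity is injective modulo the relations of `N`. -/
lemma W1 (h : ZExt N B t) (hfree : ∀ (g : P) (x : X), g • x = x → g = 1) {v : CM X M}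
    (hv : aM ρ t v - v ∈ Rl ρ N) : v ∈ Rl ρ N := by
  obtain ⟨η, hηN, hηt⟩ := exists_eta (X := X) h hfree
  have hN : ∀ i : ℤ, ∀ z ∈ Rl (X := X) ρ N, tm (hp η i) z ∈ Rl ρ N := by
    intro i z hz
    apply tm_Rl _ _ hz
    · intro g hg u
      have := hp_act (η := η) (g := g) (a := 0) (fun x => by rw [hηN g hg x, add_zero]) i u
      simpa using this
    · intro z hz
      have : tm (hp η i) z = 0 := by
        have := dg_ext (f := tm (hp η i)) (g := (0 : CM X M →+ CM X M)) (fun u m hu => by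
          rw [tm_tp, hp_Gr_zero η i hu]; simp) hz
        simpa using this
      rw [this]; exact AddSubgroup.zero_mem _
  have ht : ∀ (i : ℤ) (z : CM X M), tm (hp η (i + 1)) (aM ρ t z) = aM ρ t (tm (hp η i) z) := by
    intro i z
    have := cm_ext (f := (tm (hp η (i + 1))).comp (aM ρ t)) (g := (aM ρ t).comp (tm (hp η i))) (by
      intro u m; simp [hp_act hηt]) z
    simpa using this
  have hstep : ∀ i : ℤ, tm (hp η i) v ∈ Rl (X := X) ρ N → tm (hp η (i + 1)) v ∈ Rl ρ N := by
    intro i hi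
    have h1 := hN (i + 1) _ hv
    rw [map_sub, ht] at h1
    have h2 := aM_Rl h.conj hi
    have := AddSubgroup.sub_mem _ h2 h1
    simpa using this
  obtain ⟨m, hm⟩ := exists_bound η v
  obtain ⟨hm1, hm2⟩ := hm m le_rfl
  have hall : ∀ k : ℕ, tm (hp η (-m - 1 + k)) v ∈ Rl (X := X) ρ N := by
    intro k
    induction k with
    | zero =>
      rw [hm1 _ (by push_cast; omega)]; exact AddSubgroup.zero_mem _
    | succ k ih =>
      have := hstep _ ih
      have e : (-(m : ℤ) - 1 + (k : ℤ) + 1) = -m - 1 + ((k + 1 : ℕ) : ℤ) := by push_cast; ring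
      rw [e] at this; exact this
  have hsum : ∑ j ∈ Finset.range (2 * m + 1), tm (hp η (-m + j)) v ∈ Rl (X := X) ρ N := by
    apply AddSubgroup.sum_mem
    intro j _
    have := hall (j + 1)
    have e : (-(m : ℤ) - 1 + ((j + 1 : ℕ) : ℤ)) = -m + j := by push_cast; ring
    rw [e] at this; exact this
  have := AddSubgroup.add_mem _ (DG_le_Rl N hm2) hsum
  simpa using this

end Wang

end Vale.Agent.P188.H882
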