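import Vale.Agent.P188.H882.HW

/-!
Definitions and statements of the blocks QA6, QA7, QA8 (route A of P188).
-/

universe u v w

namespace Vale.Agent.P188.H882

open Finsupp Pointwise

section Defs

variable {P : Type u} [Group P]

/-- `B` has a series of length `h` with infinite cyclic factors, all of whose terms are
normalized by the elements of `S`, which act trivially on the factors. -/
def CS (S : Set P) : ℕ → Subgroup P → Prop
  | 0, B => B = ⊥
  | h + 1, B => ∃ (N : Subgroup P) (t : P), ZExt N B t ∧ CS S h N ∧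
      ∀ p ∈ S, (∀ g ∈ N, p * g * p⁻¹ ∈ N) ∧ t⁻¹ * (p * t * p⁻¹) ∈ N

/-- `B` is obtained from `K` by `l` extensions by `ℤ`. -/
def ZC (K : Subgroup P) : ℕ → Subgroup P → Prop
  | 0, B => B = K
  | l + 1, B => ∃ (N : Subgroup P) (t : P), ZExt N B t ∧ ZC K l N

/-- `e` is a fundamental class of `B` in degree `h` (lists of length `h + 1`). -/
structure Fund (X : Type v) [MulAction P X] (S : Set P) (B : Subgroup P) (h : ℕ) (e : Ch X) :
    Prop where
  mem : e ∈ Sp (Gr (h + 1) : Set (List X))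
  cyc : bM (tp e (1 : ℤ)) ∈ Rl (X := X) (M := ℤ) (1 : P →* AddMonoid.End ℤ) B
  ori : ∀ p ∈ S, Null (X := X) (M := ℤ) (1 : P →* AddMonoid.End ℤ) B (h + 1)
    (aM 1 p (tp e (1 : ℤ)) - tp e 1)
  gen : ∀ (M : Type) [AddCommGroup M] (ρ : P →* AddMonoid.End M), (∀ b ∈ B, ρ b = 1) →
    ∀ z ∈ DG X M (h + 1), bM z ∈ Rl ρ B → ∃ m : M, Null ρ B (h + 1) (z - tp e m)
  inj : ∀ (M : Type) [AddCommGroup M] (ρ : P →* AddMonoid.End M), (∀ b ∈ B, ρ b = 1) →
    ∀ m : M, Null ρ B (h + 1) (tp e m) → m = 0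
  van : ∀ (M : Type) [AddCommGroup M] (ρ : P →* AddMonoid.End M), ∀ q ≥ h + 2, HVan X ρ B q

end Defs

/-- (QA6a.1) existence of fundamental classes. -/
def QA6a_fund : Prop :=
  ∀ (P X : Type) [Group P] [MulAction P X] [Nonempty X],
    (∀ (g : P) (x : X), g • x = x → g = 1) →
    ∀ (S : Set P) (h : ℕ) (B : Subgroup P), (B : Set P) ⊆ S → CS S h B →
      ∃ e : Ch X, Fund X S B h e

/-- (QA6a.2) the index formula, and monotonicity of the length. -/
def QA6a_index : Prop :=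
  ∀ (P X : Type) [Group P] [MulAction P X] [Nonempty X],
    (∀ (g : P) (x : X), g • x = x → g = 1) →
    ∀ (h h' : ℕ) (L B : Subgroup P), L ≤ B → CS (B : Set P) h B → CS (L : Set P) h' L →
      h' ≤ h ∧ (h' = h → ∀ e e' : Ch X, Fund X (L : Set P) L h e → Fund X (B : Set P) B h e' →
        ∃ k : ℤ, k ≠ 0 ∧ Null (X := X) (M := ℤ) (1 : P →* AddMonoid.End ℤ) B (h + 1)
          (tp e (1 : ℤ) - tp e' k) ∧ (k.natAbs = 1 → L = B))

/-- (QA6b) top homology of `B = K.ℤ^l`, as a relation `Ov` between cycles of `B` (lists of length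
`d + l`) and invariant cycles of `K` (lists of length `d`), `d ≥ 1`. -/
def QA6b_top : Prop :=
  ∀ (P X : Type) [Group P] [MulAction P X],
    (∀ (g : P) (x : X), g • x = x → g = 1) →
    ∀ (K : Subgroup P), (∀ a b : P, a * b * a⁻¹ * b⁻¹ ∈ K) → ∀ (l : ℕ), ZC K l ⊤ →
    ∀ (d : ℕ) (M : Type) [AddCommGroup M] (ρ : P →* AddMonoid.End M),
      (∀ q ≥ d + 1, HVan X ρ K q) →
      (∀ q ≥ d + l + 1, HVan X ρ (⊤ : Subgroup P) q) ∧
      ∃ Ov : CM X M → CM X M → Prop,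
        (∀ z y z' y', Ov z y → Ov z' y' → Ov (z - z') (y - y')) ∧
        (∀ z y, Ov z y → (Null ρ ⊤ (d + l) z ↔ Null ρ K d y)) ∧
        (∀ z ∈ DG X M (d + l), bM z ∈ Rl ρ (⊤ : Subgroup P) → ∃ y ∈ DG X M d, bM y ∈ Rl ρ K ∧
          (∀ p : P, Null ρ K d (aM ρ p y - y)) ∧ Ov z y) ∧
        (∀ y ∈ DG X M d, bM y ∈ Rl ρ K → (∀ p : P, Null ρ K d (aM ρ p y - y)) →
          ∃ z ∈ DG X M (d + l), bM z ∈ Rl ρ (⊤ : Subgroup P) ∧ Ov z y)

/-- (QA6) the algebraic end: `K` is finitely generated. -/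
def QA6 : Prop :=
  ∀ (P : Type) [Group P] (K : Subgroup P), (∀ a b : P, a * b * a⁻¹ * b⁻¹ ∈ K) →
    ∀ (l : ℕ), ZC K l ⊤ →
    ∀ (hmax : ℕ), (∀ B : Subgroup P, B ≤ K → B.FG → ∃ h ≤ hmax, CS (B : Set P) h B) →
    ∀ (n : ℕ), (∀ (M : Type) [AddCommGroup M] (ρ : P →* AddMonoid.End M), ∀ q ≥ n + 2,
      ∃ m : ℤ, m ≠ 0 ∧ ∀ z ∈ DG P M q, bM z ∈ Rl ρ (⊤ : Subgroup P) → Null ρ ⊤ q (m • z)) →
    ∀ c : Ch P →ₗ[ℤ] ℤ, (∀ (g : P) (u : Ch P), c (act g u) = c u) →
      (∀ u ∈ Sp (Gr (n + 2) : Set (List P)), c (bd u) = 0) →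
      ∀ z ∈ Sp (Gr (n + 1) : Set (List P)),
        bM (tp z (1 : ℤ)) ∈ Rl (X := P) (M := ℤ) (1 : P →* AddMonoid.End ℤ) (⊤ : Subgroup P) →
        c z ≠ 0 → K.FG

/-- Growth of a finitely generated subgroup is at most polynomial of degree `D`. -/
def GrowthLE {H : Type*} [Group H] (B : Subgroup H) (D : ℕ) : Prop :=
  ∃ T : Finset H, (1 : H) ∈ T ∧ Subgroup.closure (T : Set H) = B ∧
    ∃ C : ℕ, ∀ k : ℕ, Nat.card ((T : Set H) ^ k : Set H) ≤ C * (k + 1) ^ D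

/-- (QA7) the structure of `K`: a locally (virtually nilpotent) group with bounded torsion has a
characteristic subgroup `C` of finite index and a finite characteristic subgroup `T ≤ C` such
that all finitely generated subgroups of `C / T` are torsion free nilpotent. -/
def QA7 : Prop :=
  ∀ (K : Type) [Group K] (m D : ℕ), 0 < m → (∀ F : Subgroup K, Finite F → Nat.card F ∣ m) →
    (∀ B : Subgroup K, B.FG → GrowthLE B D) →
    ∃ (C T : Subgroup K) (_ : C.Characteristic) (_ : T.Characteristic), C.FiniteIndex ∧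
      T ≤ C ∧ Finite T ∧ ∃ hmax : ℕ, ∀ B : Subgroup (K ⧸ T), B ≤ C.map (QuotientGroup.mk' T) →
        B.FG → ∃ h ≤ hmax, CS (B : Set (K ⧸ T)) h B

/-- (QA8) if `K` is normal in `P` and `P / K` is an extension of a finite group by a finitely
generated free abelian group then a subgroup of finite index is `K.ℤ^l`. -/
def QA8 : Prop :=
  ∀ (P : Type) [Group P] (K K' : Subgroup P) [K.Normal] [K'.Normal], K ≤ K' →
    (K.subgroupOf K').FiniteIndex → ∀ (k : ℕ) (f : P →* Multiplicative (Fin k → ℤ)),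
      f.ker = K' →
      ∃ (l : ℕ) (P₀ : Subgroup P), P₀.FiniteIndex ∧ P₀ ⊓ K' = K ∧
        (∀ a b : P₀, a * b * a⁻¹ * b⁻¹ ∈ K.subgroupOf P₀) ∧ ZC (K.subgroupOf P₀) l ⊤

end Vale.Agent.P188.H882
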