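import Mathlib

/-!
# Coarse differentiation along cyclic subgroups, with a common scale

`S` a group with a measure `μ` invariant under right translations, `f : S → ℝ` with
`|f (x t) - f x| ≤ L`, `D` of finite positive measure, nearly invariant under the powers of `t`.
-/

open MeasureTheory Set Finset
open scoped ENNReal BigOperators

namespace P188.H882

section Energy

variable {S : Type*} [Group S]

/-- difference quotient at scale `n` -/
noncomputable def dq (f : S → ℝ) (t : S) (n : ℕ) (x : S) : ℝ := (f (x * t ^ n) - f x) / n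

lemma abs_dist_pow {f : S → ℝ} {t : S} {L : ℝ} (hL : ∀ x, |f (x * t) - f x| ≤ L) (n : ℕ) (x : S) :
    |f (x * t ^ n) - f x| ≤ n * L := by
  induction n with
  | zero => simp
  | succ n ih =>
    have h1 := hL (x * t ^ n)
    have : f (x * t ^ (n+1)) - f x = (f (x * t ^ n * t) - f (x * t ^ n)) + (f (x * t ^ n) - f x) := by
      rw [pow_succ, mul_assoc]; ring
    rw [this]
    push_cast
    calc _ ≤ |f (x * t ^ n * t) - f (x * t ^ n)| + |f (x * t ^ n) - f x| := abs_add_le _ _
      _ ≤ L + n * L := add_le_add h1 ih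
      _ = _ := by ring

lemma abs_dist_zpow {f : S → ℝ} {t : S} {L : ℝ} (hL : ∀ x, |f (x * t) - f x| ≤ L) (m : ℤ) (x : S) :
    |f (x * t ^ m) - f x| ≤ |(m:ℝ)| * L := by
  obtain ⟨n, rfl | rfl⟩ := m.eq_nat_or_neg
  · simpa using abs_dist_pow hL n x
  · have := abs_dist_pow hL n (x * t ^ (-(n:ℤ)))
    rw [mul_assoc, ← zpow_natCast, ← zpow_add] at this
    simp only [neg_add_cancel, zpow_zero, mul_one] at this
    rw [abs_sub_comm] at this
    simpa using this

lemma abs_dq_le {f : S → ℝ} {t : S} {L : ℝ} (hL : ∀ x, |f (x * t) - f x| ≤ L) {n : ℕ}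
    (hn : 0 < n) (x : S) : |dq f t n x| ≤ L := by
  unfold dq
  rw [abs_div, Nat.abs_cast, div_le_iff₀ (by exact_mod_cast hn)]
  simpa [mul_comm] using abs_dist_pow hL n x

lemma sum_dq (f : S → ℝ) (t : S) {n : ℕ} (j : ℕ) (x : S) :
    ∑ l ∈ range j, dq f t n (x * t ^ (l * n)) = (f (x * t ^ (j * n)) - f x) / n := by
  induction j with
  | zero => simp
  | succ j ih =>
    rw [Finset.sum_range_succ, ih]
    unfold dq
    rw [mul_assoc, ← pow_add, Nat.succ_mul]
    ring

/-- variance of the increments over `Q` consecutive segments of length `n` -/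
noncomputable def vr (f : S → ℝ) (t : S) (n Q : ℕ) (x : S) : ℝ :=
  (∑ l ∈ range Q, (dq f t n (x * t ^ (l * n))) ^ 2) / Q - (dq f t (Q * n) x) ^ 2

lemma vr_eq (f : S → ℝ) (t : S) {n Q : ℕ} (hn : 0 < n) (hQ : 0 < Q) (x : S) :
    vr f t n Q x =
      (∑ l ∈ range Q, (dq f t n (x * t ^ (l * n)) - dq f t (Q * n) x) ^ 2) / Q := by
  have hs := sum_dq f t (n := n) Q x
  have hQ' : (Q : ℝ) ≠ 0 := by positivity
  have hn' : (n : ℝ) ≠ 0 := by positivity
  have h1 : ∑ l ∈ range Q, dq f t n (x * t ^ (l * n)) = Q * dq f t (Q * n) x := by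
    rw [hs]; unfold dq; push_cast; field_simp
  have h2 : ∑ l ∈ range Q, (dq f t n (x * t ^ (l * n)) - dq f t (Q * n) x) ^ 2
      = ∑ l ∈ range Q, (dq f t n (x * t ^ (l * n))) ^ 2
        - 2 * dq f t (Q * n) x * ∑ l ∈ range Q, dq f t n (x * t ^ (l * n))
        + Q * (dq f t (Q * n) x) ^ 2 := by
    rw [Finset.mul_sum, ← Finset.sum_sub_distrib]
    have : (Q : ℝ) * (dq f t (Q * n) x) ^ 2 = ∑ l ∈ range Q, (dq f t (Q * n) x) ^ 2 := by simp
    rw [this, ← Finset.sum_add_distrib]
    refine Finset.sum_congr rfl fun l _ => by ring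
  rw [h2, h1]
  unfold vr
  field_simp
  ring

lemma vr_nonneg (f : S → ℝ) (t : S) {n Q : ℕ} (hn : 0 < n) (hQ : 0 < Q) (x : S) :
    0 ≤ vr f t n Q x := by
  rw [vr_eq f t hn hQ]
  positivity

lemma vr_le {f : S → ℝ} {t : S} {L : ℝ} (hL : ∀ x, |f (x * t) - f x| ≤ L) {n Q : ℕ}
    (hn : 0 < n) (hQ : 0 < Q) (x : S) : vr f t n Q x ≤ L ^ 2 := by
  unfold vr
  have h1 : (∑ l ∈ range Q, (dq f t n (x * t ^ (l * n))) ^ 2) / Q ≤ L ^ 2 := by
    rw [div_le_iff₀ (by exact_mod_cast hQ)]
    calc _ ≤ ∑ l ∈ range Q, L ^ 2 := by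
          refine Finset.sum_le_sum fun l _ => ?_
          rw [← sq_abs]
          exact pow_le_pow_left₀ (abs_nonneg _) (abs_dq_le hL hn _) 2
      _ = _ := by simp [mul_comm]
  nlinarith [sq_nonneg (dq f t (Q * n) x)]

/-- if the variance is small, `f` is nearly affine on the line -/
lemma affine_of_vr {f : S → ℝ} {t : S} {L ω : ℝ} (hL0 : 0 ≤ L)
    (hL : ∀ x, |f (x * t) - f x| ≤ L) {n q : ℕ} (hn : 0 < n) (hq : 0 < q) (hω : 0 ≤ ω) (x : S)
    (hv : vr f t n (2 * q) (x * t ^ (-((q * n : ℕ) : ℤ))) ≤ ω ^ 2 / (2 * q : ℕ))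
    (m : ℤ) (hm : |m| ≤ (q * n : ℕ)) :
    |f (x * t ^ m) - f x - m * dq f t (q * n) x| ≤ 2 * (q * n : ℕ) * ω + 2 * n * L := by
  set y : S := x * t ^ (-((q * n : ℕ) : ℤ)) with hy
  have hxy : y * t ^ (q * n) = x := by
    rw [hy, mul_assoc, ← zpow_natCast, ← zpow_add]; simp
  set a : ℝ := dq f t (2 * q * n) y with ha
  have hn' : (0:ℝ) < n := by exact_mod_cast hn
  have hq' : (0:ℝ) < q := by exact_mod_cast hq
  -- each increment is close to the average
  have h1 : ∀ l ∈ range (2 * q), |dq f t n (y * t ^ (l * n)) - a| ≤ ω := by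
    intro l hl
    rw [vr_eq f t hn (by omega)] at hv
    rw [div_le_div_iff_of_pos_right (by positivity)] at hv
    have h2 : (dq f t n (y * t ^ (l * n)) - a) ^ 2 ≤ ω ^ 2 :=
      le_trans (Finset.single_le_sum (f := fun l => (dq f t n (y * t ^ (l * n)) - a) ^ 2)
        (fun _ _ => sq_nonneg _) hl) hv
    exact abs_le_of_sq_le_sq h2 hω
  -- between two grid points
  have h3 : ∀ j j' : ℕ, j ≤ j' → j' ≤ 2 * q →
      |f (y * t ^ (j' * n)) - f (y * t ^ (j * n)) - ((j':ℝ) - j) * n * a| ≤ ((j':ℝ) - j) * n * ω := by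
    intro j j' hjj hj'
    induction j', hjj using Nat.le_induction with
    | base => simp
    | succ j' hjj ih =>
      have ih' := ih (by omega)
      have h4 := h1 j' (by simp; omega)
      have h5 : f (y * t ^ ((j'+1) * n)) - f (y * t ^ (j' * n)) = n * dq f t n (y * t ^ (j' * n)) := by
        unfold dq
        rw [mul_assoc y, ← pow_add, Nat.succ_mul]
        field_simp
      have h6 : |f (y * t ^ ((j'+1) * n)) - f (y * t ^ (j' * n)) - n * a| ≤ n * ω := by
        rw [h5, ← mul_sub, abs_mul, abs_of_pos hn']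
        exact mul_le_mul_of_nonneg_left h4 hn'.le
      push_cast
      calc _ = |(f (y * t ^ ((j'+1) * n)) - f (y * t ^ (j' * n)) - n * a)
            + (f (y * t ^ (j' * n)) - f (y * t ^ (j * n)) - ((j':ℝ) - j) * n * a)| := by
            congr 1; ring
        _ ≤ _ := abs_add_le _ _
        _ ≤ n * ω + ((j':ℝ) - j) * n * ω := add_le_add h6 ih'
        _ = _ := by ring
  have h3' : ∀ j' : ℕ, j' ≤ 2 * q →
      |f (y * t ^ (j' * n)) - f x - ((j':ℝ) - q) * n * a| ≤ q * n * ω := by
    intro j' hj'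
    rcases le_total q j' with h | h
    · have := h3 q j' h hj'
      rw [hxy] at this
      refine this.trans ?_
      have : ((j':ℝ) - q) ≤ q := by
        have : (j':ℝ) ≤ 2 * q := by exact_mod_cast hj'
        linarith
      have h7 : ((j':ℝ) - q) * n * ω ≤ q * n * ω := by
        have := mul_nonneg hn'.le hω
        nlinarith
      exact h7
    · have := h3 j' q h (by omega)
      rw [hxy] at this
      rw [← abs_neg]
      have e : -(f (y * t ^ (j' * n)) - f x - ((j':ℝ) - q) * n * a)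
        = f x - f (y * t ^ (j' * n)) - ((q:ℝ) - j') * n * a := by ring
      rw [e]
      refine this.trans ?_
      have h8 : (0:ℝ) ≤ j' := by positivity
      have := mul_nonneg hn'.le hω
      nlinarith
  -- the slope at `x`
  have h9 : |dq f t (q * n) x - a| ≤ ω := by
    have := h3' (2 * q) le_rfl
    have e : y * t ^ (2 * q * n) = x * t ^ (q * n) := by
      have e0 : y * t ^ (2 * q * n) = y * t ^ (q * n) * t ^ (q * n) := by
        rw [mul_assoc y, ← pow_add]; congr 2; ring
      rw [e0, hxy]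
    rw [e] at this
    have h10 : f (x * t ^ (q * n)) - f x = (q * n) * dq f t (q * n) x := by
      unfold dq; push_cast; field_simp
    rw [h10] at this
    have e2 : (q * n : ℝ) * dq f t (q * n) x - (((2 * q : ℕ):ℝ) - q) * n * a
      = (q * n) * (dq f t (q * n) x - a) := by push_cast; ring
    rw [e2, abs_mul, abs_of_pos (by positivity)] at this
    exact le_of_mul_le_mul_left this (by positivity)
  have haL : |a| ≤ L := abs_dq_le hL (by positivity) _
  -- position of `m`
  have hm' := abs_le.mp hm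
  obtain ⟨M, hM⟩ : ∃ M : ℕ, (M : ℤ) = m + (q * n : ℕ) := ⟨(m + (q * n : ℕ)).toNat, by
    rw [Int.toNat_of_nonneg]; linarith [hm'.1]⟩
  have hMle : M ≤ 2 * q * n := by
    have : (M : ℤ) ≤ 2 * ((q * n : ℕ) : ℤ) := by rw [hM]; linarith [hm'.2]
    have h : M ≤ 2 * (q * n) := by exact_mod_cast this
    linarith [h, (show 2 * (q * n) = 2 * q * n by ring)]
  obtain ⟨j0, r0, hr0, hMj⟩ : ∃ j0 r0 : ℕ, r0 < n ∧ M = j0 * n + r0 :=
    ⟨M / n, M % n, Nat.mod_lt M hn, (Nat.div_add_mod' M n).symm⟩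
  have hxm : x * t ^ m = y * t ^ (j0 * n) * t ^ r0 := by
    have e0 : t ^ (q * n) * t ^ m = t ^ (j0 * n) * t ^ r0 := by
      rw [← pow_add, ← hMj, ← zpow_natCast, ← zpow_natCast, ← zpow_add, hM, add_comm]
    rw [mul_assoc, ← e0, ← mul_assoc, hxy]
  have hj' : j0 ≤ 2 * q := by
    by_contra hcon
    have : (2 * q + 1) * n ≤ j0 * n := Nat.mul_le_mul_right n (by omega)
    have h15 : (2 * q + 1) * n = 2 * q * n + n := by ring
    omega
  have h11 := h3' j0 hj'
  have h12 := abs_dist_pow hL r0 (y * t ^ (j0 * n))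
  rw [← hxm] at h12
  have hr : (r0 : ℝ) ≤ n := by exact_mod_cast hr0.le
  have hmM : (m : ℝ) = j0 * n + r0 - q * n := by
    have h13 : (m : ℤ) = (M : ℤ) - (q * n : ℕ) := by rw [hM]; ring
    rw [hMj] at h13
    have : (m : ℝ) = (((j0 * n + r0 : ℕ) : ℤ) : ℝ) - ((q * n : ℕ) : ℤ) := by
      rw [h13]; push_cast; ring
    rw [this]; push_cast; ring
  have hmabs : |(m:ℝ)| ≤ q * n := by
    have : |(m:ℝ)| = ((|m| : ℤ) : ℝ) := by push_cast; rfl
    rw [this]
    exact_mod_cast hm
  have key : f (x * t ^ m) - f x - m * dq f t (q * n) x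
      = (f (x * t ^ m) - f (y * t ^ (j0 * n)))
        + (f (y * t ^ (j0 * n)) - f x - ((j0:ℝ) - q) * n * a)
        + (-(r0:ℝ) * a) + (-(m * (dq f t (q * n) x - a))) := by
    have : (((j0:ℝ) - q) * n) = m - r0 := by rw [hmM]; ring
    rw [this]; ring
  rw [key]
  have b1 : |f (x * t ^ m) - f (y * t ^ (j0 * n))| ≤ n * L :=
    h12.trans (mul_le_mul_of_nonneg_right hr hL0)
  have b3 : |(-(r0:ℝ) * a)| ≤ n * L := by
    rw [abs_mul, abs_neg, Nat.abs_cast]
    exact mul_le_mul hr haL (abs_nonneg _) hn'.le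
  have b4 : |(-(m * (dq f t (q * n) x - a)))| ≤ q * n * ω := by
    rw [abs_neg, abs_mul]
    exact mul_le_mul hmabs h9 (abs_nonneg _) (by positivity)
  calc _ ≤ |f (x * t ^ m) - f (y * t ^ (j0 * n))|
        + |f (y * t ^ (j0 * n)) - f x - ((j0:ℝ) - q) * n * a|
        + |(-(r0:ℝ) * a)| + |(-(m * (dq f t (q * n) x - a)))| :=
        (abs_add_le _ _).trans (add_le_add (abs_add_three _ _ _) le_rfl)
    _ ≤ n * L + q * n * ω + n * L + q * n * ω := by
        gcongr
    _ = _ := by push_cast; ring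

end Energy

section Int

variable {S : Type*} [Group S] [MeasurableSpace S] {μ : Measure S}

/-- shift inequality -/
lemma setIntegral_shift {D : Set S} (hD : MeasurableSet D) (hDf : μ D ≠ ∞) {s : S}
    (hs : MeasurePreserving (fun x : S => x * s) μ μ) {g : S → ℝ} (hg : Measurable g) {B : ℝ}
    (hg0 : ∀ x, 0 ≤ g x) (hgB : ∀ x, g x ≤ B) :
    ∫ x in D, g (x * s) ∂μ ≤ ∫ x in D, g x ∂μ + B * μ.real {x ∈ D | x * s ∉ D} := by
  have hms := hs.measurable
  have hE : MeasurableSet {x ∈ D | x * s ∉ D} := hD.inter (hms hD.compl)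
  have hB0 : 0 ≤ B := (hg0 1).trans (hgB 1)
  have hint : ∀ A : Set S, MeasurableSet A → μ A ≠ ∞ → ∀ h : S → ℝ, Measurable h →
      (∀ x, 0 ≤ h x) → (∀ x, h x ≤ B) → Integrable (A.indicator h) μ := by
    intro A hA hAf h hh h0 hB
    rw [integrable_indicator_iff hA]
    refine Measure.integrableOn_of_bounded (M := B) hAf hh.aestronglyMeasurable ?_
    refine Filter.Eventually.of_forall fun x => ?_
    rw [Real.norm_eq_abs, abs_of_nonneg (h0 x)]
    exact hB x
  rw [← integral_indicator hD, ← integral_indicator hD]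
  have e1 : ∫ x, D.indicator g x ∂μ = ∫ x, D.indicator g (x * s) ∂μ := by
    conv_lhs => rw [← hs.map_eq]
    rw [integral_map hms.aemeasurable]
    exact (hg.indicator hD).aestronglyMeasurable
  have e2 : B * μ.real {x ∈ D | x * s ∉ D}
      = ∫ x, ({x ∈ D | x * s ∉ D}).indicator (fun _ => B) x ∂μ := by
    rw [integral_indicator hE, setIntegral_const, smul_eq_mul, mul_comm]
  rw [e1, e2, ← integral_add]
  · refine integral_mono ?_ ?_ ?_
    · exact hint D hD hDf _ (hg.comp hms) (fun x => hg0 _) (fun x => hgB _)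
    · refine Integrable.add ?_ ?_
      · have := hint D hD hDf g hg hg0 hgB
        exact hs.integrable_comp_of_integrable this
      · exact hint _ hE (ne_top_of_le_ne_top hDf (measure_mono (Set.sep_subset _ _))) _
          measurable_const (fun _ => hB0) (fun _ => le_rfl)
    · intro x
      by_cases hx : x ∈ D
      · by_cases hx2 : x * s ∈ D
        · have : x ∉ {x ∈ D | x * s ∉ D} := fun h => h.2 hx2
          simp [Set.indicator_of_mem hx, Set.indicator_of_mem hx2, Set.indicator_of_notMem this]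
        · have : x ∈ {x ∈ D | x * s ∉ D} := ⟨hx, hx2⟩
          simp only [Set.indicator_of_mem hx, Set.indicator_of_notMem hx2, Set.indicator_of_mem this]
          simpa using hgB _
      · have : x ∉ {x ∈ D | x * s ∉ D} := fun h => hx h.1
        simp only [Set.indicator_of_notMem hx, Set.indicator_of_notMem this, add_zero]
        exact Set.indicator_nonneg (fun x _ => hg0 x) _
  · have := hint D hD hDf g hg hg0 hgB
    exact hs.integrable_comp_of_integrable this
  · exact hint _ hE (ne_top_of_le_ne_top hDf (measure_mono (Set.sep_subset _ _))) _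
          measurable_const (fun _ => hB0) (fun _ => le_rfl)

lemma measurable_dq {f : S → ℝ} {t : S} {n : ℕ} (hf : Measurable f)
    (hs : Measurable (fun x : S => x * t ^ n)) : Measurable (dq f t n) :=
  ((hf.comp hs).sub hf).div_const _

lemma measurable_vr {f : S → ℝ} {t : S} {n Q : ℕ} (hf : Measurable f)
    (hs : ∀ m : ℤ, Measurable (fun x : S => x * t ^ m)) : Measurable (vr f t n Q) := by
  have hs' : ∀ m : ℕ, Measurable (fun x : S => x * t ^ m) := fun m => by
    simpa using hs m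
  unfold vr
  refine Measurable.sub (Measurable.div_const ?_ _) ((measurable_dq hf (hs' _)).pow_const 2)
  refine Finset.measurable_sum _ fun l _ => ?_
  exact ((measurable_dq hf (hs' _)).comp (hs' _)).pow_const 2

lemma int_vr_le {D : Set S} (hD : MeasurableSet D) (hDf : μ D ≠ ∞) {t : S}
    (hs : ∀ m : ℤ, MeasurePreserving (fun x : S => x * t ^ m) μ μ)
    {f : S → ℝ} (hf : Measurable f) {L δ : ℝ}
    (hL : ∀ x, |f (x * t) - f x| ≤ L) {n q : ℕ} (hn : 0 < n) (hq : 0 < q)
    (hinv : ∀ m : ℤ, |m| ≤ (2 * q * n : ℕ) → μ.real {x ∈ D | x * t ^ m ∉ D} ≤ δ * μ.real D) :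
    ∫ x in D, vr f t n (2 * q) (x * t ^ (-((q * n : ℕ) : ℤ))) ∂μ ≤
      (∫ x in D, (dq f t n x) ^ 2 ∂μ) - (∫ x in D, (dq f t (2 * q * n) x) ^ 2 ∂μ)
        + 2 * L ^ 2 * δ * μ.real D := by
  have hL0 : 0 ≤ L := (abs_nonneg _).trans (hL 1)
  have hs' : ∀ m : ℕ, MeasurePreserving (fun x : S => x * t ^ m) μ μ := fun m => by
    simpa using hs m
  have hbd : ∀ k : ℕ, 0 < k → ∀ x, (dq f t k x) ^ 2 ≤ L ^ 2 := fun k hk x => by
    rw [← sq_abs]
    exact pow_le_pow_left₀ (abs_nonneg _) (abs_dq_le hL hk _) 2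
  have h1 := setIntegral_shift (B := L ^ 2) hD hDf (hs (-((q * n : ℕ) : ℤ)))
    (measurable_vr (n := n) (Q := 2 * q) hf fun m => (hs m).measurable)
    (fun x => vr_nonneg f t hn (by omega) x) (fun x => vr_le hL hn (by omega) x)
  have h2 := hinv (-((q * n : ℕ) : ℤ)) (by
    rw [abs_neg, abs_of_nonneg (by positivity)]
    have : q * n ≤ 2 * q * n := by nlinarith
    exact_mod_cast this)
  have hint : ∀ k : ℕ, 0 < k → ∀ m : ℕ, IntegrableOn (fun x => (dq f t k (x * t ^ m)) ^ 2) D μ := by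
    intro k hk m
    refine Measure.integrableOn_of_bounded (M := L ^ 2) hDf
      (((measurable_dq hf (hs' _).measurable).comp (hs' m).measurable).pow_const 2).aestronglyMeasurable ?_
    refine Filter.Eventually.of_forall fun x => ?_
    rw [Real.norm_eq_abs, abs_of_nonneg (sq_nonneg _)]
    exact hbd k hk _
  have hint0 : ∀ k : ℕ, 0 < k → IntegrableOn (fun x => (dq f t k x) ^ 2) D μ := fun k hk => by
    simpa using hint k hk 0
  have h3 : ∫ x in D, vr f t n (2 * q) x ∂μ ≤
      (∫ x in D, (dq f t n x) ^ 2 ∂μ) - (∫ x in D, (dq f t (2 * q * n) x) ^ 2 ∂μ)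
        + L ^ 2 * δ * μ.real D := by
    unfold vr
    rw [integral_sub, integral_div, integral_finsetSum]
    · have h4 : ∀ l ∈ range (2 * q), ∫ x in D, (dq f t n (x * t ^ (l * n))) ^ 2 ∂μ
          ≤ (∫ x in D, (dq f t n x) ^ 2 ∂μ) + L ^ 2 * δ * μ.real D := by
        intro l hl
        have h5 := setIntegral_shift (B := L ^ 2) (g := fun x => (dq f t n x) ^ 2) hD hDf
          (hs' (l * n)) ((measurable_dq hf (hs' _).measurable).pow_const 2)
          (fun x => sq_nonneg _) (hbd n hn)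
        refine h5.trans ?_
        have h6 := hinv ((l * n : ℕ) : ℤ) (by
          rw [abs_of_nonneg (by positivity)]
          have : l * n ≤ 2 * q * n := Nat.mul_le_mul_right n (Finset.mem_range.mp hl).le
          exact_mod_cast this)
        rw [zpow_natCast] at h6
        have := mul_le_mul_of_nonneg_left h6 (sq_nonneg L)
        linarith
      have h7 : (∑ l ∈ range (2 * q), ∫ x in D, (dq f t n (x * t ^ (l * n))) ^ 2 ∂μ) / (2 * q : ℕ)
          ≤ (∫ x in D, (dq f t n x) ^ 2 ∂μ) + L ^ 2 * δ * μ.real D := by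
        rw [div_le_iff₀ (by exact_mod_cast (by omega : 0 < 2 * q))]
        refine (Finset.sum_le_sum h4).trans ?_
        rw [Finset.sum_const, Finset.card_range, nsmul_eq_mul, mul_comm]
      linarith
    · intro l _
      exact hint n hn _
    · exact (integrable_finsetSum _ fun l _ => hint n hn _).div_const _
    · exact hint0 _ (by positivity)
  have h8 := mul_le_mul_of_nonneg_left h2 (sq_nonneg L)
  linarith

omit [Group S] in
lemma markov_real {D : Set S} (hD : MeasurableSet D) (hDf : μ D ≠ ∞) {g : S → ℝ}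
    (hg : Measurable g) (hg0 : ∀ x, 0 ≤ g x) {B : ℝ} (hgB : ∀ x, g x ≤ B) {c : ℝ} (hc : 0 < c) :
    μ.real {x ∈ D | c < g x} ≤ (∫ x in D, g x ∂μ) / c := by
  have hE : MeasurableSet {x ∈ D | c < g x} := hD.inter (measurableSet_lt measurable_const hg)
  have hEf : μ {x ∈ D | c < g x} ≠ ∞ := ne_top_of_le_ne_top hDf (measure_mono (Set.sep_subset _ _))
  rw [le_div_iff₀ hc]
  have hi : IntegrableOn g D μ := Measure.integrableOn_of_bounded (M := B) hDf
    hg.aestronglyMeasurable (Filter.Eventually.of_forall fun x => by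
      rw [Real.norm_eq_abs, abs_of_nonneg (hg0 x)]; exact hgB x)
  calc μ.real {x ∈ D | c < g x} * c = ∫ x in {x ∈ D | c < g x}, c ∂μ := by
        rw [setIntegral_const, smul_eq_mul]
    _ ≤ ∫ x in {x ∈ D | c < g x}, g x ∂μ := by
        refine setIntegral_mono_on ?_ (hi.mono_set (Set.sep_subset _ _)) hE ?_
        · exact (integrableOn_const_iff).mpr (Or.inr hEf.lt_top)
        · intro x hx; exact hx.2.le
    _ ≤ ∫ x in D, g x ∂μ := by
        refine setIntegral_mono_set hi (Filter.Eventually.of_forall fun x => hg0 x) ?_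
        exact (Set.sep_subset _ _).eventuallyLE

end Int

/-- **Coarse differentiation with a common scale.** -/
theorem lin0.{u} (p : ℕ) {L ε : ℝ} (hL0 : 0 < L) (hε : 0 < ε) :
    ∃ q J : ℕ, 0 < q ∧ 0 < J ∧ ∃ δ : ℝ, 0 < δ ∧ ∀ (n0 : ℕ), 0 < n0 →
    ∀ (A : Type) [Fintype A], Fintype.card A ≤ p →
    ∀ (S : A → Type u) [∀ a, Group (S a)] [∀ a, MeasurableSpace (S a)]
      (μ : ∀ a, Measure (S a)) (f : ∀ a, S a → ℝ) (t : ∀ a, S a) (D : ∀ a, Set (S a)),
      (∀ a (m : ℤ), MeasurePreserving (fun x => x * t a ^ m) (μ a) (μ a)) →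
      (∀ a, Measurable (f a)) → (∀ a x, |f a (x * t a) - f a x| ≤ L) →
      (∀ a, MeasurableSet (D a)) → (∀ a, μ a (D a) ≠ ∞) →
      (∀ a (m : ℤ), |m| ≤ ((2 * q) ^ J * n0 : ℕ) →
        (μ a).real {x ∈ D a | x * t a ^ m ∉ D a} ≤ δ * (μ a).real (D a)) →
      ∃ j < J, ∀ a, (μ a).real {x ∈ D a | ∃ m : ℤ, |m| ≤ (q * ((2 * q) ^ j * n0) : ℕ) ∧
          ε * (q * ((2 * q) ^ j * n0) : ℕ) <
            |f a (x * t a ^ m) - f a x - m * dq (f a) (t a) (q * ((2 * q) ^ j * n0)) x|}
        ≤ ε * (μ a).real (D a) := by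
  classical
  obtain ⟨q, hq⟩ := exists_nat_gt (4 * L / ε)
  have hq0 : 0 < q := by
    have : (0:ℝ) < q := lt_trans (by positivity) hq
    exact_mod_cast this
  have hqR : (0:ℝ) < q := by exact_mod_cast hq0
  have hqL : 4 * L ≤ ε * q := by rw [div_lt_iff₀ hε] at hq; linarith
  set ω : ℝ := ε / 4 with hω
  set c : ℝ := ω ^ 2 / (2 * q : ℕ) with hc
  have hc0 : 0 < c := by rw [hc, hω]; positivity
  obtain ⟨J, hJ⟩ := exists_nat_gt (2 * p * L ^ 2 / (c * ε))
  have hJ0 : 0 < J := by
    have : (0:ℝ) < J := lt_of_le_of_lt (by positivity) hJ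
    exact_mod_cast this
  have hJR : (0:ℝ) < J := by exact_mod_cast hJ0
  have hJ' : 2 * p * L ^ 2 ≤ J * (c * ε) := by
    rw [div_lt_iff₀ (by positivity)] at hJ; exact hJ.le
  set δ : ℝ := c * ε / (4 * L ^ 2 * (p + 1)) with hδ
  have hδ0 : 0 < δ := by rw [hδ]; positivity
  refine ⟨q, J, hq0, hJ0, δ, hδ0, ?_⟩
  intro n0 hn0 A _ hA S _ _ μ f t D hmp hf hL hD hDf hinv
  set nn : ℕ → ℕ := fun j => (2 * q) ^ j * n0 with hnn
  have hnn0 : ∀ j, 0 < nn j := fun j => by positivity
  have hnns : ∀ j, 2 * q * nn j = nn (j + 1) := fun j => by simp only [hnn]; ring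
  set Bad : ∀ (a : A) (_ : ℕ), Set (S a) := fun a j => {x ∈ D a | ∃ m : ℤ, |m| ≤ (q * nn j : ℕ) ∧
          ε * (q * nn j : ℕ) < |f a (x * t a ^ m) - f a x - m * dq (f a) (t a) (q * nn j) x|}
    with hBad
  set E : A → ℕ → ℝ := fun a j => ∫ x in D a, (dq (f a) (t a) (nn j) x) ^ 2 ∂(μ a) with hE
  -- one scale
  have key : ∀ a, ∀ j < J, c * (μ a).real (Bad a j) ≤
      E a j - E a (j + 1) + 2 * L ^ 2 * δ * (μ a).real (D a) := by
    intro a j hj
    have h1 := int_vr_le (hD a) (hDf a) (hmp a) (hf a) (δ := δ) (hL a) (hnn0 j) hq0 (by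
      intro m hm
      refine hinv a m (hm.trans ?_)
      rw [hnns j]
      have : nn (j+1) ≤ (2 * q) ^ J * n0 :=
        Nat.mul_le_mul_right _ (Nat.pow_le_pow_right (by omega) hj)
      exact_mod_cast this)
    rw [hnns j] at h1
    refine le_trans ?_ h1
    have hmeas : Measurable (fun x => vr (f a) (t a) (nn j) (2 * q)
        (x * t a ^ (-((q * nn j : ℕ) : ℤ)))) :=
      (measurable_vr (hf a) fun m => (hmp a m).measurable).comp (hmp a _).measurable
    have h2 := markov_real (hD a) (hDf a) hmeas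
      (fun x => vr_nonneg (f a) (t a) (hnn0 j) (by omega) _)
      (fun x => vr_le (hL a) (hnn0 j) (by omega) _) hc0
    rw [le_div_iff₀ hc0, mul_comm] at h2
    refine le_trans (mul_le_mul_of_nonneg_left ?_ hc0.le) h2
    refine measureReal_mono ?_ (ne_top_of_le_ne_top (hDf a) (measure_mono (Set.sep_subset _ _)))
    rintro x ⟨hx, m, hm, hlt⟩
    refine ⟨hx, ?_⟩
    by_contra hcon
    have h3 := affine_of_vr hL0.le (hL a) (hnn0 j) hq0 (by positivity : 0 ≤ ω) x
      (not_lt.mp hcon) m hm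
    have h4 : 2 * ((q * nn j : ℕ) : ℝ) * ω + 2 * (nn j : ℝ) * L ≤ ε * (q * nn j : ℕ) := by
      push_cast
      have hnr : (0:ℝ) < nn j := by exact_mod_cast hnn0 j
      rw [hω]
      nlinarith
    linarith
  -- normalised quantities
  set d : A → ℝ := fun a => (μ a).real (D a) with hd
  have hd0 : ∀ a, 0 ≤ d a := fun a => measureReal_nonneg
  have hBd : ∀ a j, (μ a).real (Bad a j) ≤ d a := fun a j =>
    measureReal_mono (Set.sep_subset _ _) (hDf a)
  have hEbd : ∀ a j, 0 ≤ E a j ∧ E a j ≤ L ^ 2 * d a := by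
    intro a j
    constructor
    · exact integral_nonneg fun x => sq_nonneg _
    · have h1 : ∀ x, (dq (f a) (t a) (nn j) x) ^ 2 ≤ L ^ 2 := fun x => by
        rw [← sq_abs]
        exact pow_le_pow_left₀ (abs_nonneg _) (abs_dq_le (hL a) (hnn0 j) _) 2
      have hm : Measurable (dq (f a) (t a) (nn j)) := measurable_dq (hf a) (by
        simpa using (hmp a (nn j)).measurable)
      calc E a j ≤ ∫ x in D a, L ^ 2 ∂(μ a) := by
            refine setIntegral_mono ?_ ?_ h1
            · exact Measure.integrableOn_of_bounded (M := L ^ 2) (hDf a)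
                (hm.pow_const 2).aestronglyMeasurable (Filter.Eventually.of_forall fun x => by
                  rw [Real.norm_eq_abs, abs_of_nonneg (sq_nonneg _)]; exact h1 x)
            · exact (integrableOn_const_iff).mpr (Or.inr (hDf a).lt_top)
        _ = _ := by rw [setIntegral_const, smul_eq_mul, mul_comm]
  -- pigeonhole
  have hsum : ∑ j ∈ range J, ∑ a, c * ((μ a).real (Bad a j) / d a) ≤
      ∑ j ∈ range J, c * ε := by
    have h1 : ∀ a, ∑ j ∈ range J, c * ((μ a).real (Bad a j) / d a) ≤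
        L ^ 2 + J * (2 * L ^ 2 * δ) := by
      intro a
      rcases (hd0 a).eq_or_lt with h0 | h0
      · rw [← h0]
        simp only [div_zero, mul_zero, Finset.sum_const_zero]
        positivity
      · have h2 : ∀ j ∈ range J, c * ((μ a).real (Bad a j) / d a) ≤
            (E a j / d a - E a (j + 1) / d a) + 2 * L ^ 2 * δ := by
          intro j hj
          have := key a j (Finset.mem_range.mp hj)
          rw [← sub_div, ← mul_div_assoc, div_le_iff₀ h0, add_mul, div_mul_cancel₀ _ h0.ne']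
          exact this
        refine (Finset.sum_le_sum h2).trans ?_
        rw [Finset.sum_add_distrib, Finset.sum_range_sub', Finset.sum_const, Finset.card_range,
          nsmul_eq_mul]
        have h3 : E a 0 / d a ≤ L ^ 2 := by rw [div_le_iff₀ h0]; exact (hEbd a 0).2
        have h4 : 0 ≤ E a J / d a := div_nonneg (hEbd a J).1 h0.le
        linarith
    rw [Finset.sum_comm]
    refine (Finset.sum_le_sum fun a _ => h1 a).trans ?_
    rw [Finset.sum_const, Finset.sum_const, Finset.card_range, nsmul_eq_mul, nsmul_eq_mul,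
      Finset.card_univ]
    have hAp : (Fintype.card A : ℝ) ≤ p := by exact_mod_cast hA
    have h5 : (Fintype.card A : ℝ) * (L ^ 2 + J * (2 * L ^ 2 * δ)) ≤
        p * (L ^ 2 + J * (2 * L ^ 2 * δ)) :=
      mul_le_mul_of_nonneg_right hAp (by positivity)
    refine h5.trans ?_
    have h6 : 2 * L ^ 2 * δ * p ≤ c * ε / 2 := by
      have hp : (p:ℝ) / (p + 1) ≤ 1 := by rw [div_le_one (by positivity)]; linarith
      have : 2 * L ^ 2 * δ * p = c * ε / 2 * ((p:ℝ) / (p + 1)) := by
        rw [hδ]; field_simp; ring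
      rw [this]
      have : 0 ≤ c * ε / 2 := by positivity
      nlinarith
    have h7 : (p:ℝ) * (L ^ 2 + J * (2 * L ^ 2 * δ)) = p * L ^ 2 + J * (2 * L ^ 2 * δ * p) := by ring
    rw [h7]
    have h8 : J * (2 * L ^ 2 * δ * p) ≤ J * (c * ε / 2) := mul_le_mul_of_nonneg_left h6 hJR.le
    nlinarith
  obtain ⟨j, hj, hjle⟩ := Finset.exists_le_of_sum_le (by simpa using hJ0.ne') hsum
  refine ⟨j, Finset.mem_range.mp hj, fun a => ?_⟩
  have h9 : c * ((μ a).real (Bad a j) / d a) ≤ c * ε := by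
    refine le_trans ?_ hjle
    exact Finset.single_le_sum (f := fun a => c * ((μ a).real (Bad a j) / d a))
      (fun a _ => mul_nonneg hc0.le (div_nonneg measureReal_nonneg (hd0 a))) (Finset.mem_univ a)
  have h10 : (μ a).real (Bad a j) / d a ≤ ε := le_of_mul_le_mul_left h9 hc0
  rcases (hd0 a).eq_or_lt with h0 | h0
  · have := hBd a j
    rw [← h0] at this
    change (μ a).real (Bad a j) ≤ ε * d a
    rw [← h0]; simpa using this
  · rw [div_le_iff₀ h0] at h10
    exact h10

end P188.H882
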