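import Vale.Agent.P188.H882.Lin1

/-!
# LIN in pointwise form
-/

open MeasureTheory Set Finset
open scoped ENNReal BigOperators

namespace P188.H882

section A

variable {S : Type*} [Group S] [MeasurableSpace S] {μ : Measure S} {ι : Type*} [Fintype ι]

omit [MeasurableSpace S] in
lemma len_list {l : S → ℝ} (l1 : l 1 ≤ 0) (hl0 : ∀ x, 0 ≤ l x) (hl : ∀ x y, l (x * y) ≤ l x + l y)
    {r : ℝ} {us ws : List S} (hus : ∀ v ∈ us, l v ≤ r) (hws : ws <+: us) :
    l ws.prod ≤ us.length * r := by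
  obtain ⟨zs, rfl⟩ := hws
  have h1 : ∀ ws : List S, (∀ v ∈ ws, l v ≤ r) → l ws.prod ≤ ws.length * r := by
    intro ws
    induction ws with
    | nil => intro _; simpa using l1
    | cons v ws ih =>
      intro h
      rw [List.prod_cons, List.length_cons]
      push_cast
      have := ih fun w hw => h w (List.mem_cons_of_mem _ hw)
      have := h v (List.mem_cons_self ..)
      have := hl v ws.prod
      linarith
  have h2 := h1 ws fun v hv => hus v (List.mem_append_left _ hv)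
  refine h2.trans ?_
  rw [List.length_append]
  push_cast
  rcases zs with _ | ⟨z, zs⟩
  · simp
  · have hr : 0 ≤ r := (hl0 z).trans (hus z (by simp))
    have : (0:ℝ) ≤ (z :: zs).length := by positivity
    nlinarith

/-- **Measure form of LIN**: for every short `u`, most `x` satisfy `Rel x (x u)`. -/
theorem rel_meas [DecidableEq ι] {l : S → ℝ} (l1 : l 1 ≤ 0) (hl0 : ∀ x, 0 ≤ l x)
    (hl : ∀ x y, l (x * y) ≤ l x + l y) {f : S → ℝ} {L L1 : ℝ} (hL : 0 ≤ L) (hL1 : 0 ≤ L1)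
    (hf : ∀ x s, |f (x * s) - f x| ≤ L * (l s + 1)) {t : ι → S} {h : ι → S → ℝ}
    (hh : ∀ i x y, h i (x * y) = h i x + h i y) (ht : ∀ i j, h j (t i) = if i = j then 1 else 0)
    (hmp : ∀ w : S, MeasurePreserving (fun x : S => x * w) μ μ)
    {ρ ρ2 c : ℕ} (hρ : 2 ≤ ρ) {e0 τ τ2 τ3 lt : ℝ} (he0 : 0 ≤ e0) (hτ : 0 ≤ τ) (hτ2 : 0 ≤ τ2)
    (hτ3 : 0 ≤ τ3) (hlt0 : 0 ≤ lt) (hlt : ∀ i (m : ℤ), l (t i ^ m) ≤ |m| * lt)
    {Nt D Gd : Set S} (hDf : μ D ≠ ∞) (hGD : Gd ⊆ D)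
    (hGd : ∀ x ∈ Gd, ∀ i, Aff f (t i) ρ e0 x) (hdq : ∀ x i, |dq f (t i) ρ x| ≤ L1)
    {ε0 δ θ : ℝ} (hε0 : 0 ≤ ε0) (hδ : 0 ≤ δ) (hθ : 0 ≤ θ)
    (hGm : μ.real (D \ Gd) ≤ ε0) {r0 r1 r1' r2 r3 : ℝ} (h13 : c * r1' + ρ * lt + τ ≤ r3)
    (h12 : c * r1 ≤ r2) (h23 : r2 ≤ r3) (h02 : r0 ≤ r2)
    (hFol : ∀ w, l w ≤ r3 → μ.real {x ∈ D | x * w ∉ D} ≤ δ)
    (dec1 : ∀ i u, l u ≤ r2 → ∃ us : List S, us.length ≤ c ∧ us.prod = u ∧
      ∀ v ∈ us, l v ≤ r1' ∧ Mrg l Nt (t i) ρ τ v)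
    (dec2 : ∀ u, l u ≤ r0 → ∃ us : List S, us.length ≤ c ∧ us.prod = u ∧
      ∀ v ∈ us, l v ≤ r1 ∧ Typed l t h ρ ρ2 τ2 Nt v)
    (hr1 : 0 ≤ r1) (hr1' : 0 ≤ r1')
    (hNt : ∀ v ∈ Nt, μ.real {x ∈ D | ¬ |f (x * v) - f x| ≤ τ3} ≤ θ)
    {ω : ℝ} (hω : ω = c * (3 * (4 * e0 + 2 * L * (τ + 1) + 2 * τ3) / ρ))
    (u : S) (hu : l u ≤ r0) :
    μ.real {x ∈ D | ¬ Rel f t h ρ (c * (2 * e0 + 2 * ρ2 * ω + L * (τ2 + 1) + τ3
        + Fintype.card ι * (τ2 * L1))) ω x (x * u)} ≤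
      8 * (c + 1) ^ 2 * (Fintype.card ι + 1) * (ε0 + δ + θ) := by
  have hρ0 : (0:ℝ) < ρ := by positivity
  have hω0 : 0 ≤ ω := by rw [hω]; positivity
  set η : ℝ := δ + ε0 with hη
  have hη0 : 0 ≤ η := by positivity
  set ηN : ℝ := δ + θ with hηN
  have hηN0 : 0 ≤ ηN := by positivity
  set k : ℝ := (Fintype.card ι : ℝ) with hk
  have hk0 : 0 ≤ k := by positivity
  set η1 : ℝ := k * (c * (2 * η + 2 * ηN)) with hη1
  have hη10 : 0 ≤ η1 := by positivity
  -- translates of the good set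
  have hW : ∀ w, l w ≤ r3 → μ.real {x ∈ D | x * w ∉ Gd} ≤ η := fun w hw =>
    shift_meas' hDf hGD (hmp w) hGm (hFol w hw)
  -- neutral
  have hWN : ∀ w, l w ≤ r3 → ∀ v ∈ Nt, μ.real {x ∈ D | ¬ NFlat f τ3 x w v} ≤ ηN := by
    intro w hw v hv
    have h1 := shift_meas' (A := {x ∈ D | |f (x * v) - f x| ≤ τ3}) hDf (Set.sep_subset _ _) (hmp w)
      (a := θ) (δ := δ) (by
        refine le_trans (le_of_eq ?_) (hNt v hv)
        congr 1
        ext x
        simp only [Set.mem_sdiff, Set.mem_ofPred_eq, not_and]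
        exact ⟨fun h => ⟨h.1, h.2 h.1⟩, fun h => ⟨h.1, fun _ => h.2⟩⟩) (hFol w hw)
    refine (measureReal_mono ?_ (ne_top_of_le_ne_top hDf (measure_mono (Set.sep_subset _ _)))).trans h1
    rintro x ⟨hx, hxb⟩
    exact ⟨hx, fun hc => hxb hc.2⟩
  -- slopes
  have hW1 : ∀ w, l w ≤ r2 →
      μ.real {x ∈ D | ¬ ∀ i, |dq f (t i) ρ (x * w) - dq f (t i) ρ x| ≤ ω} ≤ η1 := by
    intro w hw
    have h1 : ∀ i, μ.real {x ∈ D | ¬ |dq f (t i) ρ (x * w) - dq f (t i) ρ x| ≤ ω}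
        ≤ c * (2 * η + 2 * ηN) := by
      intro i
      obtain ⟨us, hlen, hprod, hus⟩ := dec1 i w hw
      have hlenR : (us.length : ℝ) ≤ c := by exact_mod_cast hlen
      have h2 := slope_chain_meas (W := {w | l w ≤ r3}) hL hf hρ hDf (fun x hx => hGd x hx i)
        (fun w hw => hW w hw) (fun w hw => hWN w hw) us (fun v hv => (hus v hv).2) 1 (by
        intro ws hws
        rw [one_mul]
        have h3 := (len_list l1 hl0 hl (fun v hv => (hus v hv).1) hws)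
        have h3' : (us.length : ℝ) * r1' ≤ c * r1' := mul_le_mul_of_nonneg_right hlenR hr1'
        have hρlt : 0 ≤ (ρ:ℝ) * lt := by positivity
        refine ⟨?_, ?_⟩
        · show l ws.prod ≤ r3
          linarith
        · intro m hm a ha
          show l (ws.prod * t i ^ m * a) ≤ r3
          have h4 := hl (ws.prod * t i ^ m) a
          have h5 := hl ws.prod (t i ^ m)
          have h6 := hlt i m
          have h7 : ((|m| : ℤ) : ℝ) * lt ≤ ρ * lt := by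
            refine mul_le_mul_of_nonneg_right ?_ hlt0
            exact_mod_cast hm
          linarith)
      have hsub : {x ∈ D | ¬ |dq f (t i) ρ (x * w) - dq f (t i) ρ x| ≤ ω} ⊆
          {x ∈ D | ¬ |dq f (t i) ρ (x * 1 * us.prod) - dq f (t i) ρ (x * 1)|
            ≤ us.length * (3 * (4 * e0 + 2 * L * (τ + 1) + 2 * τ3) / ρ)} := by
        rintro x ⟨hx, hxb⟩
        refine ⟨hx, fun hch => hxb ?_⟩
        rw [mul_one, hprod] at hch
        refine hch.trans ?_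
        rw [hω]
        exact mul_le_mul_of_nonneg_right hlenR (by positivity)
      refine (measureReal_mono hsub (ne_top_of_le_ne_top hDf (measure_mono (Set.sep_subset _ _)))).trans
        (h2.trans ?_)
      exact mul_le_mul_of_nonneg_right hlenR (by positivity)
    have hsub : {x ∈ D | ¬ ∀ i, |dq f (t i) ρ (x * w) - dq f (t i) ρ x| ≤ ω} ⊆
        ⋃ i ∈ (Finset.univ : Finset ι), {x ∈ D | ¬ |dq f (t i) ρ (x * w) - dq f (t i) ρ x| ≤ ω} := by
      rintro x ⟨hx, hxb⟩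
      push Not at hxb
      obtain ⟨i, hi⟩ := hxb
      simp only [Finset.mem_univ, Set.iUnion_true, Set.mem_iUnion]
      exact ⟨i, hx, not_le.mpr hi⟩
    refine (measureReal_mono hsub (ne_top_of_le_ne_top hDf (measure_mono ?_))).trans ?_
    · intro x hx
      simp only [Finset.mem_univ, Set.iUnion_true, Set.mem_iUnion] at hx
      obtain ⟨i, hi⟩ := hx
      exact hi.1
    · refine (measureReal_biUnion_finset_le _ _).trans ?_
      refine (Finset.sum_le_sum fun i _ => h1 i).trans ?_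
      rw [Finset.sum_const, nsmul_eq_mul, Finset.card_univ, hη1, hk]
  obtain ⟨us, hlen, hprod, hus⟩ := dec2 u hu
  have hlenR : (us.length : ℝ) ≤ c := by exact_mod_cast hlen
  have h2 := step_chain_meas (μ := μ) (W := {w | l w ≤ r2}) (ρ := ρ) (ρ2 := ρ2) (η := η) (η1 := η1)
    (ηN := ηN) hL hL1 hf hh ht he0 hω0 hτ2 hτ3 hDf hGd hdq (by positivity)
    (fun w hw => hW w (le_trans (show l w ≤ r2 from hw) h23)) (fun w hw => hW1 w hw)
    (fun w hw => hWN w (le_trans (show l w ≤ r2 from hw) h23)) us 1 (by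
        intro ws hws
        rw [one_mul]
        refine (len_list l1 hl0 hl (fun v hv => (hus v hv).1) hws).trans (le_trans ?_ h12)
        exact mul_le_mul_of_nonneg_right hlenR hr1) (fun v hv => (hus v hv).2)
  have h3 := hW1 u (hu.trans h02)
  set es := 2 * e0 + 2 * ρ2 * ω + L * (τ2 + 1) + τ3 + Fintype.card ι * (τ2 * L1) with hes
  have hes0 : 0 ≤ es := by positivity
  have hsub : {x ∈ D | ¬ Rel f t h ρ (c * es) ω x (x * u)} ⊆
      {x ∈ D | ¬ |f (x * 1 * us.prod) - f (x * 1) - ∑ i, h i us.prod * dq f (t i) ρ x|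
        ≤ us.length * es} ∪
      {x ∈ D | ¬ ∀ i, |dq f (t i) ρ (x * u) - dq f (t i) ρ x| ≤ ω} := by
    rintro x ⟨hx, hxb⟩
    by_contra hcon
    simp only [Set.mem_union, Set.mem_ofPred_eq, not_or, not_and, not_not] at hcon
    obtain ⟨c1, c2⟩ := hcon
    apply hxb
    refine ⟨?_, c2 hx⟩
    have c1' := c1 hx
    rw [mul_one, hprod] at c1'
    have e1 : x⁻¹ * (x * u) = u := by group
    rw [e1]
    exact c1'.trans (mul_le_mul_of_nonneg_right hlenR hes0)
  refine (measureReal_mono hsub (ne_top_of_le_ne_top hDf (measure_mono ?_))).trans ?_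
  · rintro x (h | h) <;> exact h.1
  · refine (measureReal_union_le _ _).trans ((add_le_add h2 h3).trans ?_)
    have h4 : (us.length : ℝ) * (2 * η + 2 * η1 + ηN) ≤ c * (2 * η + 2 * η1 + ηN) :=
      mul_le_mul_of_nonneg_right hlenR (by positivity)
    have hc0 : (0:ℝ) ≤ c := by positivity
    set X := ε0 + δ + θ with hX
    have hX0 : 0 ≤ X := by positivity
    have hηX : η ≤ X := by rw [hη, hX]; linarith
    have hNX : ηN ≤ X := by rw [hηN, hX]; linarith
    have h1X : η1 ≤ k * (c * (4 * X)) := by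
      rw [hη1]
      have : 2 * η + 2 * ηN ≤ 4 * X := by linarith
      gcongr
    calc _ ≤ c * (2 * η + 2 * η1 + ηN) + η1 := by linarith
      _ ≤ c * (2 * X + 2 * (k * (c * (4 * X))) + X) + k * (c * (4 * X)) := by gcongr
      _ = (3 * c + (8 * c * c + 4 * c) * k) * X := by ring
      _ ≤ (8 * (c + 1) ^ 2 * (k + 1)) * X := by
          refine mul_le_mul_of_nonneg_right ?_ hX0
          nlinarith [mul_nonneg hc0 hk0, mul_nonneg (mul_nonneg hc0 hc0) hk0]
      _ = _ := by ring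

end A

section B

variable {S : Type*} [Group S] [MeasurableSpace S] [MeasurableMul₂ S] [MeasurableInv S]
  {μ : Measure S} {ι : Type*} [Fintype ι]

lemma measurableSet_rel {f : S → ℝ} (hf : Measurable f) {t : ι → S} {h : ι → S → ℝ}
    (hh : ∀ i, Measurable (h i)) {ρ : ℕ} {e ω : ℝ} :
    MeasurableSet {p : S × S | Rel f t h ρ e ω p.1 p.2} := by
  have hd : ∀ i, Measurable (dq f (t i) ρ) := fun i => measurable_dq hf (measurable_mul_const _)
  have h1 : MeasurableSet {p : S × S |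
      |f p.2 - f p.1 - ∑ i, h i (p.1⁻¹ * p.2) * dq f (t i) ρ p.1| ≤ e} := by
    refine measurableSet_le ?_ measurable_const
    refine Measurable.abs ?_
    refine ((hf.comp measurable_snd).sub (hf.comp measurable_fst)).sub ?_
    refine Finset.measurable_sum _ fun i _ => ?_
    exact ((hh i).comp (measurable_fst.inv.mul measurable_snd)).mul ((hd i).comp measurable_fst)
  have h2 : MeasurableSet (⋂ i, {p : S × S | |dq f (t i) ρ p.2 - dq f (t i) ρ p.1| ≤ ω}) := by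
    refine MeasurableSet.iInter fun i => measurableSet_le ?_ measurable_const
    exact (((hd i).comp measurable_snd).sub ((hd i).comp measurable_fst)).abs
  convert h1.inter h2 using 1
  ext p
  simp [Rel]

/-- **Pointwise form**: two nice points that are close share a common partner. -/
theorem nice_pts [SFinite μ] (hmp : ∀ w : S, MeasurePreserving (fun x : S => x * w) μ μ)
    {R : S → S → Prop} (hR : MeasurableSet {p : S × S | R p.1 p.2})
    {D Q : Set S} (hD : MeasurableSet D) (hQ : MeasurableSet Q) (hDf : μ D ≠ ∞) (hQf : μ Q ≠ ∞)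
    (hQ0 : μ Q ≠ 0) {ε : ℝ} (hε : 0 ≤ ε)
    (hrel : ∀ q ∈ Q, μ.real {x ∈ D | ¬ R x (x * q⁻¹)} ≤ ε) :
    ∃ D0 ⊆ D, MeasurableSet D0 ∧ μ.real (D \ D0) ≤ 4 * ε ∧
      ∀ x ∈ D0, ∀ x' ∈ D0, μ.real {q ∈ Q | q * (x⁻¹ * x') ∉ Q} ≤ μ.real Q / 4 →
        ∃ q ∈ Q, q * (x⁻¹ * x') ∈ Q ∧ R x (x * q⁻¹) ∧ R x' (x * q⁻¹) := by
  have hmapm : Measurable (fun p : S × S => (p.1, p.1 * p.2⁻¹)) :=
    measurable_fst.prodMk (measurable_fst.mul measurable_snd.inv)
  set T : Set (S × S) := {p | (p.1 ∈ D ∧ p.2 ∈ Q) ∧ ¬ R p.1 (p.1 * p.2⁻¹)} with hT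
  have hTm : MeasurableSet T := by
    refine MeasurableSet.inter ?_ ?_
    · exact (measurable_fst hD).inter (measurable_snd hQ)
    · exact (hmapm hR).compl
  have hQr : 0 < μ.real Q := ENNReal.toReal_pos hQ0 hQf
  set N : S → ℝ≥0∞ := fun x => μ (Prod.mk x ⁻¹' T) with hN
  have hNm : Measurable N := measurable_measure_prodMk_left hTm
  have hint : ∫⁻ x, N x ∂μ ≤ ENNReal.ofReal ε * μ Q := by
    rw [hN, ← Measure.prod_apply hTm, Measure.prod_apply_symm hTm]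
    have h1 : ∀ q, μ ((fun x => (x, q)) ⁻¹' T) ≤ Q.indicator (fun _ => ENNReal.ofReal ε) q := by
      intro q
      by_cases hq : q ∈ Q
      · rw [Set.indicator_of_mem hq]
        have h2 := hrel q hq
        have h3 : (fun x => (x, q)) ⁻¹' T = {x ∈ D | ¬ R x (x * q⁻¹)} := by
          ext x; simp [hT, hq]
        rw [h3]
        have h4 : μ {x ∈ D | ¬ R x (x * q⁻¹)} ≠ ∞ :=
          ne_top_of_le_ne_top hDf (measure_mono (Set.sep_subset _ _))
        rw [← ENNReal.ofReal_toReal h4]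
        exact ENNReal.ofReal_le_ofReal h2
      · rw [Set.indicator_of_notMem hq]
        have h3 : (fun x => (x, q)) ⁻¹' T = ∅ := by
          ext x; simp [hT, hq]
        rw [h3]; simp
    calc _ ≤ ∫⁻ q, Q.indicator (fun _ => ENNReal.ofReal ε) q ∂μ := lintegral_mono h1
      _ = _ := by rw [lintegral_indicator hQ, lintegral_const, Measure.restrict_apply_univ]
  set c0 : ℝ≥0∞ := ENNReal.ofReal (μ.real Q / 4) with hc0
  have hc00 : c0 ≠ 0 := by
    rw [hc0]; simp only [ne_eq, ENNReal.ofReal_eq_zero, not_le]; positivity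
  refine ⟨{x ∈ D | N x ≤ c0}, Set.sep_subset _ _, hD.inter (measurableSet_le hNm measurable_const),
    ?_, ?_⟩
  · have h1 : μ (D \ {x ∈ D | N x ≤ c0}) * c0 ≤ ENNReal.ofReal ε * μ Q := by
      refine le_trans ?_ hint
      rw [mul_comm]
      refine le_trans ?_ (mul_meas_ge_le_lintegral hNm c0)
      refine mul_le_mul_right (measure_mono ?_) c0
      intro x hx
      have : ¬ (N x ≤ c0) := fun h => hx.2 ⟨hx.1, h⟩
      exact (not_le.mp this).le
    have h2 : (μ (D \ {x ∈ D | N x ≤ c0}) * c0).toReal ≤ (ENNReal.ofReal ε * μ Q).toReal :=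
      ENNReal.toReal_mono (ENNReal.mul_ne_top ENNReal.ofReal_ne_top hQf) h1
    rw [ENNReal.toReal_mul, ENNReal.toReal_mul, ENNReal.toReal_ofReal hε, hc0,
      ENNReal.toReal_ofReal (by positivity)] at h2
    change μ.real (D \ {x ∈ D | N x ≤ c0}) * (μ.real Q / 4) ≤ ε * μ.real Q at h2
    have h3 : μ.real (D \ {x ∈ D | N x ≤ c0}) * μ.real Q ≤ (4 * ε) * μ.real Q := by linarith
    exact le_of_mul_le_mul_right h3 hQr
  · rintro x ⟨hx, hNx⟩ x' ⟨hx', hNx'⟩ hv
    set v := x⁻¹ * x' with hv'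
    have hbd : ∀ y ∈ D, N y ≤ c0 → μ.real {q ∈ Q | ¬ R y (y * q⁻¹)} ≤ μ.real Q / 4 := by
      intro y hy hNy
      have h3 : Prod.mk y ⁻¹' T = {q ∈ Q | ¬ R y (y * q⁻¹)} := by
        ext q; simp [hT, hy]
      have h4 : N y = μ {q ∈ Q | ¬ R y (y * q⁻¹)} := by rw [hN]; simp only [h3]
      have h5 := ENNReal.toReal_mono ENNReal.ofReal_ne_top hNy
      rw [ENNReal.toReal_ofReal (by positivity), h4] at h5
      exact h5
    have hb1 := hbd x hx hNx
    have hb2 := hbd x' hx' hNx'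
    have hb3 : μ.real {q ∈ Q | q * v ∈ {q ∈ Q | ¬ R x' (x' * q⁻¹)}} ≤ μ.real Q / 4 :=
      (shift_meas hQf (Set.sep_subset _ _) (hmp v)).trans hb2
    by_contra hcon
    push Not at hcon
    have hsub : Q ⊆ ({q ∈ Q | ¬ R x (x * q⁻¹)} ∪ {q ∈ Q | q * v ∉ Q}) ∪
        {q ∈ Q | q * v ∈ {q ∈ Q | ¬ R x' (x' * q⁻¹)}} := by
      intro q hq
      by_cases h1 : R x (x * q⁻¹)
      · by_cases h2 : q * v ∈ Q
        · right
          refine ⟨hq, h2, ?_⟩
          have h3 := hcon q hq h2 h1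
          have e1 : x' * (q * v)⁻¹ = x * q⁻¹ := by rw [hv']; group
          rw [e1]; exact h3
        · left; right; exact ⟨hq, h2⟩
      · left; left; exact ⟨hq, h1⟩
    have hfin : μ (({q ∈ Q | ¬ R x (x * q⁻¹)} ∪ {q ∈ Q | q * v ∉ Q}) ∪
        {q ∈ Q | q * v ∈ {q ∈ Q | ¬ R x' (x' * q⁻¹)}}) ≠ ∞ := by
      refine ne_top_of_le_ne_top hQf (measure_mono ?_)
      rintro q ((h | h) | h) <;> exact h.1
    have h5 := measureReal_mono hsub hfin
    have h6 := measureReal_union_le (μ := μ) ({q ∈ Q | ¬ R x (x * q⁻¹)} ∪ {q ∈ Q | q * v ∉ Q})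
      {q ∈ Q | q * v ∈ {q ∈ Q | ¬ R x' (x' * q⁻¹)}}
    have h7 := measureReal_union_le (μ := μ) {q ∈ Q | ¬ R x (x * q⁻¹)} {q ∈ Q | q * v ∉ Q}
    linarith

omit [MeasurableSpace S] [MeasurableMul₂ S] [MeasurableInv S] in
/-- from a common partner to the relation between two nice points -/
lemma rel_of_common {f : S → ℝ} {t : ι → S} {h : ι → S → ℝ}
    (hh : ∀ i x y, h i (x * y) = h i x + h i y) {ρ : ℕ} {e ω H : ℝ} {x x' q : S}
    (h1 : Rel f t h ρ e ω x (x * q⁻¹)) (h2 : Rel f t h ρ e ω x' (x * q⁻¹))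
    (hH : ∀ i, |h i (q * (x⁻¹ * x'))| ≤ H) :
    Rel f t h ρ (2 * e + Fintype.card ι * (2 * ω * H)) (2 * ω) x x' := by
  have h1z : ∀ i, h i 1 = 0 := fun i => by have := hh i 1 1; simp at this; linarith
  have hinv : ∀ i s, h i s⁻¹ = - h i s := fun i s => by
    have := hh i s s⁻¹; rw [mul_inv_cancel, h1z] at this; linarith
  have hsl : ∀ i, |dq f (t i) ρ x' - dq f (t i) ρ x| ≤ 2 * ω := by
    intro i
    have a1 := h1.2 i
    have a2 := h2.2 i
    calc _ = |(dq f (t i) ρ (x * q⁻¹) - dq f (t i) ρ x) - (dq f (t i) ρ (x * q⁻¹) - dq f (t i) ρ x')| := by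
          congr 1; ring
      _ ≤ _ := abs_sub _ _
      _ ≤ _ := by linarith
  refine ⟨?_, hsl⟩
  have a1 := h1.1
  have a2 := h2.1
  have e1 : x⁻¹ * (x * q⁻¹) = q⁻¹ := by group
  have e2 : x'⁻¹ * (x * q⁻¹) = (q * (x⁻¹ * x'))⁻¹ := by group
  rw [e1] at a1
  rw [e2] at a2
  have key : f x' - f x - ∑ i, h i (x⁻¹ * x') * dq f (t i) ρ x =
      (f (x * q⁻¹) - f x - ∑ i, h i q⁻¹ * dq f (t i) ρ x)
      - (f (x * q⁻¹) - f x' - ∑ i, h i (q * (x⁻¹ * x'))⁻¹ * dq f (t i) ρ x')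
      + ∑ i, h i (q * (x⁻¹ * x')) * (dq f (t i) ρ x' - dq f (t i) ρ x) := by
    have e3 : ∑ i, h i (x⁻¹ * x') * dq f (t i) ρ x = ∑ i, h i q⁻¹ * dq f (t i) ρ x
        - ∑ i, h i (q * (x⁻¹ * x'))⁻¹ * dq f (t i) ρ x'
        - ∑ i, h i (q * (x⁻¹ * x')) * (dq f (t i) ρ x' - dq f (t i) ρ x) := by
      rw [← Finset.sum_sub_distrib, ← Finset.sum_sub_distrib]
      refine Finset.sum_congr rfl fun i _ => ?_
      rw [hinv, hinv, hh i q]
      ring
    rw [e3]; ring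
  rw [key]
  have a3 : |∑ i, h i (q * (x⁻¹ * x')) * (dq f (t i) ρ x' - dq f (t i) ρ x)|
      ≤ Fintype.card ι * (2 * ω * H) := by
    refine (Finset.abs_sum_le_sum_abs _ _).trans ?_
    rw [← nsmul_eq_mul, ← Finset.card_univ, ← Finset.sum_const]
    refine Finset.sum_le_sum fun i _ => ?_
    rw [abs_mul, mul_comm]
    have : 0 ≤ 2 * ω := (abs_nonneg _).trans (hsl i)
    exact mul_le_mul (hsl i) (hH i) (abs_nonneg _) this
  calc _ ≤ _ := (abs_add_le _ _).trans (add_le_add (abs_sub _ _) a3)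
    _ ≤ _ := by linarith

end B

end P188.H882
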