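import Vale.Agent.P188.H882.Lin3

/-!
# LIN*: coarse differentiation at a common good scale, pointwise form
-/

open MeasureTheory Set Finset
open scoped ENNReal BigOperators

namespace P188.H882

universe u

variable {S : Type u} [Group S] [MeasurableSpace S] [MeasurableMul₂ S] [MeasurableInv S]
  {μ : Measure S} {ι : Type} [Fintype ι]

/-- **LIN\***.  For every `p, L, ε` there are `ε0` (Følner constant and neutral flatness
tolerance) and `lam` (ratio of scales) such that, for a finite family of at most `p` Lipschitz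
functions `f α` and sets `D α` which are `ε0`-Følner at scale `a` (large) and on which `f α` is
neutrally flat at all scales between `lam a` and `a`, there is one common scale `r ∈ [lam a, a]`
with, for each `α`, a subset `D0` of `D α` of density `≥ 1 - ε` such that ANY two points
`x, x'` of `D0` with `l (x⁻¹ x') ≤ r` satisfy
`|f x' - f x - ∑ i, h i (x⁻¹ x') T_i(x)| ≤ ε r` and `|T_i x' - T_i x| ≤ ε`, where
`T_i x = (f (x t_i^ρ) - f x)/ρ`. -/
theorem LinModel.lin_star [SFinite μ] [DecidableEq ι] (M : LinModel S μ ι) (p : ℕ) {L ε : ℝ}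
    (hL : 0 < L) (hε : 0 < ε) :
    ∃ ε0 : ℝ, 0 < ε0 ∧ ∃ lam : ℝ, 0 < lam ∧ lam ≤ 1 ∧ ∃ a0 : ℝ, ∀ a : ℝ, a0 ≤ a →
      ∀ (A : Type) [Fintype A], Fintype.card A ≤ p →
      ∀ (f : A → S → ℝ) (D : A → Set S), (∀ α, Measurable (f α)) →
      (∀ α x s, |f α (x * s) - f α x| ≤ L * (M.l s + 1)) →
      (∀ α, MeasurableSet (D α)) → (∀ α, μ (D α) ≠ ∞) →
      (∀ α w, M.l w ≤ a → μ.real {x ∈ D α | x * w ∉ D α} ≤ ε0 * μ.real (D α)) →
      (∀ α, ∀ ρ : ℕ, lam * a ≤ ρ → (ρ : ℝ) ≤ a → ∀ v ∈ M.Nt ρ,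
        μ.real {x ∈ D α | ¬ |f α (x * v) - f α x| ≤ ε0 * ρ} ≤ ε0 * μ.real (D α)) →
      ∃ (ρ : ℕ) (r : ℝ), 0 < ρ ∧ lam * a ≤ r ∧ r ≤ ρ ∧ (ρ : ℝ) ≤ a ∧
        ∀ α, ∃ D0 ⊆ D α, MeasurableSet D0 ∧ μ.real (D α \ D0) ≤ ε * μ.real (D α) ∧
          ∀ x ∈ D0, ∀ x' ∈ D0, M.l (x⁻¹ * x') ≤ r → Rel (f α) M.t M.h ρ (ε * r) ε x x' := by
  have hC := M.one_le_C
  have hC0 : 0 < M.C := by linarith
  have hc0 : (0:ℝ) ≤ M.c := by positivity
  obtain ⟨ε1, hε1, d, hd0, hd1, ρ0, hone⟩ := M.one_scale hL hε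
  obtain ⟨q, J, hq, hJ, δ, hδ, hlin⟩ := lin0.{u} (p * Fintype.card ι) (L := L * (M.C + 1))
    (ε := ε1) (by positivity) hε1
  obtain ⟨K, hK⟩ : ∃ K : ℝ, K = M.c + M.C + 1 := ⟨_, rfl⟩
  have hK1 : 1 ≤ K := by rw [hK]; linarith
  have hKC : M.C ≤ K := by rw [hK]; linarith
  obtain ⟨P, hP⟩ : ∃ P : ℝ, P = K * (2 * q) ^ J := ⟨_, rfl⟩
  have hq1 : (1:ℝ) ≤ q := by exact_mod_cast hq
  have hqJ : (1:ℝ) ≤ (2 * q) ^ J := one_le_pow₀ (by linarith)
  have hP1 : 1 ≤ P := by rw [hP]; exact one_le_mul_of_one_le_of_one_le hK1 hqJ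
  have hP0 : 0 < P := by linarith
  refine ⟨min ε1 δ, lt_min hε1 hδ, d / (2 * P), by positivity, ?_,
    2 * P * (ρ0 + 1), ?_⟩
  · rw [div_le_one (by positivity)]; linarith
  intro a ha A _ hA f D hfm hf hD hDf hFol hNF
  have ha0 : 0 < a := lt_of_lt_of_le (by positivity) ha
  set n0 : ℕ := ⌊a / P⌋₊ with hn0
  have hn0le : (n0 : ℝ) ≤ a / P := Nat.floor_le (by positivity)
  have hn0gt : a / P < n0 + 1 := Nat.lt_floor_add_one _
  have haP : 2 * (ρ0 + 1) ≤ a / P := by rw [le_div_iff₀ hP0]; linarith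
  have hρ00 : (0:ℝ) ≤ ρ0 := by positivity
  have hn0half : a / P / 2 ≤ n0 := by linarith
  have hn0ρ : ρ0 ≤ n0 := by
    have : (ρ0:ℝ) ≤ n0 := by linarith
    exact_mod_cast this
  have hn01 : 0 < n0 := by
    have : (0:ℝ) < n0 := by linarith
    exact_mod_cast this
  have htop : K * (((2 * q) ^ J * n0 : ℕ) : ℝ) ≤ a := by
    push_cast
    have : K * ((2 * q) ^ J * n0) = P * n0 := by rw [hP]; ring
    rw [this]
    rw [le_div_iff₀ hP0] at hn0le
    linarith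
  have htopn : (0:ℝ) ≤ (((2 * q) ^ J * n0 : ℕ) : ℝ) := by positivity
  obtain ⟨j, hj, hbad⟩ := hlin n0 hn01 (A × ι) (by
      rw [Fintype.card_prod]; exact Nat.mul_le_mul_right _ hA) (fun _ => S) (fun _ => μ)
    (fun x => f x.1) (fun x => M.t x.2) (fun x => D x.1)
    (fun x m => M.mp _) (fun x => hfm _) (fun x y => by
      refine (hf x.1 y (M.t x.2)).trans ?_
      have := M.l_t x.2 1
      simp only [zpow_one, abs_one, Int.cast_one, one_mul] at this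
      exact mul_le_mul_of_nonneg_left (by linarith) hL.le)
    (fun x => hD _) (fun x => hDf _) (fun x m hm => by
      have h1 : M.l (M.t x.2 ^ m) ≤ a := by
        refine (M.l_t x.2 m).trans ?_
        have h2 : ((|m| : ℤ) : ℝ) ≤ (((2 * q) ^ J * n0 : ℕ) : ℝ) := by exact_mod_cast hm
        have h3 : ((|m| : ℤ) : ℝ) * M.C ≤ (((2 * q) ^ J * n0 : ℕ) : ℝ) * K :=
          mul_le_mul h2 hKC hC0.le htopn
        linarith
      refine (hFol x.1 _ h1).trans ?_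
      exact mul_le_mul_of_nonneg_right (min_le_right _ _) measureReal_nonneg)
  set ρ : ℕ := q * ((2 * q) ^ j * n0) with hρ
  have hρn0 : n0 ≤ ρ := by
    rw [hρ]
    have h1 : 1 ≤ (2 * q) ^ j := Nat.one_le_pow _ _ (by omega)
    calc n0 = 1 * (1 * n0) := by ring
      _ ≤ q * ((2 * q) ^ j * n0) := Nat.mul_le_mul hq (Nat.mul_le_mul_right _ h1)
  have hρtop : ρ ≤ (2 * q) ^ J * n0 := by
    have h1 : q * (2 * q) ^ j ≤ (2 * q) ^ J := by
      calc q * (2 * q) ^ j ≤ (2 * q) * (2 * q) ^ j := Nat.mul_le_mul_right _ (by omega)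
        _ = (2 * q) ^ (j + 1) := by ring
        _ ≤ (2 * q) ^ J := Nat.pow_le_pow_right (by omega) hj
    calc ρ = q * (2 * q) ^ j * n0 := by rw [hρ]; ring
      _ ≤ _ := Nat.mul_le_mul_right _ h1
  have hρtopR : (ρ:ℝ) ≤ (((2 * q) ^ J * n0 : ℕ) : ℝ) := by exact_mod_cast hρtop
  have hρ0R : (0:ℝ) ≤ ρ := by positivity
  have hKρ : K * ρ ≤ a := (mul_le_mul_of_nonneg_left hρtopR (by linarith)).trans htop
  have hρa : (ρ:ℝ) ≤ a := by nlinarith
  have hn0ρR : (n0:ℝ) ≤ ρ := by exact_mod_cast hρn0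
  have hlam : d / (2 * P) * a ≤ d * ρ := by
    have : d / (2 * P) * a = d * (a / P / 2) := by field_simp
    rw [this]
    exact mul_le_mul_of_nonneg_left (hn0half.trans hn0ρR) hd0.le
  have hdρ : d * ρ ≤ ρ := by nlinarith
  refine ⟨ρ, d * ρ, by omega, hlam, hdρ, hρa, fun α => ?_⟩
  refine hone ρ (hn0ρ.trans hρn0) (f α) (hfm α) (hf α) (D α) (hD α) (hDf α) ?_ ?_ ?_
  · intro w hw
    rw [← hK] at hw
    refine (hFol α w (hw.trans hKρ)).trans ?_
    exact mul_le_mul_of_nonneg_right (min_le_left _ _) measureReal_nonneg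
  · intro v hv
    have h1 := hNF α ρ (hlam.trans hdρ) hρa v hv
    refine (measureReal_mono ?_ (ne_top_of_le_ne_top (hDf α) (measure_mono (Set.sep_subset _ _)))).trans
      (h1.trans (mul_le_mul_of_nonneg_right (min_le_left _ _) measureReal_nonneg))
    rintro x ⟨hx, hxb⟩
    refine ⟨hx, fun h => hxb (h.trans ?_)⟩
    exact mul_le_mul_of_nonneg_right (min_le_left _ _) hρ0R
  · intro i
    have h1 := hbad (α, i)
    refine le_trans (le_of_eq ?_) h1
    congr 1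
    ext x
    simp only [Set.mem_ofPred_eq, Aff, not_forall, not_le]
    constructor
    · rintro ⟨hx, m, hm, h⟩; exact ⟨hx, m, hm, h⟩
    · rintro ⟨hx, m, hm, h⟩; exact ⟨hx, m, hm, h⟩

end P188.H882
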