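import Vale.Agent.P188.H754.Neu5
import Mathlib.MeasureTheory.Group.Measure

/-!
# P188, route A: the neutral comparison in the form for most points. Interface and statements.

`NM.NMX` extends the abstract model `NM` (H754/Neu1) by the Haar measure of `E`, the natural boxes
`Bx r` of `E` (letters of size `e ^ r`), nets of the Cartan words.
-/

set_option linter.all false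

universe u v w

open Real MeasureTheory

namespace Vale.Agent.P188.H754

namespace NM

variable {S : Type u} {Γ : Type v} {Ht : Type w} [Group S] [Group Γ]
  [NormedAddCommGroup Ht] [NormedSpace ℝ Ht] [MeasurableSpace S] (M : NM S Γ Ht)

/-- extra facts: Haar measure and natural boxes of `E`, nets -/
structure NMX where
  C1 : ℝ
  one_le_C1 : 1 ≤ C1
  /-- Haar measure of `E` -/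
  ν : Measure S
  left : ∀ x ∈ M.E, MeasurePreserving (fun a => x * a) ν ν
  right : ∀ x ∈ M.E, MeasurePreserving (fun a => a * x) ν ν
  conj : ∀ n, ∀ c ∈ M.CW n, MeasurePreserving (fun a => c * a * c⁻¹) ν ν
  /-- natural boxes of `E`: letters of size `e ^ r` -/
  Bx : ℝ → Set S
  meas : ∀ r, MeasurableSet (Bx r)
  sub : ∀ r, Bx r ⊆ (M.E : Set S)
  one : ∀ r, 0 ≤ r → (1 : S) ∈ Bx r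
  mono : ∀ r r', 0 ≤ r → r ≤ r' → Bx r ⊆ Bx r'
  inv : ∀ r, 0 ≤ r → ∀ x ∈ Bx r, x⁻¹ ∈ Bx r
  mul : ∀ r, 0 ≤ r → ∀ x ∈ Bx r, ∀ y ∈ Bx r, x * y ∈ Bx (r + C1)
  len : ∀ r, 0 ≤ r → ∀ x ∈ Bx r, M.l x ≤ C1 * (r + 1)
  of_len : ∀ x ∈ M.E, x ∈ Bx (C1 * (M.l x + 1))
  conjB : ∀ n : ℕ, ∀ c ∈ M.CW n, ∀ r, 0 ≤ r → ∀ x ∈ Bx r,
    c * x * c⁻¹ ∈ Bx (r + C1 * (‖M.θ c‖ + log (n + 1) + 1))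
  pos : ν (Bx 0) ≠ 0
  fin : ∀ r, ν (Bx r) ≠ ⊤
  vol : ∀ r t, 0 ≤ r → 0 ≤ t → ν (Bx (r + t)) ≤ ENNReal.ofReal (exp (C1 * (t + 1))) * ν (Bx r)
  /-- Cartan words in `E` are short -/
  CE : ∀ n : ℕ, ∀ c ∈ M.CW n, c ∈ M.E → M.l c ≤ C1 * (log (n + 1) + 1)
  /-- nets of the Cartan words -/
  net : ∀ n : ℕ, ∃ P : Finset S, (P.card : ℝ) ≤ C1 * ((n : ℝ) + 1) ^ C1 ∧
    (∀ p ∈ P, p ∈ M.CW ⌈C1 * ((n : ℝ) + 1)⌉₊) ∧ ∀ c ∈ M.CW n, ∃ p ∈ P, M.l (p⁻¹ * c) ≤ C1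
  /-- sections of the heights -/
  secs : ∀ n : ℕ, ∃ P : Finset S, (P.card : ℝ) ≤ C1 * ((n : ℝ) + 1) ^ C1 ∧
    (∀ p ∈ P, p ∈ M.CW ⌈C1 * ((n : ℝ) + 1)⌉₊) ∧ ∀ s, ‖M.θ s‖ ≤ n → ∃ p ∈ P, M.θ p = M.θ s
  /-- paths of Cartan words -/
  cpathC : ∀ n : ℕ, ∀ c ∈ M.CW n, ∃ (m : ℕ) (p : ℕ → S), (m : ℝ) ≤ C1 * ((n : ℝ) + 1) ^ C1 ∧
    p 0 = 1 ∧ p m = c ∧ (∀ i < m, M.l ((p i)⁻¹ * p (i + 1)) ≤ C1) ∧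
    ∀ i ≤ m, p i ∈ M.CW ⌈C1 * ((n : ℝ) + 1)⌉₊ ∧ ‖M.θ (p i)‖ ≤ C1 * (‖M.θ c‖ + 1)
  finG : ∀ L : ℝ, {g : Γ | M.l (M.inG g) ≤ L}.Finite

variable {M}

namespace NMX

variable (X : M.NMX)

/-- the displacement -/
def w (M : NM S Γ Ht) (F : Γ → Γ) (z : S) : Ht := M.f F z - M.θ z

/-- typical points, measure form: for all `t, p ∈ P` and most `a ∈ Bx r` the function `w` moves by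
at most `τ` from `z` to `z * (t⁻¹ * a * p)` -/
def TypAt (P : Finset S) (w : S → Ht) (r τ θ : ℝ) (z : S) : Prop :=
  ∀ t ∈ P, ∀ p ∈ P, X.ν {a | a ∈ X.Bx r ∧ τ < ‖w (z * (t⁻¹ * a * p)) - w z‖} ≤
    ENNReal.ofReal θ * X.ν (X.Bx r)

/-- the family of Cartan words at scale `R` -/
structure Fam (Ca R : ℝ) (P : Finset S) : Prop where
  one : (1 : S) ∈ P
  cw : ∀ p ∈ P, p ∈ M.CW ⌈X.C1 * (Ca * R + 3)⌉₊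
  sec : ∀ s, ‖M.θ s‖ ≤ R → ∃ p ∈ P, p ∈ M.CW ⌈X.C1 * (R + 3)⌉₊ ∧ M.θ p = M.θ s
  net : ∀ c ∈ M.CW ⌈Ca * R⌉₊, ∃ p ∈ P, M.l (p⁻¹ * c) ≤ X.C1

/-- the end point of a path: `z m = z 0 * ε * ζ * t` -/
structure EndDec (C4 R n' : ℝ) (z0 zm ε ζ t : S) : Prop where
  eq : zm = z0 * ε * ζ * t
  memE : ε ∈ M.E
  memC : ∃ n : ℕ, ζ ∈ M.CW n ∧ (n : ℝ) + 1 ≤ exp n'
  θζ : M.θ ζ = 0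
  len : M.l (t⁻¹ * (ζ⁻¹ * ε⁻¹ * ζ)) ≤ C4 * R

/-- typical elements `a` of `E` -/
structure Good (Ca R δ : ℝ) (w : S → Ht) (z : ℕ → S) (m : ℕ) (ζ a : S) : Prop where
  memE : a ∈ M.E
  tr : ∀ i ≤ m, ‖w (z 0 * a * ((z 0)⁻¹ * z i)) - w (z i)‖ ≤ δ
  h0 : ∀ p ∈ M.CW ⌈Ca * R⌉₊, ‖w (z 0 * a * p) - w (z 0)‖ ≤ δ
  hζ : ∀ p ∈ M.CW ⌈Ca * R⌉₊, ‖w (z 0 * a * ζ * p) - w (z m)‖ ≤ δ

/-- **BAD.** Most elements of the box are good. -/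
def BadStmt : Prop := ∃ C4 : ℝ, 1 ≤ C4 ∧ ∀ Ca κ κ₂ L0 L : ℝ, 1 ≤ Ca → 0 < κ → 0 < κ₂ → 0 ≤ L0 →
  0 ≤ L → ∃ κ₁ c R1 : ℝ, 0 < κ₁ ∧ κ₁ ≤ κ₂ ∧ κ₁ ≤ 1 ∧ 0 < c ∧ ∀ R : ℝ, R1 ≤ R → ∀ P : Finset S,
  X.Fam Ca R P → (P.card : ℝ) ≤ exp (c * R) → ∀ w : S → Ht,
  (∀ x y, ‖w (x * y) - w x‖ ≤ L * (M.l y + 1)) → ∀ (m : ℕ) (z : ℕ → S), (m : ℝ) + 1 ≤ exp (c * R) →
  (∀ i < m, M.l ((z i)⁻¹ * z (i + 1)) ≤ L0) → (∀ i ≤ m, ‖M.θ (z i) - M.θ (z 0)‖ ≤ R) →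
  ∀ r τ : ℝ, (C4 + 1) * R ≤ r → (∀ i ≤ m, X.TypAt P w r τ (exp (-(κ * R))) (z i)) →
  ∃ ε ζ t : S, EndDec (M := M) C4 R (κ₁ * R) (z 0) (z m) ε ζ t ∧ ∃ Bad : Set S,
    X.ν (Bad ∩ X.Bx (r - κ₁ * R)) ≤ ENNReal.ofReal (exp (-(κ / 2 * R))) *
      X.ν (X.Bx (r - κ₁ * R)) ∧
    ∀ a ∈ X.Bx (r - κ₁ * R), a ∉ Bad → Good (M := M) Ca R (τ + L * (X.C1 + 1)) w z m ζ a

/-- **SEL.** Selection: the points of a loop, pulled back from a typical point, can be chosen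
typical. -/
def SelStmt : Prop := ∀ K CL : ℝ, 0 ≤ K → 0 ≤ CL → ∃ C3 : ℝ, 1 ≤ C3 ∧ ∀ κ : ℝ, 0 < κ →
  ∃ R1 : ℝ, ∀ R : ℝ, R1 ≤ R → ∀ F F' : Γ → Γ, M.QI K F F' → ∀ (z0 : S) (r : ℝ), C3 * R ≤ r →
  ∀ Bad : Set S, X.ν (Bad ∩ X.Bx (r + C3)) ≤ ENNReal.ofReal (exp (-(κ * R))) * X.ν (X.Bx r) →
  ∀ (N : ℕ) (lam : ℕ → Γ), (N : ℝ) ≤ CL * R → (∀ j ≤ N, M.l (M.inG (lam j)) ≤ CL * R) →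
  ∃ a ∈ X.Bx r, a ∉ Bad ∧ ∃ α c y : ℕ → S, ∀ j ≤ N, α j ∈ X.Bx (r + C3) ∧ α j ∉ Bad ∧
    c j ∈ M.CW ⌈C3 * R⌉₊ ∧ M.l (y j) ≤ C3 ∧
    z0 * α j * c j = M.inG (F' (M.Ψ F (z0 * a) * lam j)) * y j

/-- a loop in the target -/
structure Loop (b : M.Φ) (Cl ρ : ℝ) (u : Ht) (N : ℕ) (lam : ℕ → Γ) : Prop where
  bu : (b : Ht →L[ℝ] ℝ) u = ρ
  le : (N : ℝ) ≤ Cl * ρ
  zero : lam 0 = 1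
  step : ∀ i < N, M.l (M.inG ((lam i)⁻¹ * lam (i + 1))) ≤ Cl
  seg : ∀ i ≤ N, ∃ s ∈ Set.Icc (0 : ℝ) 1, ‖M.θ (M.inG (lam i)) - s • u‖ ≤ Cl
  last : M.θ (M.inG (lam N)) = 0
  D : exp (ρ - Cl) ≤ ‖(M.cr b).D (lam N)‖

/-- **CORE** (deterministic). -/
def CoreStmt : Prop := ∀ K C4 Cl : ℝ, 0 ≤ K → 1 ≤ C4 → 1 ≤ Cl → ∃ C2 : ℝ, 1 ≤ C2 ∧ ∀ C3 : ℝ,
  1 ≤ C3 → ∃ Ca C : ℝ, 1 ≤ Ca ∧ 1 ≤ C ∧ ∀ L0 : ℝ, 0 ≤ L0 → ∃ R1 : ℝ, ∀ R δ : ℝ, R1 ≤ R → 1 ≤ δ →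
  C * δ ≤ R → R + 1 ≤ exp δ → ∀ F F' : Γ → Γ, M.QI K F F' → ∀ (m : ℕ) (z : ℕ → S),
  (m : ℝ) + 1 ≤ exp δ → (∀ i < m, M.l ((z i)⁻¹ * z (i + 1)) ≤ L0) →
  (∀ i ≤ m, ‖M.θ (z i) - M.θ (z 0)‖ ≤ R) → (∀ i ≤ m, ‖w M F (z i) - w M F (z 0)‖ ≤ R) →
  ∀ ε ζ t : S, EndDec (M := M) C4 R δ (z 0) (z m) ε ζ t →
  ∀ (b : M.Φ) (u : Ht) (N : ℕ) (lam : ℕ → Γ), Loop (M := M) b Cl (C2 * R) u N lam →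
  ∀ a : S, Good (M := M) Ca R δ (w M F) z m ζ a → ∀ α c y : ℕ → S,
  (∀ j ≤ N, Good (M := M) Ca R δ (w M F) z m ζ (α j) ∧ c j ∈ M.CW ⌈C3 * R⌉₊ ∧ M.l (y j) ≤ C3 ∧
    z 0 * α j * c j = M.inG (F' (M.Ψ F (z 0 * a) * lam j)) * y j) →
  (b : Ht →L[ℝ] ℝ) (w M F (z 0)) ≤ (b : Ht →L[ℝ] ℝ) (w M F (z m)) + C * δ

end NMX

end NM

end Vale.Agent.P188.H754
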