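import Vale.Agent.P188.H882.D4b

/-!
(QA5): the homology of a group coarsely equivalent to a poly-`ℤ` group of length `n` is killed
by an integer `m ≠ 0` above degree `n`, for all coefficients.
-/

universe u v w

namespace Vale.Agent.P188.H882

open Finsupp Pointwise

section Homotopy

variable {H : Type} [Group H]

/-- The homotopy between `f` and `a • id`, degree by degree. -/
noncomputable def kapf (f : Ch H →ₗ[ℤ] Ch H) (a : ℤ) : ℕ → (Ch H →ₗ[ℤ] Ch H)
  | 0 => 0
  | q + 1 => Finsupp.linearCombination ℤ
      (chd (fun l => f (single l 1) - a • single l 1 - kapf f a q (dl l)))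

lemma kapf_succ_single (f : Ch H →ₗ[ℤ] Ch H) (a : ℤ) (q : ℕ) (x : H) (t : List H) :
    kapf f a (q + 1) (single (x :: t) 1) =
      cns x (f (single (x :: t) 1) - a • single (x :: t) 1 - kapf f a q (dl (x :: t))) := by
  show Finsupp.linearCombination ℤ _ _ = _
  rw [Finsupp.linearCombination_single, one_smul]
  rfl

lemma kapf_nil (f : Ch H →ₗ[ℤ] Ch H) (a : ℤ) (q : ℕ) : kapf f a q (single [] 1) = 0 := by
  rcases q with _ | q
  · rfl
  · show Finsupp.linearCombination ℤ _ _ = _
    rw [Finsupp.linearCombination_single, one_smul]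
    rfl

lemma kapf_act {f : Ch H →ₗ[ℤ] Ch H} {a : ℤ}
    (hf : ∀ (g : H) (u : Ch H), f (act g u) = act g (f u))
    (q : ℕ) : ∀ (g : H) (u : Ch H), kapf f a q (act g u) = act g (kapf f a q u) := by
  induction q with
  | zero => intro g u; simp [kapf]
  | succ q ih =>
    intro g u
    have : (kapf f a (q + 1) ∘ₗ act g : Ch H →ₗ[ℤ] Ch H) = act g ∘ₗ kapf f a (q + 1) := by
      apply lin_ext
      intro l
      rw [LinearMap.comp_apply, LinearMap.comp_apply]
      rcases l with _ | ⟨x, t⟩
      · rw [act_single, List.map_nil, kapf_nil, map_zero]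
      · rw [act_single, List.map_cons, kapf_succ_single, kapf_succ_single, act_cns]
        congr 1
        rw [map_sub, map_sub, ← hf, ← ih, map_smul, act_single, List.map_cons]
        congr 2
        have := pf_dl (fun x => g • x) (x :: t)
        rw [List.map_cons] at this
        rw [← this]
        rfl
    exact LinearMap.congr_fun this u

lemma kapf_mem {f : Ch H →ₗ[ℤ] Ch H} {a : ℤ}
    (hf : ∀ q, ∀ u ∈ Sp (Gr q : Set (List H)), f u ∈ Sp (Gr q)) :
    ∀ q, ∀ u ∈ Sp (Gr q : Set (List H)), kapf f a q u ∈ Sp (Gr (q + 1) : Set (List H)) := by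
  intro q
  induction q with
  | zero =>
    intro u _
    have : kapf f a 0 u = 0 := rfl
    rw [this]
    exact Submodule.zero_mem _
  | succ q ih =>
    intro u hu
    apply map_mem_of_Sp _ hu
    intro l hl
    rcases l with _ | ⟨x, t⟩
    · simp [Gr] at hl
    · rw [kapf_succ_single]
      apply cns_mem (p := Gr (q + 1)) (fun l hl => by rw [mem_Gr] at *; simp [hl])
      have hdl : dl (x :: t) ∈ Sp (Gr q : Set (List H)) := by
        have := bd_mem_Gr (single_mem_Sp hl 1)
        simpa using this
      exact Submodule.sub_mem _ (Submodule.sub_mem _ (hf _ _ (single_mem_Sp hl 1))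
        (Submodule.smul_mem _ _ (single_mem_Sp hl 1))) (ih _ hdl)

lemma bd_kapf {f : Ch H →ₗ[ℤ] Ch H} {a : ℤ} (hf_nil : f (single [] 1) = a • single [] 1)
    (hf_bd : ∀ q, ∀ u ∈ Sp (Gr q : Set (List H)), bd (f u) = f (bd u)) :
    ∀ q, ∀ u ∈ Sp (Gr q : Set (List H)),
      bd (kapf f a q u) = f u - a • u - kapf f a (q - 1) (bd u) := by
  intro q
  induction q with
  | zero =>
    intro u hu
    have := eq_of_Sp (L := f) (L' := a • LinearMap.id) (p := Gr 0) (u := u) (by
      intro l hl
      have : l = [] := List.length_eq_zero_iff.mp hl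
      subst this
      rw [hf_nil]; rfl) hu
    rw [this, bd_of_Gr_zero hu]
    simp [kapf]
  | succ q ih =>
    intro u hu
    have := eq_of_Sp (L := bd ∘ₗ kapf f a (q + 1)) (L' := f - a • LinearMap.id - kapf f a q ∘ₗ bd)
      (p := Gr (q + 1)) (u := u) (by
      intro l hl
      rcases l with _ | ⟨x, t⟩
      · simp [Gr] at hl
      · have hdl : dl (x :: t) ∈ Sp (Gr q : Set (List H)) := by
          have := bd_mem_Gr (single_mem_Sp hl 1)
          simpa using this
        have e : bd (single (x :: t) (1 : ℤ)) = dl (x :: t) := by simp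
        rw [LinearMap.comp_apply, kapf_succ_single, bd_cns]
        have h1 : bd (f (single (x :: t) 1) - a • single (x :: t) 1 -
            kapf f a q (dl (x :: t))) = 0 := by
          rw [map_sub, map_sub, map_smul, ih _ hdl, hf_bd _ _ (single_mem_Sp hl 1), e, bd_dl,
            map_zero]
          abel
        rw [h1, map_zero, sub_zero]
        simp only [LinearMap.sub_apply, LinearMap.smul_apply, LinearMap.comp_apply,
          LinearMap.id_apply]
        rw [e]) hu
    simpa using this

end Homotopy

/-- (QA5). -/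
theorem qa5 {H Z : Type} [Group H] [Group Z] {n : ℕ} (hc : CoarseEquiv H Z) (hZ : PolyZ n Z) :
    ∃ m : ℤ, m ≠ 0 ∧ ∀ (M : Type) [AddCommGroup M] (ρ : H →* AddMonoid.End M), ∀ q ≥ n + 2,
      ∀ z ∈ DG H M q, bM z ∈ Rl ρ (⊤ : Subgroup H) → Null ρ ⊤ q (m • z) := by
  classical
  obtain ⟨m, s, Θ, A, hp⟩ := exists_pkg hc hZ
  have hsmem : ∀ q ≤ n + 2, ∀ u ∈ Sp (Gr q : Set (List H)), s u ∈ Sp (Gr q) :=
    fun q hq u hu => Sp_mono Set.inter_subset_right (hp.s_mem q hq u hu)
  have htmem : ∀ u ∈ Sp (Gr (n + 1) : Set (List H)), Θ u ∈ Sp (Gr (n + 2)) :=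
    fun u hu => Sp_mono Set.inter_subset_right (hp.t_mem u hu)
  refine ⟨m, by have := hp.pos; omega, ?_⟩
  let f : Ch H →ₗ[ℤ] Ch H := ∑ j ∈ Finset.range (n + 2), (m • s) ∘ₗ flt j -
    bd ∘ₗ Θ ∘ₗ flt (n + 1)
  have hfu : ∀ q, ∀ u ∈ Sp (Gr q : Set (List H)), f u =
      (if q < n + 2 then m • s u else 0) - (if q = n + 1 then bd (Θ u) else 0) := by
    intro q u hu
    have h1 : (∑ j ∈ Finset.range (n + 2), (m • s) ∘ₗ flt j) u =
        (if q < n + 2 then m • s u else 0) := by
      rw [LinearMap.sum_apply]
      split_ifs with hq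
      · rw [Finset.sum_eq_single q]
        · rw [LinearMap.comp_apply, flt_eq hu]; rfl
        · intro j _ hj
          rw [LinearMap.comp_apply, flt_eq_zero (Ne.symm hj) hu, map_zero]
        · intro hq'
          exact absurd (Finset.mem_range.mpr hq) hq'
      · apply Finset.sum_eq_zero
        intro j hj
        rw [Finset.mem_range] at hj
        rw [LinearMap.comp_apply, flt_eq_zero (by omega) hu, map_zero]
    show (∑ j ∈ Finset.range (n + 2), (m • s) ∘ₗ flt j) u - bd (Θ (flt (n + 1) u)) = _
    rw [h1]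
    congr 1
    split_ifs with hq
    · subst hq
      rw [flt_eq hu]
    · rw [flt_eq_zero hq hu, map_zero, map_zero]
  have hfact : ∀ (g : H) (u : Ch H), f (act g u) = act g (f u) := by
    intro g u
    simp only [f, LinearMap.sub_apply, LinearMap.sum_apply, LinearMap.comp_apply, flt_act,
      LinearMap.smul_apply, hp.s_eq, hp.t_eq, bd_act, map_sub, map_sum, map_smul]
  have hfmem : ∀ q, ∀ u ∈ Sp (Gr q : Set (List H)), f u ∈ Sp (Gr q) := by
    intro q u hu
    rw [hfu q u hu]
    apply Submodule.sub_mem
    · split_ifs with hq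
      · exact Submodule.smul_mem _ _ (hsmem _ (by omega) u hu)
      · exact Submodule.zero_mem _
    · split_ifs with hq
      · subst hq
        exact bd_mem_Gr (htmem u hu)
      · exact Submodule.zero_mem _
  have hfnil : f (single [] 1) = m • single [] 1 := by
    rw [hfu 0 _ (single_mem_Sp (by simp [Gr]) 1), if_pos (by omega), if_neg (by omega), hp.s_nil,
      sub_zero]
  have hfbd : ∀ q, ∀ u ∈ Sp (Gr q : Set (List H)), bd (f u) = f (bd u) := by
    intro q u hu
    rcases q with _ | q
    · rw [bd_of_Gr_zero hu, bd_of_Gr_zero (hfmem 0 u hu), map_zero]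
    · rw [hfu _ u hu, hfu q _ (bd_mem_Gr hu)]
      rcases lt_trichotomy (q + 1) (n + 2) with h | h | h
      · rw [if_pos h, if_pos (by omega : q < n + 2), if_neg (by omega : ¬ q = n + 1), sub_zero,
          map_sub, map_smul, hp.s_bd _ (by omega) u hu]
        split_ifs with h'
        · rw [bd_bd, sub_zero]
        · rw [map_zero, sub_zero]
      · have hq : q = n + 1 := by omega
        subst hq
        rw [if_neg (by omega), if_neg (by omega), sub_zero, map_zero, if_pos (by omega),
          if_pos rfl, hp.t_bd _ (bd_mem_Gr hu) (bd_bd u), sub_self]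
      · rw [if_neg (by omega), if_neg (by omega), if_neg (by omega), if_neg (by omega), sub_zero,
          map_zero]
  intro M _ ρ q hq z hz hbz
  have hK := kapf_act (a := m) hfact
  -- the homotopy formula with coefficients
  have hform : ∀ w ∈ DG H M q, bM (tm (kapf f m q) w) = -(m • w) - tm (kapf f m (q - 1)) (bM w) := by
    intro w hw
    have := dg_ext (f := bM.comp (tm (kapf f m q)))
      (g := -(m • AddMonoidHom.id (CM H M)) - (tm (kapf f m (q - 1))).comp bM) (fun u x hu => by
      have h1 := bd_kapf hfnil hfbd q u hu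
      rw [hfu q u hu, if_neg (by omega), if_neg (by omega), sub_zero, zero_sub] at h1
      show tp (bd (kapf f m q u)) x = -(m • tp u x) - tp (kapf f m (q - 1) (bd u)) x
      rw [h1, tp_sub_left, tp_neg_left, tp_smul_left]) hw
    exact this
  refine ⟨-(tm (kapf f m q) z), AddSubgroup.neg_mem _ (tm_mem (kapf_mem hfmem q) hz), ?_⟩
  have h2 : m • z - bM (-(tm (kapf f m q) z)) = - tm (kapf f m (q - 1)) (bM z) := by
    rw [map_neg, hform z hz]; abel
  rw [h2]
  apply AddSubgroup.neg_mem
  apply tm_Rl (fun g _ u => hK (q - 1) g u) _ hbz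
  intro v hv
  have h3 : tm (kapf f m (q - 1)) v = 0 := by
    have := dg_ext (f := tm (kapf f m (q - 1))) (g := (0 : CM H M →+ CM H M)) (fun u x hu => by
      have : kapf f m (q - 1) u = 0 := by
        have := eq_of_Sp (L := kapf f m (q - 1)) (L' := 0) (p := Gr 0) (u := u) (by
          intro l hl
          have : l = [] := List.length_eq_zero_iff.mp hl
          subst this
          rw [kapf_nil]; rfl) hu
        simpa using this
      rw [tm_tp, this, tp_zero_left]; rfl) hv
    simpa using this
  rw [h3]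
  exact AddSubgroup.zero_mem _

end Vale.Agent.P188.H882
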