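import Vale.Agent.P188.H882.FS

/-!
The top cohomology with compact supports of a poly-`ℤ` group, and its coarse invariance.
-/

universe u v w

namespace Vale.Agent.P188.H882

open Finsupp

section Hat

variable {H : Type} [Group H]

lemma finite_orbit {q : ℕ} {c : Ch H →ₗ[ℤ] ℤ} (hc : FS q c) (l : List H) :
    {g : H | c (act g⁻¹ (flt q (single l 1))) ≠ 0}.Finite := by
  by_cases hl : l.length = q
  · rcases l with _ | ⟨x, s⟩
    · apply Set.Finite.subset Set.finite_empty
      intro g hg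
      exfalso
      apply hg
      rw [flt_single, if_pos hl, act_single, List.map_nil, hc.nil]
    · let A : Set H := (fun p : H × H => p.1⁻¹ * p.2) '' ({y | y ∈ (x :: s)} ×ˢ {y | y ∈ (x :: s)})
      have hA : A.Finite := ((List.finite_toSet _).prod (List.finite_toSet _)).image _
      have hlA : (x :: s) ∈ Ctl A := by
        intro y hy z hz
        exact ⟨(y, z), ⟨hy, hz⟩, rfl⟩
      have hfin := hc.fin A hA
      apply Set.Finite.of_finite_image (f := fun g : H => (x :: s).map (fun y => g⁻¹ • y))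
      · apply hfin.subset
        rintro _ ⟨g, hg, rfl⟩
        refine ⟨⟨Ctl_map_mul g⁻¹ hlA, by simpa [Gr] using hl⟩, ?_⟩
        have hg' : c (act g⁻¹ (flt q (single (x :: s) 1))) ≠ 0 := hg
        rw [flt_single, if_pos hl, act_single] at hg'
        exact hg'
      · intro g _ g' _ h
        simp only [List.map_cons, List.cons.injEq, smul_eq_mul] at h
        have := mul_right_cancel h.1
        exact inv_injective this
  · apply Set.Finite.subset Set.finite_empty
    intro g hg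
    exfalso
    apply hg
    rw [flt_single, if_neg hl, map_zero, map_zero]

/-- The equivariant map to the group ring associated with a functional. -/
noncomputable def hat {q : ℕ} {c : Ch H →ₗ[ℤ] ℤ} (hc : FS q c) : Ch H →ₗ[ℤ] RG H :=
  (Finsupp.linearCombination ℤ (fun l => Finsupp.ofSupportFinite
    (fun g : H => c (act g⁻¹ (flt q (single l 1)))) (finite_orbit hc l)) :
      Ch H →ₗ[ℤ] (H →₀ ℤ))

/-- Coefficients of elements of the group ring. -/
noncomputable def cf (g : H) : RG H →+ ℤ := (Finsupp.applyAddHom g : (H →₀ ℤ) →+ ℤ)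

omit [Group H] in
lemma rg_ext' {x y : RG H} (h : ∀ g, cf g x = cf g y) : x = y :=
  Finsupp.ext (f := (x : H →₀ ℤ)) (g := (y : H →₀ ℤ)) h

lemma cf_hat {q : ℕ} {c : Ch H →ₗ[ℤ] ℤ} (hc : FS q c) (g : H) (u : Ch H) :
    cf g (hat hc u) = c (act g⁻¹ (flt q u)) := by
  have : (Finsupp.lapply g ∘ₗ (Finsupp.linearCombination ℤ (fun l => Finsupp.ofSupportFinite
      (fun g : H => c (act g⁻¹ (flt q (single l 1)))) (finite_orbit hc l)) :
      Ch H →ₗ[ℤ] (H →₀ ℤ)) : Ch H →ₗ[ℤ] ℤ) = c ∘ₗ act g⁻¹ ∘ₗ flt q := by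
    apply lin_ext
    intro l
    rw [LinearMap.comp_apply, Finsupp.linearCombination_single, one_smul]
    rfl
  exact LinearMap.congr_fun this u

lemma cf_smul (g h : H) (x : RG H) : cf g (h • x) = cf (h⁻¹ * g) x := by
  have := rg_ext (f := (cf g).comp (DistribSMul.toAddMonoidHom (RG H) h)) (g := cf (h⁻¹ * g)) (by
    intro n
    simp only [AddMonoidHom.comp_apply, DistribSMul.toAddMonoidHom_apply]
    rw [smul_rgs]
    show (single (h * n) (1 : ℤ) : H →₀ ℤ) g = (single n (1 : ℤ) : H →₀ ℤ) (h⁻¹ * g)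
    by_cases e : g = h * n
    · subst e
      rw [inv_mul_cancel_left, Finsupp.single_eq_same, Finsupp.single_eq_same]
    · rw [Finsupp.single_eq_of_ne e, Finsupp.single_eq_of_ne]
      intro e'
      apply e
      rw [← e', mul_inv_cancel_left]) x
  simpa using this

lemma hat_eqv {q : ℕ} {c : Ch H →ₗ[ℤ] ℤ} (hc : FS q c) : Eqv H (hat hc) := by
  intro h u
  apply rg_ext'
  intro g
  rw [cf_smul, cf_hat, cf_hat, flt_act, ← act_mul]
  congr 2
  rw [mul_inv_rev, inv_inv]

lemma hat_coc {q : ℕ} {c : Ch H →ₗ[ℤ] ℤ} (hc : FS q c) (hcc : Coc q c) : Coc q (hat hc) := by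
  intro u hu
  apply rg_ext'
  intro g
  rw [cf_hat, map_zero, flt_eq (bd_mem_Gr hu), ← bd_act]
  exact hcc _ (act_mem_Gr _ hu)

/-- The coefficient at `1` of an equivariant map is a functional of finite support. -/
lemma fs_of_eqv {b : Ch H →ₗ[ℤ] RG H} (hb : Eqv H b) (q : ℕ) (hb0 : b (single [] 1) = 0) :
    ∃ β : Ch H →ₗ[ℤ] ℤ, FS q β ∧ ∀ g u, β (act g⁻¹ u) = cf g (b u) := by
  let β : Ch H →ₗ[ℤ] ℤ := ((cf 1).comp b.toAddMonoidHom).toIntLinearMap
  have hβ : ∀ u, β u = cf 1 (b u) := fun u => rfl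
  have hβ' : ∀ g u, β (act g⁻¹ u) = cf g (b u) := by
    intro g u
    rw [hβ, hb, cf_smul, inv_inv, mul_one]
  refine ⟨β, ⟨by rw [hβ, hb0, map_zero], fun A hA => ?_⟩, hβ'⟩
  obtain ⟨L, hL, hLA, hrep⟩ := exists_orbit_reps hA q
  have hsupp : ∀ l : List H, {g : H | cf g (b (single l 1)) ≠ 0}.Finite := by
    intro l
    exact Finsupp.hasFiniteSupport (b (single l 1) : H →₀ ℤ)
  apply (hL.biUnion (fun l _ => (hsupp l).image (fun g => l.map (fun x => g⁻¹ • x)))).subset
  rintro l ⟨hl, hne⟩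
  obtain ⟨g, l₀, hl₀, rfl⟩ := hrep l hl
  rw [Set.mem_iUnion₂]
  refine ⟨l₀, hl₀, g⁻¹, ?_, by simp⟩
  show cf g⁻¹ (b (single l₀ 1)) ≠ 0
  rw [← hβ', inv_inv, act_single]
  exact hne

end Hat

/-- The top cohomology with compact supports is infinite cyclic. -/
def TopZ (H : Type) [Group H] (n : ℕ) : Prop :=
  ∃ κ : Ch H →ₗ[ℤ] ℤ, FS (n + 1) κ ∧ Coc (n + 1) κ ∧
    (∀ c : Ch H →ₗ[ℤ] ℤ, FS (n + 1) c → Coc (n + 1) c → ∃ k : ℤ, ∃ β : Ch H →ₗ[ℤ] ℤ, FS n β ∧
      ∀ u ∈ Sp (Gr (n + 1) : Set (List H)), c u = k * κ u + β (bd u)) ∧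
    (∀ (k : ℤ) (β : Ch H →ₗ[ℤ] ℤ), FS n β →
      (∀ u ∈ Sp (Gr (n + 1) : Set (List H)), k * κ u = β (bd u)) → k = 0)

lemma topZ_of_dual {G : Type} [Group G] {n : ℕ} (h : Dual G n) : TopZ G n := by
  obtain ⟨ω, c₀, hD⟩ := h G (fun g x h => mul_eq_right.mp h)
  obtain ⟨γ', hγ', hγc', hγ1'⟩ := hD.surj (RG G) (rgs 1 1)
  -- restrict to lists of length `n + 1`
  obtain ⟨hγ, hγr⟩ := exists_restrict (c := γ') (q := n + 1) (fun g u _ => hγ' g u)
  set γ := γ' ∘ₗ flt (n + 1) with hγdef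
  have hγ0 : γ (single [] 1) = 0 := by
    rw [hγdef, LinearMap.comp_apply, flt_single, if_neg (by simp), map_zero]
  have hγc : Coc (n + 1) γ := by
    intro u hu
    rw [hγr _ (bd_mem_Gr hu), hγc' u hu]
  have hγ1 : γ c₀ - rgs 1 1 ∈ IM ω (RG G) := by
    rw [hγr _ hD.mem]; exact hγ1'
  have haug : aug ω (γ c₀) = 1 := by
    have := aug_IM hγ1
    rw [map_sub, sub_eq_zero] at this
    rw [this, aug, rgl_rgs, map_one, Units.val_one, one_smul]
  obtain ⟨κ, hκ, hκγ⟩ := fs_of_eqv hγ (n + 1) hγ0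
  have hκc : Coc (n + 1) κ := by
    intro u hu
    have := hκγ 1 (bd u)
    rw [hγc u hu, map_zero, inv_one, act_one] at this
    exact this
  refine ⟨κ, hκ, hκc, ?_, ?_⟩
  · intro c hc hcc
    set k := aug ω (hat hc c₀) with hk
    -- the difference
    have hmem : (hat hc - k • γ) c₀ ∈ IM ω (RG G) := by
      have h1 := evm_sub_mem (ω := ω) (M := RG G) (rgs (1 : G) 1) ((hat hc - k • γ) c₀)
      have h2 : aug ω ((hat hc - k • γ) c₀) = 0 := by
        have e : (hat hc - k • γ) c₀ = hat hc c₀ - k • γ c₀ := rfl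
        rw [e, map_sub, map_zsmul, haug, smul_eq_mul, mul_one, ← hk, sub_self]
      have h3 : ∀ x : RG G, evm (rgs (1 : G) 1) x = x := by
        intro x
        have := rg_ext (f := evm (rgs (1 : G) 1)) (g := AddMonoidHom.id (RG G)) (by
          intro g
          rw [evm, rgl_rgs, one_smul, smul_rgs, mul_one]
          rfl) x
        exact this
      rw [h2, h3, zero_smul, sub_zero] at h1
      exact h1
    have hke : Eqv G (k • γ) := by
      intro g u
      rw [LinearMap.smul_apply, LinearMap.smul_apply, hγ, smul_comm]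
    obtain ⟨b, hb, hb0, hb1⟩ := hD.inj (RG G) (hat hc - k • γ) ((hat_eqv hc).sub hke)
      ((hat_coc hc hcc).sub (by
        intro u hu
        rw [LinearMap.smul_apply, hγc u hu, smul_zero])) hmem
    obtain ⟨β, hβ, hβb⟩ := fs_of_eqv hb n hb0
    refine ⟨k, β, hβ, ?_⟩
    intro u hu
    have e1 := hb1 u hu
    have e2 := congrArg (cf 1) e1
    have e3 : (hat hc - k • γ) u = hat hc u - k • γ u := rfl
    rw [e3, map_sub, map_zsmul, cf_hat, ← hβb, ← hκγ, inv_one, act_one, act_one, act_one,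
      flt_eq hu, smul_eq_mul] at e2
    rw [e2]; ring
  · intro k β hβ hkβ
    have h1 := hD.coc (RG G) (hat hβ) (hat_eqv hβ) (by
      apply rg_ext'
      intro g
      rw [cf_hat, map_zero, flt_single]
      split_ifs with h
      · rw [act_single, List.map_nil, hβ.nil]
      · rw [map_zero, map_zero])
    have h2 : hat hβ (bd c₀) = k • γ c₀ := by
      apply rg_ext'
      intro g
      rw [cf_hat, map_zsmul, ← hκγ, flt_eq (bd_mem_Gr hD.mem), ← bd_act, smul_eq_mul]
      exact (hkβ _ (act_mem_Gr _ hD.mem)).symm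
    have h3 := aug_IM h1
    rw [h2, map_zsmul, haug, smul_eq_mul, mul_one] at h3
    exact h3

end Vale.Agent.P188.H882
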