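import Vale.Agent.P188.H882.TopZ

/-!
Coarse invariance of the top cohomology with compact supports, and the subgroup acting
trivially on it.
-/

universe u v w

namespace Vale.Agent.P188.H882

open Finsupp

lemma pr_nil_eq {X : Type*} (f : X → X) : pr f (single ([] : List X) 1) = 0 := by
  simp [prl]

lemma topZ_of_coarse {H G : Type} [Group H] [Group G] {n : ℕ} (hc : CoarseEquiv H G)
    (hG : TopZ G n) : TopZ H n := by
  obtain ⟨F, F', hF, hF', h1, h2⟩ := hc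
  obtain ⟨κ, hκ, hκc, hcyc, hnt⟩ := hG
  have lF : ∀ q, Loc q q (pf F) := fun q => loc_pf hF (fib_of_closeId h1) q
  have lF' : ∀ q, Loc q q (pf F') := fun q => loc_pf hF' (fib_of_closeId h2) q
  have pull : ∀ {X Y : Type} (f : X → Y) (c : Ch Y →ₗ[ℤ] ℤ) (q : ℕ), Coc q c →
      Coc q (c ∘ₗ pf f) := by
    intro X Y f c q hcc u hu
    rw [LinearMap.comp_apply, ← bd_pf]
    exact hcc _ (pf_mem (fun l hl => by simpa [Gr] using hl) hu)
  -- comparison along a map close to the identity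
  have comp : ∀ {X : Type} [Group X] (f : X → X) (c : Ch X →ₗ[ℤ] ℤ), Coc (n + 1) c →
      ∀ u ∈ Sp (Gr (n + 1) : Set (List X)), c (pf f u) = c u + c (pr f (bd u)) := by
    intro X _ f c hcc u hu
    have h := bd_pr f u
    have h3 : c (bd (pr f u)) = 0 := hcc _ (pr_mem (fun l hl l' _ hl' => by
      rw [mem_Gr] at *; omega) hu)
    have h4 : pf f u = bd (pr f u) + pr f (bd u) + u := by
      rw [h]; abel
    rw [h4, map_add, map_add, h3]
    ring
  refine ⟨κ ∘ₗ pf F, hκ.comp (lF _), pull F κ _ hκc, ?_, ?_⟩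
  · intro c hc hcc
    obtain ⟨k, β, hβ, hkβ⟩ := hcyc (c ∘ₗ pf F') (hc.comp (lF' _)) (pull F' c _ hcc)
    refine ⟨k, β ∘ₗ pf F - c ∘ₗ pr (F' ∘ F), (hβ.comp (lF _)).sub (hc.comp (loc_pr h1 n)), ?_⟩
    intro u hu
    have e1 := hkβ (pf F u) (pf_mem (fun l hl => by simpa [Gr] using hl) hu)
    rw [LinearMap.comp_apply, pf_comp, comp _ c hcc u hu, bd_pf] at e1
    simp only [LinearMap.sub_apply, LinearMap.comp_apply]
    linarith
  · intro k β hβ hkβ
    apply hnt k (β ∘ₗ pf F' - k • (κ ∘ₗ pr (F ∘ F')))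
      ((hβ.comp (lF' _)).sub ((hκ.comp (loc_pr h2 n)).smul k))
    intro u hu
    have e1 := hkβ (pf F' u) (pf_mem (fun l hl => by simpa [Gr] using hl) hu)
    rw [LinearMap.comp_apply, pf_comp, comp _ κ hκc u hu, bd_pf] at e1
    simp only [LinearMap.sub_apply, LinearMap.comp_apply, LinearMap.smul_apply, smul_eq_mul]
    linarith

/-- Functionals with the same class. -/
def Hom (H : Type) [Group H] (n : ℕ) (c c' : Ch H →ₗ[ℤ] ℤ) : Prop :=
  ∃ β : Ch H →ₗ[ℤ] ℤ, FS n β ∧ ∀ u ∈ Sp (Gr (n + 1) : Set (List H)), c u = c' u + β (bd u)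

section

variable {H : Type} [Group H] {n : ℕ} {c c' c'' : Ch H →ₗ[ℤ] ℤ}

lemma Hom.refl (c : Ch H →ₗ[ℤ] ℤ) : Hom H n c c := ⟨0, FS.zero, fun u _ => by simp⟩

lemma Hom.symm (h : Hom H n c c') : Hom H n c' c := by
  obtain ⟨β, hβ, h⟩ := h
  refine ⟨-β, hβ.neg, fun u hu => ?_⟩
  rw [h u hu, LinearMap.neg_apply]; ring

lemma Hom.trans (h : Hom H n c c') (h' : Hom H n c' c'') : Hom H n c c'' := by
  obtain ⟨β, hβ, h⟩ := h
  obtain ⟨β', hβ', h'⟩ := h'
  refine ⟨β + β', hβ.add hβ', fun u hu => ?_⟩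
  rw [h u hu, h' u hu, LinearMap.add_apply]; ring

lemma Hom.smul (h : Hom H n c c') (k : ℤ) : Hom H n (k • c) (k • c') := by
  obtain ⟨β, hβ, h⟩ := h
  refine ⟨k • β, hβ.smul k, fun u hu => ?_⟩
  rw [LinearMap.smul_apply, LinearMap.smul_apply, LinearMap.smul_apply, h u hu, smul_add]

lemma Hom.add {d d' : Ch H →ₗ[ℤ] ℤ} (h : Hom H n c c') (h' : Hom H n d d') :
    Hom H n (c + d) (c' + d') := by
  obtain ⟨β, hβ, h⟩ := h
  obtain ⟨β', hβ', h'⟩ := h'
  refine ⟨β + β', hβ.add hβ', fun u hu => ?_⟩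
  rw [LinearMap.add_apply, LinearMap.add_apply, LinearMap.add_apply, h u hu, h' u hu]; ring

/-- Precomposition with the action. -/
lemma Hom.act (h : Hom H n c c') (g : H) :
    Hom H n (c ∘ₗ Vale.Agent.P188.act g) (c' ∘ₗ Vale.Agent.P188.act g) := by
  obtain ⟨β, hβ, h⟩ := h
  refine ⟨β ∘ₗ Vale.Agent.P188.act g, hβ.comp (loc_act g n), fun u hu => ?_⟩
  simp only [LinearMap.comp_apply]
  rw [h _ (act_mem_Gr g hu), bd_act]

lemma coc_act (hcc : Coc (n + 1) c) (g : H) : Coc (n + 1) (c ∘ₗ act g) := by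
  intro u hu
  rw [LinearMap.comp_apply, ← bd_act]
  exact hcc _ (act_mem_Gr g hu)

lemma comp_act_mul (c : Ch H →ₗ[ℤ] ℤ) (g h : H) : (c ∘ₗ act g) ∘ₗ act h = c ∘ₗ act (g * h) := by
  ext u
  simp [act_mul]

lemma comp_act_one (c : Ch H →ₗ[ℤ] ℤ) : c ∘ₗ act (1 : H) = c := by
  apply LinearMap.ext
  intro u
  rw [LinearMap.comp_apply, act_one]

end

/-- A generator of the top cohomology with compact supports. -/
structure Gen (H : Type) [Group H] (n : ℕ) (κ : Ch H →ₗ[ℤ] ℤ) : Prop where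
  fs : FS (n + 1) κ
  coc : Coc (n + 1) κ
  cyc : ∀ c : Ch H →ₗ[ℤ] ℤ, FS (n + 1) c → Coc (n + 1) c → ∃ k : ℤ, Hom H n c (k • κ)
  nt : ∀ k : ℤ, Hom H n (k • κ) 0 → k = 0

lemma TopZ.exists_gen {H : Type} [Group H] {n : ℕ} (h : TopZ H n) : ∃ κ, Gen H n κ := by
  obtain ⟨κ, hκ, hκc, hcyc, hnt⟩ := h
  refine ⟨κ, hκ, hκc, ?_, ?_⟩
  · intro c hc hcc
    obtain ⟨k, β, hβ, h⟩ := hcyc c hc hcc
    exact ⟨k, β, hβ, fun u hu => by rw [h u hu]; simp⟩
  · rintro k ⟨β, hβ, h⟩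
    apply hnt k β hβ
    intro u hu
    have := h u hu
    simpa using this

section Plus

variable {H : Type} [Group H] {n : ℕ} {κ : Ch H →ₗ[ℤ] ℤ}

lemma Gen.uniq (hκ : Gen H n κ) {k k' : ℤ} (h : Hom H n (k • κ) (k' • κ)) : k = k' := by
  have h1 := h.add (Hom.refl (n := n) ((-k') • κ))
  rw [← add_smul, ← add_smul, add_neg_cancel, zero_smul] at h1
  have := hκ.nt _ h1
  omega

/-- The subgroup acting trivially. -/
def Gen.plus (hκ : Gen H n κ) : Subgroup H where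
  carrier := {g | Hom H n (κ ∘ₗ act g) κ}
  mul_mem' := by
    intro a b ha hb
    have := (Hom.act ha b).trans hb
    rwa [comp_act_mul] at this
  one_mem' := by
    show Hom H n (κ ∘ₗ act (1 : H)) κ
    rw [comp_act_one]
    exact Hom.refl κ
  inv_mem' := by
    intro a ha
    have := Hom.act ha a⁻¹
    rw [comp_act_mul, mul_inv_cancel, comp_act_one] at this
    exact this.symm

lemma Gen.mem_plus (hκ : Gen H n κ) (g : H) : g ∈ hκ.plus ↔ Hom H n (κ ∘ₗ act g) κ := Iff.rfl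

lemma Gen.sign (hκ : Gen H n κ) (g : H) : g ∈ hκ.plus ∨ Hom H n (κ ∘ₗ act g) ((-1 : ℤ) • κ) := by
  obtain ⟨k, hk⟩ := hκ.cyc (κ ∘ₗ act g) (hκ.fs.comp (loc_act g _)) (coc_act hκ.coc g)
  obtain ⟨k', hk'⟩ := hκ.cyc (κ ∘ₗ act g⁻¹) (hκ.fs.comp (loc_act g⁻¹ _)) (coc_act hκ.coc g⁻¹)
  have h1 : Hom H n κ ((k * k') • κ) := by
    have h2 := Hom.act hk g⁻¹
    rw [comp_act_mul, mul_inv_cancel, comp_act_one] at h2
    have h3 : (k • κ) ∘ₗ act g⁻¹ = k • (κ ∘ₗ act g⁻¹) := rfl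
    rw [h3] at h2
    have h4 := h2.trans (hk'.smul k)
    rwa [smul_smul] at h4
  have h5 : (1 : ℤ) = k * k' := hκ.uniq (by rwa [one_smul])
  have hu : IsUnit k := IsUnit.of_mul_eq_one k' h5.symm
  rcases Int.isUnit_iff.mp hu with rfl | rfl
  · left
    rw [one_smul] at hk
    exact hk
  · right
    exact hk

lemma Gen.plus_finiteIndex (hκ : Gen H n κ) : hκ.plus.FiniteIndex := by
  by_cases h : ∃ a : H, a ∉ hκ.plus
  · obtain ⟨a, ha⟩ := h
    have key : ∀ x y : H, x ∉ hκ.plus → y ∉ hκ.plus → x * y ∈ hκ.plus := by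
      intro x y hx hy
      have h1 := (hκ.sign x).resolve_left hx
      have h2 := (hκ.sign y).resolve_left hy
      have h3 := Hom.act h1 y
      rw [comp_act_mul] at h3
      have h4 : ((-1 : ℤ) • κ) ∘ₗ act y = (-1 : ℤ) • (κ ∘ₗ act y) := rfl
      rw [h4] at h3
      have h5 := h3.trans (h2.smul (-1))
      rw [smul_smul] at h5
      norm_num at h5
      exact h5
    have h2 : hκ.plus.index = 2 := by
      rw [Subgroup.index_eq_two_iff]
      refine ⟨a, fun b => ?_⟩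
      by_cases hb : b ∈ hκ.plus
      · right
        refine ⟨hb, fun h => ha ?_⟩
        exact (Subgroup.mul_mem_cancel_left _ hb).mp h
      · left
        exact ⟨key b a hb ha, hb⟩
    exact ⟨by rw [h2]; norm_num⟩
  · push Not at h
    have : hκ.plus = ⊤ := by
      rw [eq_top_iff]
      intro x _
      exact h x
    rw [this]
    infer_instance

end Plus

end Vale.Agent.P188.H882
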